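-- KEEP
import Claimed.Agent.R256.Base.Cyl
import Claimed.Agent.R256.Base.RndWav
import Claimed.Agent.R256.Rt.LiftDefs

/-!
# Row 256 (LS paper), folder Fz = WAVE FREEZE (Lemma rt:classical-base, 07 l.1009-1183), file Defs : SHARED DEFINITIONS          (chief helper207; prefix `fz_`, defs `fz*`, `Fz*`)          DEFINITIONS ONLY, FROZEN (ask helper207)

A FLAT round wave `G` (state of `rndWav`, momentum side `(ξ, ρ)`, Planck parameter `H`, group thickness `fs = f_*`) is turned into hybrid cylinder states, one for each dyadic band `a ≤ s0 < 2a` of `σ = 2Hρ`.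
FLAT VARIABLES   `X = A₁, B = b₁, Y = y, N = A₂/fs, D = b₂/fs` (`rtFl fs`),   `u = fs ξ₂`,   `σ = 2Hρ`,   `Hf = H/fs²`.      The free evolution factors EXACTLY: `e^{-iT|ξ|²/4ρ} = e^{-iTξ₁²/4ρ} e^{-iT Hf u²/(2σ)}`.
* `fzB`        ONE fixed smooth even bump on `ℝ`, support `t² < 2`, `∫ fzB² = 1`.
* `FzP`        the parameters `H, fs` and the two window widths `tX` (in `X = ξ₁/2ρ`), `tS` (in `σ`).      CHOICE in the assembly: `tX = √H δ^S`, `tS = Hf δ^S`.
* `FzOm`       the exact index `ω = (X0, s0, B0, Y0) ∈ ℝ⁴`, Lebesgue measure.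
* `fzW P`      `(W G)(ω, u) = cW ∫∫ e^{i(ξ₁ B0 - ρ Y0)} fzB((ξ₁/2ρ - X0)/tX) fzB((2Hρ - s0)/tS) G((ξ₁, u/fs), ρ) dξ₁ dρ`,   `cW = ((2π)² tX tS fs)^{-1/2}`:   an ISOMETRY `L²(ξ,ρ) → L²(ω,u)` (unit FZ-W).
* `fzHy P a`   the hybrid parameter of the band `a`:  `Om = FzOm`, `m = volume`, `Fb = ℂ`, `X = X0, B = B0, Y = Y0`, `sg = clamp (s0/a)`, `H = Hf/a`.      `Kc` of `(fzHy P a).sys η` IS the target of `fzW P`.
* `fzCut U V`  `1_{U × ℝ} V`;   `fzBand a`, `fzBox R`;   `fzSt P a R G = 1_{band a ∩ box R} W G` the hybrid state.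
* `fzC0`       the cross operator `An_round(T,k,β) W^* 1_{band a} An_hyb(T,k)^*` (a contraction).
-/

set_option autoImplicit false

namespace Claimed.Agent.R256

open MeasureTheory
open scoped ENNReal

/-- the unnormalised bump -/
noncomputable def fzB0 (t : ℝ) : ℝ := Real.smoothTransition (2 - t ^ 2)

/-- the bump, `∫ fzB² = 1` -/
noncomputable def fzB (t : ℝ) : ℝ := fzB0 t / Real.sqrt (∫ t', fzB0 t' ^ 2)

/-- parameters of the freeze -/
structure FzP where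
  H : ℝ
  fs : ℝ
  tX : ℝ
  tS : ℝ

/-- all parameters are positive -/
structure FzP.Ok (P : FzP) : Prop where
  H_pos : 0 < P.H
  fs_pos : 0 < P.fs
  tX_pos : 0 < P.tX
  tS_pos : 0 < P.tS

/-- the flat Planck parameter -/
noncomputable def FzP.Hf (P : FzP) : ℝ := P.H / P.fs ^ 2

/-- the round parameter -/
def FzP.rd (P : FzP) (h : P.Ok) : RdWvPar := ⟨P.H, h.H_pos⟩

/-- the exact index `(X0, s0, B0, Y0)` -/
abbrev FzOm : Type := ℝ × ℝ × ℝ × ℝ

/-- the normalisation of `W` -/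
noncomputable def FzP.cW (P : FzP) : ℝ := (Real.sqrt ((2 * Real.pi) ^ 2 * P.tX * P.tS * P.fs))⁻¹

/-- the kernel of `W` in the base variables `z = (ξ₁, ρ)` -/
noncomputable def FzP.wk (P : FzP) (ω : FzOm) (z : ℝ × ℝ) : ℂ :=
  ((P.cW * fzB ((z.1 / (2 * z.2) - ω.1) / P.tX) * fzB ((2 * P.H * z.2 - ω.2.1) / P.tS) : ℝ) : ℂ)
    * Complex.exp (Complex.I * ((z.1 * ω.2.2.1 - z.2 * ω.2.2.2 : ℝ) : ℂ))

/-- `W G` as a function -/
noncomputable def FzP.wf (P : FzP) (G : Lp ℂ 2 (volume : Measure RdWvPar.Mo)) (x : FzOm × ℝ) : ℂ :=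
  ∫ z : ℝ × ℝ, P.wk x.1 z * (G : RdWvPar.Mo → ℂ) ((z.1, x.2 / P.fs), z.2)

/-- the operator `W` (junk value `0` unless the formula defines a bounded operator: THEOREM `fz_w_spec` of the unit FZ-W) -/
noncomputable def fzW (P : FzP) : Lp ℂ 2 (volume : Measure RdWvPar.Mo) →L[ℂ] Lp ℂ 2 ((volume : Measure FzOm).prod (volume : Measure ℝ)) :=
  open Classical in
  if h : ∃ L : Lp ℂ 2 (volume : Measure RdWvPar.Mo) →L[ℂ] Lp ℂ 2 ((volume : Measure FzOm).prod (volume : Measure ℝ)),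
      ∀ G, (L G : FzOm × ℝ → ℂ) =ᵐ[(volume : Measure FzOm).prod (volume : Measure ℝ)] P.wf G
  then h.choose else 0

/-- the hybrid parameter of the band `a` -/
noncomputable def fzHy (P : FzP) (a : ℝ) : ChyPar where
  Om := FzOm
  m := volume
  Fb := ℂ
  X := fun ω => ω.1
  B := fun ω => ω.2.2.1
  Y := fun ω => ω.2.2.2
  sg := fun ω => max 1 (min 2 (ω.2.1 / a))
  H := P.Hf / a

/-- the band `a ≤ s0 < 2a` -/
def fzBand (a : ℝ) : Set FzOm := {ω | a ≤ ω.2.1 ∧ ω.2.1 < 2 * a}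

/-- the base box -/
def fzBox (R : ℝ) : Set FzOm := {ω | |ω.1| ≤ R ∧ |ω.2.2.1| ≤ R ∧ |ω.2.2.2| ≤ R}

/-- `1_{U × ℝ} V` -/
noncomputable def fzCut (U : Set FzOm) (V : Lp ℂ 2 ((volume : Measure FzOm).prod (volume : Measure ℝ))) :
    Lp ℂ 2 ((volume : Measure FzOm).prod (volume : Measure ℝ)) :=
  open Classical in
  if h : MemLp ((U ×ˢ (Set.univ : Set ℝ)).indicator (V : FzOm × ℝ → ℂ)) 2 ((volume : Measure FzOm).prod (volume : Measure ℝ)) then h.toLp _ else 0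

/-- the hybrid state of the band `a`, base box `R` -/
noncomputable def fzSt (P : FzP) (a R : ℝ) (G : Lp ℂ 2 (volume : Measure RdWvPar.Mo)) :
    Lp ℂ 2 ((volume : Measure FzOm).prod (volume : Measure ℝ)) := fzCut (fzBand a ∩ fzBox R) (fzW P G)

/-- the flat coordinates of a round row -/
noncomputable def fzFl (fs : ℝ) (x : RdWvPar.Ph) : Cy5 := rtFl fs ⟨x.1, x.2.1, x.2.2⟩

/-- the flat region of size `R`: all five flat coordinates are at most `R` -/
def fzIn (fs R : ℝ) : Set RdWvPar.Ph :=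
  {x | |(fzFl fs x).X| ≤ R ∧ |(fzFl fs x).B| ≤ R ∧ |(fzFl fs x).Y| ≤ R ∧ |(fzFl fs x).N| ≤ R ∧ |(fzFl fs x).D| ≤ R}

theorem fz_defs_eqns_cite : True := by
  have := @fzB0.eq_1
  have := @fzB.eq_1
  have := @FzP.Hf.eq_1
  have := @FzP.rd.eq_1
  have := @FzP.cW.eq_1
  have := @FzP.wk.eq_1
  have := @FzP.wf.eq_1
  have := @fzW.eq_1
  have := @fzHy.eq_1
  have := @fzBand.eq_1
  have := @fzBox.eq_1
  have := @fzCut.eq_1
  have := @fzSt.eq_1
  have := @fzFl.eq_1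
  have := @fzIn.eq_1
  trivial

/-- the state space of the hybrid system of a band is the target of `W` -/
example (P : FzP) (a η : ℝ) : ((fzHy P a).sys η).Kc = Lp ℂ 2 ((volume : Measure FzOm).prod (volume : Measure ℝ)) := rfl

/-- the cross operator `An_round(T,k,β) W^* 1_{band a} An_hyb(T,k)^*` applied to a row function of the hybrid system -/
noncomputable def fzC0 (P : FzP) (h : P.Ok) (a T : ℝ) (k β : ℕ) (F : Lp ℂ 2 (fzHy P a).rw) : Lp ℂ 2 ((P.rd h).rw k) :=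
  (P.rd h).an T k β (ContinuousLinearMap.adjoint (fzW P) (fzCut (fzBand a) (ContinuousLinearMap.adjoint ((fzHy P a).an T k) F)))

theorem fz_c0_eqns_cite : True := by
  have := @fzC0.eq_1
  trivial

end Claimed.Agent.R256
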