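-- KEEP
import Claimed.Agent.R256.Fz.Defs

/-!
# Row 256 (LS paper), folder Fz, file Flat : THE INTERFACE BETWEEN TRANSPORT (helper76) AND FREEZE (helper207)          (prefix `fz_`)          CONTRACT FILE (definitions only)

**FLAT-RATE**: a flat free round wave obeys the HYBRID CYLINDER RATE with respect to CYLINDER TESTS pulled back by `fzFl fs` (`X = A₁, B = b₁, Y = y, N = A₂/fs, D = b₂/fs`).      No chart, no round test, no experiment of `rndWav` occurs.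
`FzDat` = the flat wave in NORMALISED units: parent length `1` (`k0 = 0`), root time `0` (root interval `[0,1)`), relative scale `δ = s = 2^-n`, state `G` (interaction picture, pulled back to time `0`), budget `e`, CYLINDER regularity `bq`,
group thickness `fs = f_*`, generations `b0` (root), `bT` (terminal), labels `l`: final interval `iv l < 2^n` of depth `n`, cylinder test `tc l` (coefficients AT THE TIME OF USE, as everywhere in `Base/Cyl`), fractional weight `th l` on round rows.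
`FzDat.Ok η C A Ds Dt g0`:
 * `spec`   the spectrum of `G` lies in the plateau of generation `b0`            * `e_lo, e_hi`   `e ≈ bq` up to `δ^{±C}`            * `H_lo, H_hi`   `δ^C ≤ Hf = H/fs² ≤ δ`
 * `root`   the root row energy outside `{all five flat coordinates ≤ δ^(-g0/2)}` is `≤ δ^A e`
 * `reg`    **cylinder regularity on a TRUNCATED family**: widths in `[δ^Dt, δ^-g0]`, the five shear coefficients `≤ δ^-Dt`, base centres arbitrary, thickness above the uncertainty floor `d_1 ≤ fs Q.f`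
 * `th_*`   a fractional assignment at every time, `th l` carried by `{cyIn (tc l) δ (fzFl fs x)}`            * `tc_bd`  all parameters of the label tests `≤ δ^-Ds`, widths `≥ δ^Ds`            * `tc_unc`  `d_δ ≤ fs (tc l).f`.
ORDER OF CONSTANTS in `FzFlatRate`:   `γ, Ds | Dt, Zf | g0 ∈ (0,1] | C | A, n0`.      (`Dt` depends only on `Ds`, `η`: it is the exponent `D1` of `CyTrRate`; JITTER / full regularity is INSIDE `cy_trrate`: risk R1 does not concern Rt.)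
HOW TRANSPORT USES IT (07 l.1185-1235):   `bq = δ^-Cγ κ r⁴ f_*^(1-η)` (input transfers + LIFT `rt_lift`; the additive errors are `≤ bq δ^(4 Dt)`),   `cyWt (tc l) ≤ δ^-Cγ (f/f_*)^(1-η)` (ENDLIFT),   `Ds = D1 + 1`;   `f_*` cancels.
-/

set_option autoImplicit false

namespace Claimed.Agent.R256

open MeasureTheory
open scoped ENNReal

/-- a flat free round wave with cylinder labels -/
structure FzDat where
  p : RdWvPar
  n : ℕ
  G : Lp ℂ 2 (volume : Measure RdWvPar.Mo)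
  e : ℝ
  bq : ℝ
  fs : ℝ
  b0 : ℕ
  bT : ℕ
  L : ℕ
  iv : Fin L → ℕ
  tc : Fin L → CyT
  th : Fin L → RdWvPar.Ph → ℝ

namespace FzDat

variable (d : FzDat)

/-- the scale -/
noncomputable def s : ℝ := (2 : ℝ)⁻¹ ^ d.n

/-- the mass of a label -/
noncomputable def m (l : Fin d.L) : ℝ := (d.p.sys 0).en (tmL d.n (d.iv l)) d.n d.bT (d.th l) d.G

/-- the cubic readout against the CYLINDER weights -/
noncomputable def rd (η : ℝ) : ℝ := ∑ l, d.m l ^ (3 / 2 : ℝ) / Real.sqrt (cyWt η (d.tc l))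

/-- the root row energy of a set of rows -/
noncomputable def ms0 (S : Set RdWvPar.Ph) : ℝ := (d.p.sys 0).ms 0 0 d.b0 S d.G

/-- all ten parameters of a cylinder test are at most `M`, the widths at least `1/M` -/
def _root_.Claimed.Agent.R256.fzBd (M : ℝ) (Q : CyT) : Prop :=
  |Q.x| ≤ M ∧ |Q.b| ≤ M ∧ |Q.y| ≤ M ∧ M⁻¹ ≤ Q.r ∧ Q.r ≤ M ∧ M⁻¹ ≤ Q.f ∧ Q.f ≤ M ∧ cySh Q M

/-- the hypotheses of FLAT-RATE -/
structure Ok (η : ℝ) (C A : ℕ) (Ds Dt g0 : ℝ) : Prop where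
  e_pos : 0 < d.e
  bq_pos : 0 < d.bq
  fs_pos : 0 < d.fs
  budget : ‖d.G‖ ^ 2 ≤ d.e
  spec : d.p.Spec d.b0 d.G
  gen : d.b0 ≤ C ∧ d.bT ≤ C
  e_lo : d.s ^ (C : ℝ) * d.bq ≤ d.e
  e_hi : d.e ≤ d.s ^ (-(C : ℝ)) * d.bq
  H_lo : d.s ^ (C : ℝ) ≤ d.p.H / d.fs ^ 2
  H_hi : d.p.H / d.fs ^ 2 ≤ d.s
  root : d.ms0 (fzIn d.fs (d.s ^ (-(g0 / 2))))ᶜ ≤ d.s ^ (A : ℝ) * d.e
  reg : ∀ Q : CyT, d.s ^ Dt ≤ Q.r → Q.r ≤ d.s ^ (-g0) → d.s ^ Dt ≤ Q.f → Q.f ≤ d.s ^ (-g0) → cySh Q (d.s ^ (-Dt)) → rdD d.p.H 0 ≤ d.fs * Q.f →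
    d.ms0 {x | cyIn Q 1 (fzFl d.fs x)} ≤ d.bq * cyWt η Q
  iv_in : ∀ l, d.iv l < 2 ^ d.n
  th_meas : ∀ l, Measurable (d.th l)
  th_nn : ∀ l x, 0 ≤ d.th l x
  th_sum : ∀ i x, ∑ l, (if d.iv l = i then d.th l x else 0) ≤ 1
  th_supp : ∀ l x, d.th l x ≠ 0 → cyIn (d.tc l) d.s (fzFl d.fs x)
  tc_bd : ∀ l, fzBd (d.s ^ (-Ds)) (d.tc l)
  tc_unc : ∀ l, rdD d.p.H d.n ≤ d.fs * (d.tc l).f

end FzDat

/-- **FLAT-RATE** with the exponent `Γc` -/
def FzFlatRate (η Γc : ℝ) : Prop :=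
  ∀ γ Ds : ℝ, 0 < γ → 0 < Ds → ∃ Dt Zf : ℝ, 0 < Dt ∧ ∀ g0 : ℝ, 0 < g0 → g0 ≤ 1 → ∀ C : ℕ, ∃ A n0 : ℕ,
    ∀ d : FzDat, n0 ≤ d.n → d.Ok η C A Ds Dt g0 → d.fs ≤ d.s ^ Zf →
      d.rd η ≤ 2 ^ (-((1 / 2 - Γc - γ) * d.n)) * d.e * Real.sqrt d.bq

theorem fz_flat_eqns_cite : True := by
  have := @FzDat.s.eq_1
  have := @FzDat.m.eq_1
  have := @FzDat.rd.eq_1
  have := @FzDat.ms0.eq_1
  have := @fzBd.eq_1
  have := @FzFlatRate.eq_1
  trivial

end Claimed.Agent.R256
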