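-- KEEP
import Claimed.Agent.R256.Fz.Flat
import Claimed.Agent.R256.Cyl.Defs
import Claimed.Agent.R256.Rt.LiftContract

/-!
# Row 256 (LS paper), folder Fz, unit FZ-GEO, file Geo : GEOMETRY OF THE FREEZE (G1-G3)          (helper233; chief helper207; prefix `fz_g_`)          no measure, no operator

`s = δ` is ANY real with `0 < s ≤ 1/2` (assembly: `s = d.s`, `n ≥ 1`).      `z` = flat coordinates of a round row (`fzFl fs x`), `z'` = instantaneous coordinates of a hybrid row (`(fzHy P a).co T x'`), or conversely (`fz_g_near_symm`).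
* `fzFr r0`      THE FRAME: centre `0`, zero shear, both widths `r0`      (assembly: `r0 = s^-g0 / 4`, any `0 < g0 ≤ 1`: only `1/4 ≤ r0 ≤ s⁻¹/4` is used)
* `fzUp Q f'`    THE ENLARGED TEST: base width `2 Q.r`, normal width `f'`, same centres and shear
* `fzBoxT T R`   the base box AT THE TIME `T` (the cut of the hybrid state must be made at the ROOT time `T = i0`: `Y0 = Y - i0 X²` is of size `R²`)
 G0  `fz_g_near_symm`, `fz_g_cell_bd`      a bounded test has a bounded cell: `|X|, |B| ≤ 2M`, `|Y| ≤ 4M²`, `|N|, |D| ≤ 20M³`      (so `Z0 = {|N| ≤ s^(-S/2)}` needs `S ≥ 6 Ds + 10`)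
 G1  `fz_g_up`       stability of a test under comparison errors (explicit numbers; no bound on `c, d`)
     `fz_g_wt`       `cyWt (fzUp Q f') ≤ 16 c cyWt Q` if `f' ≤ c Q.f`
     `fz_g_lab`      LABELS (`l ≤ 1`): `fzBd (s^-Ds) Q`, `eb ≤ s^(4Ds+8)`, `2 Q.f + en ≤ f'`
 G2  `fz_g_tr`       `CyTr T0 0 (fzFr r0) ρ Q` unfolded
     `fz_g_root`     ROOT TESTS: `Q` in the truncated family `ρ = s^D`, a point of the cell in the region  ⟹  the hypotheses of `FzDat.Ok.reg` (with `Dt = D + 2`) for `fzUp Q (2 Q.f + en)`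
     `fz_g_root_near`      rows near the cell (inside the unit base box of the frame) lie in the enlarged cell: `eb ≤ s^(2D+9)`
     `fz_g_box`, `fz_g_box_near`, `fz_g_nor`      base support, neighbours of the root region, normal size in the frame
 G3  `fz_g_bdd`      `fzBd (s^-Ds) Q` ⟹ `CyBdd (s^(Ds+4)) (cyNrm T0 0 (fzFr r0) T (fzUp Q f'))` if `Q.f ≤ f' ≤ s⁻¹ Q.f`      (so `Ds' = Ds + 4`)
-/

set_option autoImplicit false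

namespace Claimed.Agent.R256

/-- the frame of the flat wave -/
def fzFr (r0 : ℝ) : CyT := ⟨0, 0, 0, r0, r0, 0, 0, 0, 0, 0⟩

/-- the enlarged test -/
def fzUp (Q : CyT) (f' : ℝ) : CyT := { Q with r := 2 * Q.r, f := f' }

/-- the base box at the time `T` -/
def fzBoxT (T R : ℝ) : Set FzOm := {ω | |ω.1| ≤ R ∧ |ω.2.2.1 + T * ω.1| ≤ R ∧ |ω.2.2.2 + T * ω.1 ^ 2| ≤ R}

theorem fz_geo_eqns_cite : True := by
  have := @fzFr.eq_1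
  have := @fzUp.eq_1
  have := @fzBoxT.eq_1
  trivial

/-! ## G0 -/

/-- LEAF `L-256-FZ-GEO-0`.   `abs_sub_comm`. -/
theorem fz_g_near_symm {l eb en : ℝ} {z z' : Cy5} (h : cyNear l eb en z z') : cyNear l eb en z' z := by
  obtain ⟨h1, h2, h3, h4, h5⟩ := h
  exact ⟨by rwa [abs_sub_comm], by rwa [abs_sub_comm], by rwa [abs_sub_comm], by rwa [abs_sub_comm], by rwa [abs_sub_comm]⟩

/-- LEAF `L-256-FZ-GEO-0` -/
theorem fz_g_near_mono {l eb en eb' en' : ℝ} {z z' : Cy5} (hl : 0 ≤ l) (h : cyNear l eb en z z') (h1 : eb ≤ eb') (h2 : en ≤ en') : cyNear l eb' en' z z' := by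
  obtain ⟨a1, a2, a3, a4, a5⟩ := h
  exact ⟨a1.trans h1, a2.trans (mul_le_mul_of_nonneg_left h1 hl), a3.trans (mul_le_mul_of_nonneg_left h1 hl), a4.trans h2,
    a5.trans (mul_le_mul_of_nonneg_left h2 hl)⟩

/-- LEAF `L-256-FZ-GEO-0`.   a bounded test has a bounded cell.   `|X| ≤ |x| + r`, `|B| ≤ |b| + l r`, `|B - b| ≤ M`, `|Y| ≤ l r² + |y| + 2|x||B - b| ≤ 4M²`;
`N = cyVel + c + al X + be X² + K (Y - 2XB)`: `≤ 2M + 2M² + 16M³`;   `D = cyPos + d + al B + be Y - K B²`: `≤ 2M + 2M² + 8M³`. -/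
theorem fz_g_cell_bd {M l : ℝ} {Q : CyT} {z : Cy5} (hM : 1 ≤ M) (hl0 : 0 ≤ l) (hl : l ≤ 1) (hQ : fzBd M Q) (hz : cyIn Q l z) :
    |z.X| ≤ 2 * M ∧ |z.B| ≤ 2 * M ∧ |z.Y| ≤ 4 * M ^ 2 ∧ |z.N| ≤ 20 * M ^ 3 ∧ |z.D| ≤ 20 * M ^ 3 := by
  obtain ⟨qx, qb, qy, -, qr, -, qf, qc, qd, qal, qbe, qK⟩ := hQ
  obtain ⟨i1, i2, i3, i4, i5⟩ := hz
  have hM0 : 0 ≤ M := by linarith
  have hM2 : M ≤ M ^ 2 := by nlinarith
  have hM3 : M ^ 2 ≤ M ^ 3 := by nlinarith [sq_nonneg M]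
  have hr0 : 0 ≤ Q.r := (abs_nonneg _).trans i1
  have hf0 : 0 ≤ Q.f := (abs_nonneg _).trans i4
  have hlr : l * Q.r ≤ M := by nlinarith
  have hlr2 : l * Q.r ^ 2 ≤ M ^ 2 := by
    have : Q.r ^ 2 ≤ M ^ 2 := pow_le_pow_left₀ hr0 qr 2
    nlinarith [sq_nonneg Q.r]
  have hlf : l * Q.f ≤ M := by nlinarith
  have hX : |z.X| ≤ 2 * M := by
    have e : z.X = (z.X - Q.x) + Q.x := by ring
    rw [e]
    exact (abs_add_le _ _).trans (by linarith)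
  have hBb : |z.B - Q.b| ≤ M := i2.trans hlr
  have hB : |z.B| ≤ 2 * M := by
    have e : z.B = (z.B - Q.b) + Q.b := by ring
    rw [e]
    exact (abs_add_le _ _).trans (by linarith)
  have hY : |z.Y| ≤ 4 * M ^ 2 := by
    have p := rt_lf_stab_m2 qx hBb
    have e : z.Y = cyTilt Q z + Q.y + 2 * (Q.x * (z.B - Q.b)) := by
      unfold cyTilt
      ring
    rw [e]
    have i3' := i3.trans hlr2
    rw [abs_le] at i3' qy p ⊢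
    constructor <;> linarith [i3'.1, i3'.2, qy.1, qy.2, p.1, p.2]
  have pXX : |z.X * z.X| ≤ 2 * M * (2 * M) := rt_lf_stab_m2 hX hX
  have pXB : |z.X * z.B| ≤ 2 * M * (2 * M) := rt_lf_stab_m2 hX hB
  have pBB : |z.B * z.B| ≤ 2 * M * (2 * M) := rt_lf_stab_m2 hB hB
  refine ⟨hX, hB, hY, ?_, ?_⟩
  · have p1 := rt_lf_stab_m2 qal hX
    have p2 := rt_lf_stab_m2 qbe pXX
    have hYXB : |z.Y - 2 * (z.X * z.B)| ≤ 12 * M ^ 2 := by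
      rw [abs_le] at hY pXB ⊢
      constructor <;> linarith [hY.1, hY.2, pXB.1, pXB.2]
    have p3 := rt_lf_stab_m2 qK hYXB
    have e : z.N = cyVel Q z + Q.c + Q.al * z.X + Q.be * (z.X * z.X) + Q.K * (z.Y - 2 * (z.X * z.B)) := by
      unfold cyVel
      ring
    rw [e]
    have i4' := i4.trans qf
    rw [abs_le] at i4' qc p1 p2 p3 ⊢
    constructor <;> linarith [i4'.1, i4'.2, qc.1, qc.2, p1.1, p1.2, p2.1, p2.2, p3.1, p3.2]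
  · have p1 := rt_lf_stab_m2 qal hB
    have p2 := rt_lf_stab_m2 qbe hY
    have p3 := rt_lf_stab_m2 qK pBB
    have e : z.D = cyPos Q z + Q.d + Q.al * z.B + Q.be * z.Y - Q.K * (z.B * z.B) := by
      unfold cyPos
      ring
    rw [e]
    have i5' := i5.trans hlf
    rw [abs_le] at i5' qd p1 p2 p3 ⊢
    constructor <;> linarith [i5'.1, i5'.2, qd.1, qd.2, p1.1, p1.2, p2.1, p2.2, p3.1, p3.2]

/-! ## G1 -/

/-- LEAF `L-256-FZ-GEO-1A`.   **G1**, explicit numbers.   PLAN: `rt_lf_stab` for `{Q with c := 0, d := 0}` and the points `⟨X, B, Y, N - Q.c, D - Q.d⟩` (`cyVel`, `cyPos` are unchanged), `W + 1` bounds both points. -/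
theorem fz_g_up {Q : CyT} {l eb en Λ W f' : ℝ} {z z' : Cy5} (hl0 : 0 ≤ l) (hl : l ≤ 1) (heb : 0 ≤ eb) (heb1 : eb ≤ 1) (hen : 0 ≤ en) (hΛ : 0 ≤ Λ) (hW : 0 ≤ W)
    (hr : 0 ≤ Q.r) (hal : |Q.al| ≤ Λ) (hbe : |Q.be| ≤ Λ) (hK : |Q.K| ≤ Λ) (hz : cyBd W z) (hn : cyNear l eb en z z') (hin : cyIn Q l z)
    (h1 : eb ≤ Q.r) (h2 : (3 + 2 * (W + Q.r)) * eb ≤ 3 * Q.r ^ 2) (h3 : Q.f + en + 8 * Λ * (W + 1) * eb ≤ f') : cyIn (fzUp Q f') l z' := by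
  obtain ⟨zX, zB, zY⟩ := hz
  obtain ⟨n1, n2, n3, n4, n5⟩ := hn
  have hleb : l * eb ≤ 1 := by nlinarith
  have tri : ∀ u v e : ℝ, |v| ≤ W → |u - v| ≤ e → e ≤ 1 → |u| ≤ W + 1 := by
    intro u v e hv hu he
    have e1 : u = v + (u - v) := by ring
    rw [e1]
    exact (abs_add_le _ _).trans (by linarith)
  have key := rt_lf_stab (Q := { Q with c := 0, d := 0 }) (l := l) (eb := eb) (en := en) (Λ := Λ) (W := W + 1) (r' := 2 * Q.r) (f' := f')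
    (z := ⟨z.X, z.B, z.Y, z.N - Q.c, z.D - Q.d⟩) (z' := ⟨z'.X, z'.B, z'.Y, z'.N - Q.c, z'.D - Q.d⟩) hl0 hl heb hen hΛ (by linarith) hr
    ⟨by simpa using hΛ, by simpa using hΛ, hal, hbe, hK⟩ ⟨zX.trans (by linarith), zB.trans (by linarith), zY.trans (by linarith)⟩
    ⟨tri _ _ _ zX n1 heb1, tri _ _ _ zB n2 hleb, tri _ _ _ zY n3 hleb⟩
    ⟨n1, n2, n3, by simpa using n4, by simpa using n5⟩
    (by
      obtain ⟨i1, i2, i3, i4, i5⟩ := hin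
      refine ⟨i1, i2, i3, ?_, ?_⟩
      · have e : cyVel { Q with c := 0, d := 0 } ⟨z.X, z.B, z.Y, z.N - Q.c, z.D - Q.d⟩ = cyVel Q z := by
          simp only [cyVel]
          ring
        rw [e]
        exact i4
      · have e : cyPos { Q with c := 0, d := 0 } ⟨z.X, z.B, z.Y, z.N - Q.c, z.D - Q.d⟩ = cyPos Q z := by
          simp only [cyPos]
          ring
        rw [e]
        exact i5)
    (by show Q.r + eb ≤ 2 * Q.r; linarith)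
    (by show Q.r ^ 2 + (1 + 2 * (W + 1 + Q.r)) * eb ≤ (2 * Q.r) ^ 2; nlinarith)
    (by show Q.f + en + 8 * Λ * (W + 1) * eb ≤ f'; exact h3)
  obtain ⟨k1, k2, k3, k4, k5⟩ := key
  refine ⟨k1, k2, k3, ?_, ?_⟩
  · have e : cyVel (fzUp Q f') z' = cyVel { { Q with c := 0, d := 0 } with r := 2 * Q.r, f := f' } ⟨z'.X, z'.B, z'.Y, z'.N - Q.c, z'.D - Q.d⟩ := by
      simp only [cyVel, fzUp]
      ring
    rw [e]
    exact k4
  · have e : cyPos (fzUp Q f') z' = cyPos { { Q with c := 0, d := 0 } with r := 2 * Q.r, f := f' } ⟨z'.X, z'.B, z'.Y, z'.N - Q.c, z'.D - Q.d⟩ := by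
      simp only [cyPos, fzUp]
      ring
    rw [e]
    exact k5

/-- LEAF `L-256-FZ-GEO-1B`.   the weight of the enlarged test.   `(2r)^(3+η) = 2^(3+η) r^(3+η)`, `2^(3+η) ≤ 2^4`; `f'^(1-η) ≤ (c f)^(1-η) = c^(1-η) f^(1-η)`, `c^(1-η) ≤ c`. -/
theorem fz_g_wt {η c f' : ℝ} {Q : CyT} (h0 : 0 < η) (h1 : η < 1) (hr : 0 < Q.r) (hf : 0 < Q.f) (hf0 : 0 ≤ f') (hc : 1 ≤ c) (hf' : f' ≤ c * Q.f) :
    cyWt η (fzUp Q f') ≤ 16 * c * cyWt η Q := by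
  unfold cyWt fzUp
  show (2 * Q.r) ^ (3 + η) * f' ^ (1 - η) ≤ 16 * c * (Q.r ^ (3 + η) * Q.f ^ (1 - η))
  have hc0 : 0 < c := by linarith
  have h2 : (2 : ℝ) ^ (3 + η) ≤ 16 := by
    have h3 : (2 : ℝ) ^ (3 + η) ≤ 2 ^ (4 : ℝ) := Real.rpow_le_rpow_of_exponent_le (by norm_num) (by linarith)
    have h4 : (2 : ℝ) ^ (4 : ℝ) = 16 := by
      rw [show (4 : ℝ) = ((4 : ℕ) : ℝ) by norm_num, Real.rpow_natCast]
      norm_num
    linarith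
  have h5 : f' ^ (1 - η) ≤ c * Q.f ^ (1 - η) := by
    calc f' ^ (1 - η) ≤ (c * Q.f) ^ (1 - η) := Real.rpow_le_rpow hf0 hf' (by linarith)
      _ = c ^ (1 - η) * Q.f ^ (1 - η) := Real.mul_rpow hc0.le hf.le
      _ ≤ c * Q.f ^ (1 - η) := by
        refine mul_le_mul_of_nonneg_right ?_ (Real.rpow_nonneg hf.le _)
        calc c ^ (1 - η) ≤ c ^ (1 : ℝ) := Real.rpow_le_rpow_of_exponent_le hc (by linarith)
          _ = c := Real.rpow_one c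
  rw [Real.mul_rpow (by norm_num) hr.le]
  have hr' : 0 ≤ Q.r ^ (3 + η) := Real.rpow_nonneg hr.le _
  have hf'' : 0 ≤ Q.f ^ (1 - η) := Real.rpow_nonneg hf.le _
  calc (2 : ℝ) ^ (3 + η) * Q.r ^ (3 + η) * f' ^ (1 - η) ≤ 16 * Q.r ^ (3 + η) * (c * Q.f ^ (1 - η)) :=
        mul_le_mul (mul_le_mul_of_nonneg_right h2 hr') h5 (Real.rpow_nonneg hf0 _) (by positivity)
    _ = 16 * c * (Q.r ^ (3 + η) * Q.f ^ (1 - η)) := by ring

/-- LEAF `L-256-FZ-GEO-1B`.   **G1 for the labels**.   `M = s^-Ds ≥ 1`, `eb ≤ M^-4 s^8`, `s^8 ≤ 1/256`.   `fz_g_cell_bd`: `W = 4M²`; `Λ = M`; `M⁻¹ ≤ Q.r ≤ M`, `M⁻¹ ≤ Q.f`.   `fz_g_up`: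
`h2`: `(3 + 2(4M² + M)) eb ≤ 13 M^-2 s^8 ≤ 3 M^-2`;   `h3`: `8 M (4M² + 1) eb ≤ 40 M^-1 s^8 ≤ M⁻¹ ≤ Q.f`. -/
theorem fz_g_lab {s Ds l eb en f' : ℝ} {Q : CyT} {z z' : Cy5} (hs : 0 < s) (hs2 : s ≤ 1 / 2) (hDs : 0 < Ds) (hl0 : 0 ≤ l) (hl : l ≤ 1)
    (hQ : fzBd (s ^ (-Ds)) Q) (heb : 0 ≤ eb) (heb1 : eb ≤ s ^ (4 * Ds + 8)) (hen : 0 ≤ en) (hf' : 2 * Q.f + en ≤ f')
    (hin : cyIn Q l z) (hn : cyNear l eb en z z') : cyIn (fzUp Q f') l z' := by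
  obtain ⟨M, hMdef⟩ : ∃ M : ℝ, M = s ^ (-Ds) := ⟨_, rfl⟩
  obtain ⟨u, hudef⟩ : ∃ u : ℝ, u = s ^ Ds := ⟨_, rfl⟩
  rw [← hMdef] at hQ
  have hs1 : s < 1 := by linarith
  have hu0 : 0 < u := by rw [hudef]; exact Real.rpow_pos_of_pos hs _
  have hu1 : u ≤ 1 := by rw [hudef]; exact Real.rpow_le_one hs.le hs1.le hDs.le
  have hMu : M * u = 1 := by
    rw [hMdef, hudef, ← Real.rpow_add hs]
    simp
  have hMinv : M⁻¹ = u := by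
    rw [hMdef, hudef, Real.rpow_neg hs.le, inv_inv]
  have hM0 : 0 < M := by rw [hMdef]; exact Real.rpow_pos_of_pos hs _
  have hM : 1 ≤ M := by
    by_contra hcon
    have : M * u < 1 := by nlinarith [not_le.1 hcon]
    linarith
  have hs8 : s ^ (8 : ℕ) ≤ 1 / 256 := by
    calc s ^ (8 : ℕ) ≤ (1 / 2 : ℝ) ^ (8 : ℕ) := pow_le_pow_left₀ hs.le hs2 8
      _ = 1 / 256 := by norm_num
  have hebu : eb ≤ u ^ 4 / 256 := by
    refine heb1.trans ?_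
    have e : s ^ (4 * Ds + 8) = u ^ 4 * s ^ (8 : ℕ) := by
      rw [Real.rpow_add hs, hudef, ← Real.rpow_natCast (s ^ Ds) 4, ← Real.rpow_mul hs.le, ← Real.rpow_natCast s 8]
      congr 2
      · push_cast; ring
    rw [e]
    have : 0 ≤ u ^ 4 := by positivity
    nlinarith
  obtain ⟨_, _, _, hr1, hr2, hf1, hf2, _, _, hal, hbe, hK⟩ := hQ
  rw [hMinv] at hr1 hf1
  obtain ⟨c1, c2, c3, _, _⟩ := fz_g_cell_bd hM hl0 hl (show fzBd M Q from ⟨by assumption, by assumption, by assumption, by rw [hMinv]; exact hr1, hr2,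
    by rw [hMinv]; exact hf1, hf2, by assumption, by assumption, hal, hbe, hK⟩) hin
  have hMM : M ≤ M ^ 2 := by nlinarith
  have hu4 : u ^ 4 ≤ u := by
    have h2 : u ^ 3 ≤ 1 := pow_le_one₀ hu0.le hu1
    calc u ^ 4 = u ^ 3 * u := by ring
      _ ≤ 1 * u := mul_le_mul_of_nonneg_right h2 hu0.le
      _ = u := one_mul u
  have e1 : M ^ 2 * eb ≤ u ^ 2 / 256 := by
    calc M ^ 2 * eb ≤ M ^ 2 * (u ^ 4 / 256) := mul_le_mul_of_nonneg_left hebu (by positivity)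
      _ = (M * u) ^ 2 * u ^ 2 / 256 := by ring
      _ = u ^ 2 / 256 := by rw [hMu]; ring
  have e2 : M ^ 3 * eb ≤ u / 256 := by
    calc M ^ 3 * eb ≤ M ^ 3 * (u ^ 4 / 256) := mul_le_mul_of_nonneg_left hebu (by positivity)
      _ = (M * u) ^ 3 * u / 256 := by ring
      _ = u / 256 := by rw [hMu]; ring
  refine fz_g_up (Λ := M) (W := 4 * M ^ 2) hl0 hl heb (by linarith) hen hM0.le (by positivity) (hu0.le.trans hr1) hal hbe hK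
    ⟨by linarith, by linarith, c3⟩ hn hin (by linarith) ?_ ?_
  · have h3 : (3 + 2 * (4 * M ^ 2 + Q.r)) * eb ≤ 13 * M ^ 2 * eb := by
      refine mul_le_mul_of_nonneg_right ?_ heb
      nlinarith
    have h4 : u ^ 2 ≤ Q.r ^ 2 := pow_le_pow_left₀ hu0.le hr1 2
    have h5 : 0 ≤ u ^ 2 := by positivity
    linarith
  · have h3 : 8 * M * (4 * M ^ 2 + 1) * eb ≤ 40 * (M ^ 3 * eb) := by
      have : 8 * M * (4 * M ^ 2 + 1) ≤ 40 * M ^ 3 := by nlinarith [mul_nonneg hM0.le (sub_nonneg.2 (hM.trans hMM))]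
      calc 8 * M * (4 * M ^ 2 + 1) * eb ≤ 40 * M ^ 3 * eb := mul_le_mul_of_nonneg_right this heb
        _ = 40 * (M ^ 3 * eb) := by ring
    linarith

/-! ## G2 -/

/-- the normalisation in the frame of the flat wave, explicitly -/
theorem fz_g_nrm (T0 T r0 : ℝ) (Q : CyT) (hr0 : 0 < r0) :
    cyNrm T0 0 (fzFr r0) T Q = ⟨T - T0, Q.x / r0, Q.b / r0, Q.y / r0 ^ 2, Q.c / r0, Q.d / r0, Q.al, Q.be * r0, Q.K * r0, Q.r / r0, Q.f / r0⟩ := by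
  have h := hr0.ne'
  simp only [cyNrm, sfFrameOf, SfFrame.tst, sfTestAt, fzFr, SfFrame.bc, SfFrame.yc, SfTest.beAt, SfTest.mk.injEq]
  refine ⟨?_, ?_, ?_, ?_, ?_, ?_, ?_, ?_, ?_, ?_, ?_⟩
  all_goals first | trivial | ring1 | (field_simp; done) | (field_simp; ring1)

/-- LEAF `L-256-FZ-GEO-2A`.   the truncated family of the frame, unfolded.   `simp only [CyTr, cyNrm, sfFrameOf, SfFrame.tst, sfTestAt, SfTest.beAt, SfFrame.bc, fzFr, pow_zero, ..]`: `r = Q.r / r0`, `f = Q.f / r0`, `al = r0 Q.al / r0`, `be = Q.be r0² / r0`, `K = Q.K · 1 · r0² / r0`. -/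
theorem fz_g_tr {T0 r0 ρ : ℝ} {Q : CyT} (hr0 : 0 < r0) (h : CyTr T0 0 (fzFr r0) ρ Q) :
    ρ * r0 ≤ Q.r ∧ Q.r ≤ r0 ∧ ρ * r0 ≤ Q.f ∧ Q.f ≤ r0 ∧ |Q.al| ≤ ρ⁻¹ ∧ |Q.be| * r0 ≤ ρ⁻¹ ∧ |Q.K| * r0 ≤ ρ⁻¹ := by
  unfold CyTr at h
  rw [fz_g_nrm T0 T0 r0 Q hr0] at h
  obtain ⟨h1, h2, h3, h4, h5, h6, h7⟩ := h
  simp only at h1 h2 h3 h4 h5 h6 h7
  rw [le_div_iff₀ hr0] at h1 h3
  rw [div_le_one hr0] at h2 h4
  rw [abs_mul, abs_of_pos hr0] at h6 h7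
  exact ⟨h1, h2, h3, h4, h5, h6, h7⟩


theorem fz_g3_bs {r0 l : ℝ} {z : Cy5} (hr0 : 0 < r0) (hl : 0 < l) : cyBaseSz (fzFr r0) l z ≤ 1 ↔ |z.X| ≤ r0 ∧ |z.B| ≤ l * r0 ∧ |z.Y| ≤ l * r0 ^ 2 := by
  have h1 : 0 < l * r0 := mul_pos hl hr0
  have h2 : 0 < l * r0 ^ 2 := mul_pos hl (pow_pos hr0 2)
  simp only [cyBaseSz, cyBase, cyTilt, fzFr, max_le_iff, sub_zero, mul_zero, zero_mul]
  rw [abs_div, abs_div, abs_div, abs_of_pos hr0, abs_of_pos h1, abs_of_pos h2, div_le_one hr0, div_le_one h1, div_le_one h2]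

theorem fz_g3_pw {s D : ℝ} (hs : 0 < s) (hs2 : s ≤ 1 / 2) :
    0 < s ^ D ∧ s ^ (-D) = (s ^ D)⁻¹ ∧ (∀ k : ℕ, s ^ (D + k) = s ^ D * s ^ k) ∧ (∀ k : ℕ, s ^ (-(D + k)) = (s ^ D)⁻¹ * (s⁻¹) ^ k) ∧ 2 ≤ s⁻¹ := by
  refine ⟨Real.rpow_pos_of_pos hs _, Real.rpow_neg hs.le _, fun k => ?_, fun k => ?_, ?_⟩
  · rw [Real.rpow_add hs, Real.rpow_natCast]
  · rw [Real.rpow_neg hs.le, Real.rpow_add hs, Real.rpow_natCast, mul_inv, inv_pow]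
  · rw [le_inv_comm₀ (by norm_num) hs]
    linarith

/-- LEAF `L-256-FZ-GEO-2B`.   **G2**: the hypotheses of `FzDat.Ok.reg` (`Dt = D + 2`, `s^-g0 = 4 r0`) for the enlarged test of a test of the truncated family whose cell meets the region.
(`rdD H 0 ≤ fs * f'` follows from `rdD H 0 ≤ fs * en`.)
PLAN: `fz_g_tr` (`ρ = s^D ≤ 1`), `fz_g_base`: `|X|, |B| ≤ r0`, `|Y| ≤ r0²`.   `2 Q.r ≥ s^D / 2 ≥ s^(D+2)`; `2 Q.f + en ≤ 3 r0`; `|be|, |K| ≤ 4 s^-D ≤ s^-(D+2)`;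
`c = N - cyVel - al X - be X² - K (Y - 2XB)`: `|c| ≤ 2 r0 + 5 r0/ρ ≤ 7 r0/ρ ≤ (7/4) s⁻¹ s^-D ≤ s^-(D+2)`;   `d = D - cyPos - al B - be Y + K B²`: `|d| ≤ 2 r0 + 3 r0/ρ`. -/
theorem fz_g_root {s D T0 r0 en : ℝ} {Q : CyT} {z : Cy5} (hs : 0 < s) (hs2 : s ≤ 1 / 2) (hD : 0 < D) (hr0 : 1 / 4 ≤ r0) (hr1 : r0 ≤ s⁻¹ / 4)
    (hQ : CyTr T0 0 (fzFr r0) (s ^ D) Q) (hen : 0 ≤ en) (hen1 : en ≤ r0) (hin : cyIn Q 1 z) (hb : cyBaseSz (fzFr r0) 1 z ≤ 1) (hN : |z.N| ≤ r0) (hDD : |z.D| ≤ r0) :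
    s ^ (D + 2) ≤ (fzUp Q (2 * Q.f + en)).r ∧ (fzUp Q (2 * Q.f + en)).r ≤ 4 * r0 ∧ s ^ (D + 2) ≤ (fzUp Q (2 * Q.f + en)).f ∧ (fzUp Q (2 * Q.f + en)).f ≤ 4 * r0 ∧
      cySh (fzUp Q (2 * Q.f + en)) (s ^ (-(D + 2))) := by
  have h0 : 0 < r0 := by linarith
  obtain ⟨q1, q2, q3, q4, q5, q6, q7⟩ := fz_g_tr h0 hQ
  obtain ⟨b1, b2, b3⟩ := (fz_g3_bs h0 one_pos).1 hb
  rw [one_mul] at b2 b3
  obtain ⟨-, -, -, i4, i5⟩ := hin
  rw [one_mul] at i5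
  obtain ⟨p0, -, p2, p3, p4⟩ := fz_g3_pw (D := D) hs hs2
  have e2 : s ^ (D + 2) = s ^ D * s ^ 2 := by
    have := p2 2
    norm_num at this
    exact this
  have e3 : s ^ (-(D + 2)) = (s ^ D)⁻¹ * (s⁻¹) ^ 2 := by
    have := p3 2
    norm_num at this
    simpa using this
  rw [e2, e3]
  obtain ⟨u, hu⟩ : ∃ u, u = s ^ D := ⟨_, rfl⟩
  obtain ⟨w, hw⟩ : ∃ w, w = (s ^ D)⁻¹ := ⟨_, rfl⟩
  obtain ⟨v, hv⟩ : ∃ v, v = s⁻¹ := ⟨_, rfl⟩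
  have hu1 : u ≤ 1 := by
    rw [hu]
    exact Real.rpow_le_one hs.le (by linarith) hD.le
  have hw1 : 1 ≤ w := by
    rw [hw, ← hu]
    exact (one_le_inv₀ (by rw [hu]; exact p0)).2 hu1
  rw [← hu] at p0 q1 q3
  rw [← hw] at q5 q6 q7
  rw [← hv] at p4 hr1
  rw [← hw, ← hu, ← hv]
  have hw0 : 0 ≤ w := by linarith
  have hs4 : s ^ 2 ≤ 1 / 4 := by
    have := pow_le_pow_left₀ hs.le hs2 2
    norm_num at this
    linarith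
  have hlow : u * s ^ 2 ≤ 2 * (u * r0) := by
    have a1 := mul_le_mul_of_nonneg_left hs4 p0.le
    have a2 := mul_le_mul_of_nonneg_left hr0 p0.le
    have a3 := mul_pos p0 h0
    linarith
  have hv4 : 4 ≤ v ^ 2 := by
    have := pow_le_pow_left₀ (by norm_num) p4 2
    norm_num at this
    linarith
  have hbe : |Q.be| ≤ 4 * w := by
    have := mul_le_mul_of_nonneg_left hr0 (abs_nonneg Q.be)
    linarith
  have hK : |Q.K| ≤ 4 * w := by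
    have := mul_le_mul_of_nonneg_left hr0 (abs_nonneg Q.K)
    linarith
  have hwv : 4 * w ≤ w * v ^ 2 := by
    have := mul_le_mul_of_nonneg_left hv4 hw0
    linarith
  have hrv : 7 * (w * r0) ≤ w * v ^ 2 := by
    have a1 := mul_le_mul_of_nonneg_left hr1 hw0
    have a2 : 7 * (v / 4) ≤ v ^ 2 := by nlinarith
    have a3 := mul_le_mul_of_nonneg_left a2 hw0
    linarith
  have m2 : ∀ x y X Y : ℝ, |x| ≤ X → |y| ≤ Y → |x * y| ≤ X * Y := by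
    intro x y X Y hx hy
    rw [abs_mul]
    exact mul_le_mul hx hy (abs_nonneg _) ((abs_nonneg _).trans hx)
  have t1 : |Q.al * z.X| ≤ w * r0 := m2 _ _ _ _ q5 b1
  have t1' : |Q.al * z.B| ≤ w * r0 := m2 _ _ _ _ q5 b2
  have hX2 : |z.X ^ 2| ≤ r0 * r0 := by
    rw [pow_two]
    exact m2 _ _ _ _ b1 b1
  have hB2 : |z.B ^ 2| ≤ r0 * r0 := by
    rw [pow_two]
    exact m2 _ _ _ _ b2 b2
  have hXB : |z.X * z.B| ≤ r0 * r0 := m2 _ _ _ _ b1 b2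
  have t2 : |Q.be * z.X ^ 2| ≤ w * r0 := by
    rw [abs_mul]
    calc |Q.be| * |z.X ^ 2| ≤ |Q.be| * (r0 * r0) := mul_le_mul_of_nonneg_left hX2 (abs_nonneg _)
      _ = |Q.be| * r0 * r0 := by ring
      _ ≤ w * r0 := mul_le_mul_of_nonneg_right q6 h0.le
  have t2' : |Q.be * z.Y| ≤ w * r0 := by
    rw [abs_mul]
    calc |Q.be| * |z.Y| ≤ |Q.be| * (r0 ^ 2) := mul_le_mul_of_nonneg_left b3 (abs_nonneg _)
      _ = |Q.be| * r0 * r0 := by ring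
      _ ≤ w * r0 := mul_le_mul_of_nonneg_right q6 h0.le
  have t3 : |Q.K * (z.Y - 2 * z.X * z.B)| ≤ 3 * (w * r0) := by
    rw [abs_mul]
    have h1 : |z.Y - 2 * z.X * z.B| ≤ 3 * (r0 * r0) := by
      rw [abs_le] at b3 hXB ⊢
      constructor <;> linarith [b3.1, b3.2, hXB.1, hXB.2]
    calc |Q.K| * |z.Y - 2 * z.X * z.B| ≤ |Q.K| * (3 * (r0 * r0)) := mul_le_mul_of_nonneg_left h1 (abs_nonneg _)
      _ = 3 * (|Q.K| * r0 * r0) := by ring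
      _ ≤ 3 * (w * r0) := by
        have := mul_le_mul_of_nonneg_right q7 h0.le
        linarith
  have t3' : |Q.K * z.B ^ 2| ≤ w * r0 := by
    rw [abs_mul]
    calc |Q.K| * |z.B ^ 2| ≤ |Q.K| * (r0 * r0) := mul_le_mul_of_nonneg_left hB2 (abs_nonneg _)
      _ = |Q.K| * r0 * r0 := by ring
      _ ≤ w * r0 := mul_le_mul_of_nonneg_right q7 h0.le
  have hwr : r0 ≤ w * r0 := by
    have := mul_le_mul_of_nonneg_right hw1 h0.le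
    linarith
  refine ⟨?_, ?_, ?_, ?_, ?_, ?_, ?_, ?_, ?_⟩
  · show u * s ^ 2 ≤ 2 * Q.r
    linarith
  · show 2 * Q.r ≤ 4 * r0
    linarith
  · show u * s ^ 2 ≤ 2 * Q.f + en
    linarith
  · show 2 * Q.f + en ≤ 4 * r0
    linarith
  · show |Q.c| ≤ w * v ^ 2
    unfold cyVel at i4
    refine le_trans ?_ hrv
    rw [abs_le] at i4 t1 t2 t3 hN ⊢
    constructor <;> linarith [i4.1, i4.2, t1.1, t1.2, t2.1, t2.2, t3.1, t3.2, hN.1, hN.2]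
  · show |Q.d| ≤ w * v ^ 2
    unfold cyPos at i5
    refine le_trans ?_ hrv
    rw [abs_le] at i5 t1' t2' t3' hDD ⊢
    constructor <;> linarith [i5.1, i5.2, t1'.1, t1'.2, t2'.1, t2'.2, t3'.1, t3'.2, hDD.1, hDD.2]
  · show |Q.al| ≤ w * v ^ 2
    linarith
  · show |Q.be| ≤ w * v ^ 2
    linarith
  · show |Q.K| ≤ w * v ^ 2
    linarith

/-- the base coordinates in the unit box of the frame (forward direction of `fz_g_base` at `l = 1`) -/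
theorem fz_g_aux_base {r0 : ℝ} {z : Cy5} (hr0 : 0 < r0) (h : cyBaseSz (fzFr r0) 1 z ≤ 1) : |z.X| ≤ r0 ∧ |z.B| ≤ r0 ∧ |z.Y| ≤ r0 ^ 2 := by
  unfold cyBaseSz cyBase cyTilt fzFr at h
  simp only [sub_zero, mul_zero, zero_mul, one_mul, max_le_iff] at h
  obtain ⟨h1, h2, h3⟩ := h
  rw [abs_div, abs_of_pos hr0, div_le_one hr0] at h1 h2
  rw [abs_div, abs_of_pos (by positivity : 0 < r0 ^ 2), div_le_one (by positivity)] at h3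
  exact ⟨h1, h2, h3⟩


/-- LEAF `L-256-FZ-GEO-2C`.   **G2**: the rows near the part of the cell inside the unit base box of the frame lie in the enlarged cell.
PLAN: `fz_g_up` with `W = s^-2 / 4` (`r0 ≤ s⁻¹/4`, `r0² ≤ s^-2/16`), `Λ = 4 s^-D`; `Q.r, Q.f ≥ s^D / 4`.   `h2`: `(3 + 2(W + Q.r)) eb ≤ 2 s^-2 eb ≤ 2 s^(2D+7) ≤ 3 s^(2D)/16`;   `h3`: `32 s^-D (W + 1) eb ≤ 16 s^(D+7) ≤ s^D/4`. -/
theorem fz_g_root_near {s D T0 r0 eb en : ℝ} {Q : CyT} {z z' : Cy5} (hs : 0 < s) (hs2 : s ≤ 1 / 2) (hD : 0 < D) (hr0 : 1 / 4 ≤ r0) (hr1 : r0 ≤ s⁻¹ / 4)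
    (hQ : CyTr T0 0 (fzFr r0) (s ^ D) Q) (heb : 0 ≤ eb) (heb1 : eb ≤ s ^ (2 * D + 9)) (hen : 0 ≤ en)
    (hin : cyIn Q 1 z) (hb : cyBaseSz (fzFr r0) 1 z ≤ 1) (hn : cyNear 1 eb en z z') : cyIn (fzUp Q (2 * Q.f + en)) 1 z' := by
  have hr0p : 0 < r0 := by linarith
  obtain ⟨ρ, hρdef⟩ : ∃ ρ : ℝ, ρ = s ^ D := ⟨_, rfl⟩
  rw [← hρdef] at hQ
  have hs1 : s < 1 := by linarith
  have hρ0 : 0 < ρ := by rw [hρdef]; exact Real.rpow_pos_of_pos hs _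
  have hρ1 : ρ ≤ 1 := by rw [hρdef]; exact Real.rpow_le_one hs.le hs1.le hD.le
  obtain ⟨t1, t2, t3, t4, t5, t6, t7⟩ := fz_g_tr hr0p hQ
  obtain ⟨b1, b2, b3⟩ := fz_g_aux_base hr0p hb
  obtain ⟨σ, hσdef⟩ : ∃ σ : ℝ, σ = s⁻¹ := ⟨_, rfl⟩
  rw [← hσdef] at hr1
  have hσs : σ * s = 1 := by rw [hσdef]; exact inv_mul_cancel₀ hs.ne'
  have hσ2 : 2 ≤ σ := by
    rw [hσdef, le_inv_comm₀ (by norm_num) hs]
    linarith
  have hρi : 0 < ρ⁻¹ := inv_pos.2 hρ0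
  have hρρ : ρ⁻¹ * ρ = 1 := inv_mul_cancel₀ hρ0.ne'
  have hs7 : s ^ (7 : ℕ) ≤ 1 / 128 := by
    calc s ^ (7 : ℕ) ≤ (1 / 2 : ℝ) ^ (7 : ℕ) := pow_le_pow_left₀ hs.le hs2 7
      _ = 1 / 128 := by norm_num
  have hs7' : 0 ≤ s ^ (7 : ℕ) := by positivity
  have hebρ : eb ≤ ρ ^ 2 * s ^ (9 : ℕ) := by
    refine heb1.trans (le_of_eq ?_)
    rw [Real.rpow_add hs, hρdef, ← Real.rpow_natCast (s ^ D) 2, ← Real.rpow_mul hs.le, ← Real.rpow_natCast s 9]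
    congr 2
    · push_cast; ring
  have hσeb : σ ^ 2 * eb ≤ ρ ^ 2 / 128 := by
    calc σ ^ 2 * eb ≤ σ ^ 2 * (ρ ^ 2 * s ^ (9 : ℕ)) := mul_le_mul_of_nonneg_left hebρ (by positivity)
      _ = (σ * s) ^ 2 * ρ ^ 2 * s ^ (7 : ℕ) := by ring
      _ = ρ ^ 2 * s ^ (7 : ℕ) := by rw [hσs]; ring
      _ ≤ ρ ^ 2 * (1 / 128) := mul_le_mul_of_nonneg_left hs7 (by positivity)
      _ = ρ ^ 2 / 128 := by ring
  have hσσ : 4 ≤ σ ^ 2 := by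
    calc (4 : ℝ) = 2 ^ 2 := by norm_num
      _ ≤ σ ^ 2 := pow_le_pow_left₀ (by norm_num) hσ2 2
  have hebs : eb ≤ ρ ^ 2 / 512 := by
    have := mul_le_mul_of_nonneg_right hσσ heb
    linarith
  have hρ2 : ρ ^ 2 ≤ ρ := by
    calc ρ ^ 2 = ρ * ρ := sq ρ
      _ ≤ ρ * 1 := mul_le_mul_of_nonneg_left hρ1 hρ0.le
      _ = ρ := mul_one ρ
  have hρr0 := mul_le_mul_of_nonneg_left hr0 hρ0.le
  have hQr : ρ / 4 ≤ Q.r := by linarith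
  have hQf : ρ / 4 ≤ Q.f := by linarith
  have hbe : |Q.be| ≤ 4 * ρ⁻¹ := by
    have : |Q.be| * (1 / 4) ≤ |Q.be| * r0 := mul_le_mul_of_nonneg_left hr0 (abs_nonneg _)
    linarith
  have hK : |Q.K| ≤ 4 * ρ⁻¹ := by
    have : |Q.K| * (1 / 4) ≤ |Q.K| * r0 := mul_le_mul_of_nonneg_left hr0 (abs_nonneg _)
    linarith
  have hσle : σ ≤ σ ^ 2 := by
    calc σ = σ * 1 := (mul_one σ).symm
      _ ≤ σ * σ := mul_le_mul_of_nonneg_left (by linarith) (by linarith)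
      _ = σ ^ 2 := (sq σ).symm
  have hr0σ : r0 ≤ σ ^ 2 / 4 := by linarith
  have hr0σ2 : r0 ^ 2 ≤ σ ^ 2 / 4 := by
    have h1 := pow_le_pow_left₀ hr0p.le hr1 2
    have h2 : (σ / 4) ^ 2 = σ ^ 2 / 16 := by ring
    rw [h2] at h1
    linarith
  refine fz_g_up (Λ := 4 * ρ⁻¹) (W := σ ^ 2 / 4) zero_le_one le_rfl heb (by linarith) hen (by positivity) (by positivity)
    (by linarith) (by linarith) hbe hK ⟨by linarith, by linarith, by linarith⟩ hn hin (by linarith) ?_ ?_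
  · have h3 : (3 + 2 * (σ ^ 2 / 4 + Q.r)) * eb ≤ 2 * σ ^ 2 * eb := by
      refine mul_le_mul_of_nonneg_right ?_ heb
      linarith
    have h4 : (ρ / 4) ^ 2 ≤ Q.r ^ 2 := pow_le_pow_left₀ (by positivity) hQr 2
    have h6 : (ρ / 4) ^ 2 = ρ ^ 2 / 16 := by ring
    rw [h6] at h4
    have h5 : 0 ≤ ρ ^ 2 := by positivity
    linarith
  · have h3 : 8 * (4 * ρ⁻¹) * (σ ^ 2 / 4 + 1) * eb ≤ 16 * ρ⁻¹ * (σ ^ 2 * eb) := by
      have h7 : σ ^ 2 / 4 + 1 ≤ σ ^ 2 / 2 := by linarith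
      have h8 := mul_le_mul_of_nonneg_left h7 (by positivity : 0 ≤ 32 * ρ⁻¹)
      have : 8 * (4 * ρ⁻¹) * (σ ^ 2 / 4 + 1) ≤ 16 * ρ⁻¹ * σ ^ 2 := by linarith
      calc 8 * (4 * ρ⁻¹) * (σ ^ 2 / 4 + 1) * eb ≤ 16 * ρ⁻¹ * σ ^ 2 * eb := mul_le_mul_of_nonneg_right this heb
        _ = 16 * ρ⁻¹ * (σ ^ 2 * eb) := by ring
    have h4 : 16 * ρ⁻¹ * (σ ^ 2 * eb) ≤ ρ / 8 := by
      calc 16 * ρ⁻¹ * (σ ^ 2 * eb) ≤ 16 * ρ⁻¹ * (ρ ^ 2 / 128) := mul_le_mul_of_nonneg_left hσeb (by positivity)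
        _ = (ρ⁻¹ * ρ) * ρ / 8 := by ring
        _ = ρ / 8 := by rw [hρρ]; ring
    linarith

/-- LEAF `L-256-FZ-GEO-2A`.   the size of the base coordinates in the frame -/
theorem fz_g_base {r0 l : ℝ} {z : Cy5} (hr0 : 0 < r0) (hl : 0 < l) : cyBaseSz (fzFr r0) l z ≤ 1 ↔ |z.X| ≤ r0 ∧ |z.B| ≤ l * r0 ∧ |z.Y| ≤ l * r0 ^ 2 := by
  have h1 : 0 < l * r0 := by positivity
  have h2 : 0 < l * r0 ^ 2 := by positivity
  simp only [cyBaseSz, cyBase, cyTilt, fzFr, sub_zero, mul_zero, zero_mul, max_le_iff, abs_div, abs_of_pos hr0, abs_of_pos h1, abs_of_pos h2,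
    div_le_one hr0, div_le_one h1, div_le_one h2]

/-- LEAF `L-256-FZ-GEO-2A`.   the size of the normal coordinates in the frame -/
theorem fz_g_nor {r0 l c : ℝ} {z : Cy5} (hr0 : 0 < r0) (hl : 0 < l) : cyNorSz (fzFr r0) l z ≤ c ↔ |z.N| ≤ c * r0 ∧ |z.D| ≤ c * (l * r0) := by
  have h1 : 0 < l * r0 := by positivity
  simp only [cyNorSz, cyNor, cyVel, cyPos, fzFr, sub_zero, zero_mul, add_zero, max_le_iff, abs_div, abs_of_pos hr0, abs_of_pos h1,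
    div_le_iff₀ hr0, div_le_iff₀ h1]

/-- LEAF `L-256-FZ-GEO-2A`.   exact base support of a state that is cut to `fzBoxT T R`   (`fz_g_base`, `R ≤ R² ≤ r0²`) -/
theorem fz_g_box {P : FzP} {a T R r0 : ℝ} {x : FzOm × ℝ × ℝ} (hR : 1 ≤ R) (hr0 : R ≤ r0) (hx : x.1 ∈ fzBoxT T R) : cyBaseSz (fzFr r0) 1 ((fzHy P a).co T x) ≤ 1 := by
  obtain ⟨h1, h2, h3⟩ := hx
  have hr1 : 1 ≤ r0 := hR.trans hr0
  rw [fz_g_base (by linarith) one_pos]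
  refine ⟨h1.trans hr0, ?_, ?_⟩
  · rw [one_mul]
    exact h2.trans hr0
  · rw [one_mul]
    refine h3.trans (hr0.trans ?_)
    nlinarith

/-- LEAF `L-256-FZ-GEO-2A`.   the hybrid rows near the root region lie over `fzBoxT`, with bounded normal coordinates -/
theorem fz_g_box_near {P : FzP} {a T R eb en fs : ℝ} {x : RdWvPar.Ph} {x' : FzOm × ℝ × ℝ} (hx : x ∈ fzIn fs R)
    (hn : cyNear 1 eb en (fzFl fs x) ((fzHy P a).co T x')) :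
    x'.1 ∈ fzBoxT T (R + eb) ∧ |((fzHy P a).co T x').N| ≤ R + en ∧ |((fzHy P a).co T x').D| ≤ R + en := by
  obtain ⟨x1, x2, x3, x4, x5⟩ := hx
  obtain ⟨n1, n2, n3, n4, n5⟩ := hn
  rw [one_mul] at n2 n3 n5
  have tri : ∀ u v R' e : ℝ, |v| ≤ R' → |u - v| ≤ e → |u| ≤ R' + e := by
    intro u v R' e hv hu
    have e1 : u = v + (u - v) := by ring
    rw [e1]
    exact (abs_add_le _ _).trans (add_le_add hv hu)
  exact ⟨⟨tri _ _ _ _ x1 n1, tri _ _ _ _ x2 n2, tri _ _ _ _ x3 n3⟩, tri _ _ _ _ x4 n4, tri _ _ _ _ x5 n5⟩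

/-! ## G3 -/

/-- the enlarged test in the zero frame, field by field -/
theorem fz_g_bdd_aux_nrm (T0 T r0 f' : ℝ) (Q : CyT) (hr0 : 0 < r0) :
    (cyNrm T0 0 (fzFr r0) T (fzUp Q f')).x = Q.x / r0 ∧ (cyNrm T0 0 (fzFr r0) T (fzUp Q f')).b = Q.b / r0 ∧
    (cyNrm T0 0 (fzFr r0) T (fzUp Q f')).y = Q.y / r0 ^ 2 ∧ (cyNrm T0 0 (fzFr r0) T (fzUp Q f')).c = Q.c / r0 ∧
    (cyNrm T0 0 (fzFr r0) T (fzUp Q f')).d = Q.d / r0 ∧ (cyNrm T0 0 (fzFr r0) T (fzUp Q f')).al = Q.al ∧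
    (cyNrm T0 0 (fzFr r0) T (fzUp Q f')).be = Q.be * r0 ∧ (cyNrm T0 0 (fzFr r0) T (fzUp Q f')).K = Q.K * r0 ∧
    (cyNrm T0 0 (fzFr r0) T (fzUp Q f')).r = 2 * Q.r / r0 ∧ (cyNrm T0 0 (fzFr r0) T (fzUp Q f')).f = f' / r0 := by
  have hne := hr0.ne'
  refine ⟨?_, ?_, ?_, ?_, ?_, ?_, ?_, ?_, ?_, ?_⟩ <;>
    simp only [cyNrm, sfFrameOf, SfFrame.tst, sfTestAt, SfTest.beAt, SfFrame.bc, SfFrame.yc, fzFr, fzUp, pow_zero] <;> field_simp <;> ring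

/-- the numbers of G3: `u = s⁻¹ ≥ 2`, `1/4 ≤ r0 ≤ u/4`, `R = M u⁴` -/
theorem fz_g_bdd_aux_num {u M r0 : ℝ} (hu2 : 2 ≤ u) (hM1 : 1 ≤ M) (hr0 : 1 / 4 ≤ r0) (hr1 : r0 ≤ u / 4) :
    (∀ q : ℝ, |q| ≤ M → |q / r0| ≤ M * u ^ 4) ∧ (∀ q : ℝ, |q| ≤ M → |q / r0 ^ 2| ≤ M * u ^ 4) ∧ (∀ q : ℝ, |q| ≤ M → |q * r0| ≤ M * u ^ 4) ∧
      M ≤ M * u ^ 4 ∧ 8 * M ≤ M * u ^ 4 ∧ 4 * (u * M) ≤ M * u ^ 4 := by
  have hr0p : 0 < r0 := by linarith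
  have hM0 : 0 < M := by linarith
  have hu3 : 8 ≤ u ^ 3 := by
    have := pow_le_pow_left₀ (by norm_num : (0 : ℝ) ≤ 2) hu2 3
    linarith
  have hu4 : 16 ≤ u ^ 4 := by
    have := pow_le_pow_left₀ (by norm_num : (0 : ℝ) ≤ 2) hu2 4
    linarith
  have h16 : 16 * M ≤ M * u ^ 4 := by
    have := mul_le_mul_of_nonneg_left hu4 hM0.le
    linarith
  have h4u : 4 * u ≤ u ^ 4 := by
    have : u * 8 ≤ u * u ^ 3 := mul_le_mul_of_nonneg_left hu3 (by linarith)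
    have e : u * u ^ 3 = u ^ 4 := by ring
    linarith
  refine ⟨fun q hq => ?_, fun q hq => ?_, fun q hq => ?_, by linarith, by linarith, ?_⟩
  · rw [abs_div, abs_of_pos hr0p, div_le_iff₀ hr0p]
    calc |q| ≤ M := hq
      _ ≤ 16 * M * (1 / 4) := by linarith
      _ ≤ M * u ^ 4 * r0 := mul_le_mul h16 hr0 (by norm_num) (by positivity)
  · have h2 : 1 / 16 ≤ r0 ^ 2 := by
      have := pow_le_pow_left₀ (by norm_num : (0 : ℝ) ≤ 1 / 4) hr0 2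
      linarith
    rw [abs_div, abs_of_pos (by positivity : 0 < r0 ^ 2), div_le_iff₀ (by positivity)]
    calc |q| ≤ M := hq
      _ = 16 * M * (1 / 16) := by ring
      _ ≤ M * u ^ 4 * r0 ^ 2 := mul_le_mul h16 h2 (by norm_num) (by positivity)
  · rw [abs_mul, abs_of_pos hr0p]
    calc |q| * r0 ≤ M * (u / 4) := mul_le_mul hq hr1 hr0p.le hM0.le
      _ ≤ M * u ^ 4 := mul_le_mul_of_nonneg_left (by linarith) hM0.le
  · calc 4 * (u * M) = M * (4 * u) := by ring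
      _ ≤ M * u ^ 4 := mul_le_mul_of_nonneg_left h4u hM0.le

/-- LEAF `L-256-FZ-GEO-3`.   **G3**: the enlarged labels are bounded in the frame, `Ds' = Ds + 4`.   `M = s^-Ds`, `ρ⁻¹ = M s^-4 ≥ 16 M`.   Unfold as in `fz_g_tr`: `x' = x/r0`, `b' = b/r0`, `y' = y/r0²` (`≤ 16M`), `c' = c/r0`, `d' = d/r0`, `al' = al`,
`be' = be r0`, `K' = K r0` (`≤ M s⁻¹/4`);   `r' = 2 Q.r / r0 ∈ [8 s M⁻¹, 8M]`,   `f'/r0 ∈ [4 s M⁻¹, 4 s⁻¹ M]`. -/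
theorem fz_g_bdd {s Ds T0 T r0 f' : ℝ} {Q : CyT} (hs : 0 < s) (hs2 : s ≤ 1 / 2) (hDs : 0 < Ds) (hr0 : 1 / 4 ≤ r0) (hr1 : r0 ≤ s⁻¹ / 4)
    (hQ : fzBd (s ^ (-Ds)) Q) (hf1 : Q.f ≤ f') (hf2 : f' ≤ s⁻¹ * Q.f) : CyBdd (s ^ (Ds + 4)) (cyNrm T0 0 (fzFr r0) T (fzUp Q f')) := by
  have hr0p : 0 < r0 := by linarith
  obtain ⟨M, hMdef⟩ : ∃ M : ℝ, M = s ^ (-Ds) := ⟨_, rfl⟩
  rw [← hMdef] at hQ
  obtain ⟨u, hudef⟩ : ∃ u : ℝ, u = s⁻¹ := ⟨_, rfl⟩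
  rw [← hudef] at hr1 hf2
  have hu2 : 2 ≤ u := by
    rw [hudef, le_inv_comm₀ (by norm_num) hs]
    linarith
  have hus : u * s = 1 := by rw [hudef]; exact inv_mul_cancel₀ hs.ne'
  have hM1 : 1 ≤ M := by
    rw [hMdef]
    exact Real.one_le_rpow_of_pos_of_le_one_of_nonpos hs (by linarith) (by linarith)
  have hM0 : 0 < M := by linarith
  have hρ : s ^ (Ds + 4) = M⁻¹ * s ^ 4 := by
    rw [hMdef, Real.rpow_neg hs.le, inv_inv, Real.rpow_add hs]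
    norm_num
  have hρi : (s ^ (Ds + 4))⁻¹ = M * u ^ 4 := by
    rw [hρ, mul_inv, inv_inv, hudef, inv_pow]
  obtain ⟨qx, qb, qy, qr1, qr2, qf1, qf2, qc, qd, qal, qbe, qK⟩ := hQ
  obtain ⟨hdiv, hdiv2, hmul, n1, n8, n4⟩ := fz_g_bdd_aux_num hu2 hM1 hr0 hr1
  have hMi : 0 < M⁻¹ := inv_pos.2 hM0
  -- `M⁻¹ s⁴ r0 ≤ M⁻¹`
  have hlow : M⁻¹ * s ^ 4 * r0 ≤ M⁻¹ := by
    have hs3 : s ^ 3 ≤ 1 := pow_le_one₀ hs.le (by linarith)
    have hs4 : s ^ 4 ≤ 4 * s := by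
      have : s * s ^ 3 ≤ s * 1 := mul_le_mul_of_nonneg_left hs3 hs.le
      have e : s * s ^ 3 = s ^ 4 := by ring
      linarith
    have h1 : s ^ 4 * r0 ≤ 4 * s * (u / 4) := mul_le_mul hs4 hr1 hr0p.le (by positivity)
    have h2 : 4 * s * (u / 4) = 1 := by linarith [hus]
    calc M⁻¹ * s ^ 4 * r0 = M⁻¹ * (s ^ 4 * r0) := by ring
      _ ≤ M⁻¹ * 1 := mul_le_mul_of_nonneg_left (by linarith) hMi.le
      _ = M⁻¹ := mul_one _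
  have hup : ∀ q : ℝ, q ≤ 1 / 4 * (M * u ^ 4) → q ≤ M * u ^ 4 * r0 := by
    intro q hq
    have : M * u ^ 4 * (1 / 4) ≤ M * u ^ 4 * r0 := mul_le_mul_of_nonneg_left hr0 (by positivity)
    linarith
  obtain ⟨ex, eb, ey, ec, ed, eal, ebe, eK, er, ef⟩ := fz_g_bdd_aux_nrm T0 T r0 f' Q hr0p
  unfold CyBdd SfTest.size
  rw [hρi, hρ, er, ef, ex, eb, ey, ec, ed, eal, ebe, eK]
  clear ex eb ey ec ed eal ebe eK er ef
  refine ⟨?_, ?_, ?_, ?_, ?_⟩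
  · exact max_le (hdiv _ qx) (max_le (hdiv _ qb) (max_le (hdiv2 _ qy) (max_le (hdiv _ qc)
      (max_le (hdiv _ qd) (max_le (qal.trans n1) (max_le (hmul _ qbe) (hmul _ qK)))))))
  · rw [le_div_iff₀ hr0p]
    linarith
  · rw [div_le_iff₀ hr0p]
    exact hup _ (by linarith)
  · rw [le_div_iff₀ hr0p]
    linarith
  · rw [div_le_iff₀ hr0p]
    have h1 : f' ≤ u * M := hf2.trans (mul_le_mul_of_nonneg_left qf2 (by linarith))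
    exact hup _ (by linarith)

end Claimed.Agent.R256
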