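-- KEEP
import Claimed.Agent.R256.Fz.Defs
import Claimed.Agent.R256.Hyb.Floor

/-!
# Row 256 (LS paper), folder Fz, unit FZ-GEO, file GeoReg : G4 = TRIVIAL REGULARITY OF THE HYBRID STATES          (helper233; chief helper207; prefix `fz_g4_`)          CONTRACT + GLUE

`Xp.Valid.reg` of the hybrid experiments needs SOME finite regularity `ka` for ALL admissible tests (`CyTrRate` does not see `ka`).
EXIT  **`fz_g_reg0`** : `∃ ka > 0, ((fzHy P a).sys η).Reg T k b ka (fzCut (fzBand a ∩ U) (fzW P G))`      (`hW` = exit `fz_w_spec` of the unit FZ-W, passed as an argument).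
PROOF.  `p = fzHy P a`, `V` = the state, `l = 2^-k`.   `ms (cell Q) V ≤ hyE p (hyBs p Q l T) V` (`hy_fl_cell1`);
 `hyE p S V ≤ K vol(S ∩ band)` with `K ≥ ∫ |W G(ω, u)|² du` for `ω` in the band (`fz_g4_E`);   Cauchy-Schwarz: `∫ |W G(ω,u)|² du ≤ (∫ |wk ω|²) fs ‖G‖²` (`fz_g4_eps`, `fz_g4_fib`);   `∫ |wk ω|² ≤ K1` on the band (`fz_g4_wk`: bounded, support of finite measure);
 `vol(hyBs ∩ band) ≤ 8 a l² r⁴` (`fz_g4_vol`);   `hyE ≤ ‖V‖²` (`hy_fl_le_norm`);   `min(K r⁴, E) ≤ ka r^(3+η) f^(1-η)` because `f ≥ d_ℓ > 0` (`fz_g4_num`).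
Every `sorry` is a leaf `L-256-FZ-GEO-4*` (name in the docstring); prove IN PLACE, statement verbatim, auxiliary lemmas directly above, prefix `fz_g4<letter>_`.
-/

set_option autoImplicit false

namespace Claimed.Agent.R256

open MeasureTheory
open scoped ENNReal

/-- LEAF `L-256-FZ-GEO-4A`.   `SigmaFinite volume`, `measurable_fst/snd`, `fun_prop`; `le_max_left`, `max_le`; `div_pos`. -/
theorem fz_g4_hy_ok (P : FzP) (hP : P.Ok) {a : ℝ} (ha : 0 < a) : (fzHy P a).Ok := by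
  refine ⟨?_, ?_, ?_, ?_, ?_, fun ω => ⟨le_max_left _ _, max_le (by norm_num) (min_le_left _ _)⟩, ?_⟩
  · show SigmaFinite (volume : Measure FzOm)
    infer_instance
  · show Measurable (fun ω : FzOm => ω.1)
    fun_prop
  · show Measurable (fun ω : FzOm => ω.2.2.1)
    fun_prop
  · show Measurable (fun ω : FzOm => ω.2.2.2)
    fun_prop
  · show Measurable (fun ω : FzOm => max 1 (min 2 (ω.2.1 / a)))
    fun_prop
  · show 0 < P.Hf / a
    unfold FzP.Hf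
    have := hP.H_pos
    have := hP.fs_pos
    positivity

/-- LEAF `L-256-FZ-GEO-4A`.   `Real.smoothTransition`: values in `[0,1]` (`Real.smoothTransition.nonneg`, `.le_one`), `= 0` on `x ≤ 0` (`Real.smoothTransition.zero_of_nonpos`), continuous (`Real.smoothTransition.continuous`).   `Bm = 1 / √(∫ fzB0²)` (no positivity of the integral is needed: `div` by `0` is `0`). -/
theorem fz_g4_B : (∃ Bm : ℝ, 0 ≤ Bm ∧ ∀ t, |fzB t| ≤ Bm) ∧ (∀ t : ℝ, 2 ≤ t ^ 2 → fzB t = 0) ∧ Measurable fzB := by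
  refine ⟨⟨1 / Real.sqrt (∫ t', fzB0 t' ^ 2), by positivity, fun t => ?_⟩, fun t ht => ?_, ?_⟩
  · unfold fzB
    rw [abs_div, abs_of_nonneg (Real.sqrt_nonneg _)]
    refine div_le_div_of_nonneg_right ?_ (Real.sqrt_nonneg _)
    unfold fzB0
    rw [abs_of_nonneg (Real.smoothTransition.nonneg _)]
    exact Real.smoothTransition.le_one _
  · unfold fzB fzB0
    rw [Real.smoothTransition.zero_of_nonpos (by linarith), zero_div]
  · unfold fzB fzB0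
    exact (Real.smoothTransition.continuous.comp (by fun_prop)).measurable.div_const _

/-- LEAF `L-256-FZ-GEO-4B`.   `‖wk ω z‖ = |cW fzB(..) fzB(..)| ≤ |cW| Bm²`, and `wk ω z ≠ 0`, `z.2 ≠ 0` force `|z.2 - s0/(2H)| ≤ tS/H` (so `|z.2| ≤ ρm = (a + tS)/H`) and `|z.1 - 2 z.2 X0| ≤ 4 tX ρm`.
`lintegral_prod_symm` / iterated integral: for every `z.2 ≠ 0` the inner integral is `≤ (cW Bm²)² 8 tX ρm` (interval), the outer one lives on an interval of length `2 tS/H`; `{z.2 = 0}` is a null set.   `K1 = (cW Bm²)² · 8 tX ρm · 2 tS/H`.   Tools: `hy_fl_slab`. -/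
theorem fz_g4_wk (P : FzP) (hP : P.Ok) (a : ℝ) (ha : 0 < a) : ∃ K1 : ℝ, 0 ≤ K1 ∧ ∀ ω ∈ fzBand a, ∫⁻ z, ‖P.wk ω z‖ₑ ^ 2 ≤ ENNReal.ofReal K1 := by
  obtain ⟨⟨Bm, hBm0, hBm⟩, hsupp, -⟩ := fz_g4_B
  have hH := hP.H_pos
  have htX := hP.tX_pos
  have htS := hP.tS_pos
  obtain ⟨c, hc⟩ : ∃ c : ℝ, c = |P.cW| * Bm ^ 2 := ⟨_, rfl⟩
  obtain ⟨wd, hwd⟩ : ∃ wd : ℝ, wd = P.tS / P.H := ⟨_, rfl⟩
  obtain ⟨ρm, hρm⟩ : ∃ ρm : ℝ, ρm = (a + P.tS) / P.H := ⟨_, rfl⟩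
  obtain ⟨R, hR⟩ : ∃ R : ℝ, R = 4 * P.tX * ρm := ⟨_, rfl⟩
  have hc0 : 0 ≤ c := by rw [hc]; positivity
  have hwd0 : 0 < wd := by rw [hwd]; positivity
  have hρm0 : 0 < ρm := by rw [hρm]; positivity
  have hR0 : 0 < R := by rw [hR]; positivity
  refine ⟨c ^ 2 * ((2 * wd) * (2 * R)), by positivity, fun ω hω => ?_⟩
  obtain ⟨hω1, hω2⟩ := hω
  set S : Set (ℝ × ℝ) := {w | |w.1 - ω.2.1 / (2 * P.H)| ≤ wd ∧ |w.2 - 2 * w.1 * ω.1| ≤ R} with hS
  have hSm : MeasurableSet S := by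
    have h1 : IsClosed {w : ℝ × ℝ | |w.1 - ω.2.1 / (2 * P.H)| ≤ wd} := isClosed_le (by fun_prop) continuous_const
    have h2 : IsClosed {w : ℝ × ℝ | |w.2 - 2 * w.1 * ω.1| ≤ R} := isClosed_le (by fun_prop) continuous_const
    exact (h1.inter h2).measurableSet
  have hvol : volume S ≤ ENNReal.ofReal (2 * wd) * ENNReal.ofReal (2 * R) := by
    refine hy_fl_slab S hSm (ω.2.1 / (2 * P.H)) wd _ (fun w hw => hw.1) fun x => ?_
    refine (measure_mono (t := Set.Icc (2 * x * ω.1 - R) (2 * x * ω.1 + R)) ?_).trans ?_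
    · intro y hy
      have := abs_le.1 hy.2
      exact ⟨by linarith [this.1], by linarith [this.2]⟩
    · rw [Real.volume_Icc]
      apply le_of_eq
      congr 1
      ring
  have hnorm : ∀ z, ‖P.wk ω z‖ ≤ c := by
    intro z
    unfold FzP.wk
    rw [norm_mul, Complex.norm_exp_I_mul_ofReal, mul_one, Complex.norm_real, Real.norm_eq_abs, abs_mul, abs_mul, hc, pow_two, ← mul_assoc]
    exact mul_le_mul (mul_le_mul_of_nonneg_left (hBm _) (abs_nonneg _)) (hBm _) (abs_nonneg _) (by positivity)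
  have hlt2 : ∀ t : ℝ, fzB t ≠ 0 → |t| < 2 := by
    intro t ht
    by_contra hcon
    push Not at hcon
    refine ht (hsupp t ?_)
    have : 2 ^ 2 ≤ |t| ^ 2 := pow_le_pow_left₀ (by norm_num) hcon 2
    rw [sq_abs] at this
    linarith
  have hzero : ∀ w : ℝ × ℝ, w.1 ≠ 0 → w ∉ S → P.wk ω w.swap = 0 := by
    intro w hw0 hwS
    by_contra hne
    apply hwS
    unfold FzP.wk at hne
    have h1 : ((P.cW * fzB ((w.swap.1 / (2 * w.swap.2) - ω.1) / P.tX) * fzB ((2 * P.H * w.swap.2 - ω.2.1) / P.tS) : ℝ) : ℂ) ≠ 0 :=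
      left_ne_zero_of_mul hne
    have h2 : P.cW * fzB ((w.2 / (2 * w.1) - ω.1) / P.tX) * fzB ((2 * P.H * w.1 - ω.2.1) / P.tS) ≠ 0 := by
      intro h0
      apply h1
      simp only [Prod.fst_swap, Prod.snd_swap]
      rw [h0]
      simp
    have hb2 : |(2 * P.H * w.1 - ω.2.1) / P.tS| < 2 := hlt2 _ (right_ne_zero_of_mul h2)
    have hb1 : |(w.2 / (2 * w.1) - ω.1) / P.tX| < 2 := hlt2 _ (right_ne_zero_of_mul (left_ne_zero_of_mul h2))
    rw [abs_div, abs_of_pos htS, div_lt_iff₀ htS] at hb2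
    rw [abs_div, abs_of_pos htX, div_lt_iff₀ htX] at hb1
    have e1 : w.1 - ω.2.1 / (2 * P.H) = (2 * P.H * w.1 - ω.2.1) / (2 * P.H) := by
      field_simp
    have g1 : |w.1 - ω.2.1 / (2 * P.H)| ≤ wd := by
      rw [e1, abs_div, abs_of_pos (by positivity : 0 < 2 * P.H), hwd, div_le_div_iff₀ (by positivity) hH]
      nlinarith
    have g2 : |w.1| ≤ ρm := by
      have h3 : |ω.2.1 / (2 * P.H)| ≤ a / P.H := by
        rw [abs_div, abs_of_pos (by positivity : 0 < 2 * P.H), abs_of_pos (by linarith : 0 < ω.2.1), div_le_div_iff₀ (by positivity) hH]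
        nlinarith
      have h4 : |w.1| ≤ |w.1 - ω.2.1 / (2 * P.H)| + |ω.2.1 / (2 * P.H)| := by
        have := abs_add_le (w.1 - ω.2.1 / (2 * P.H)) (ω.2.1 / (2 * P.H))
        rwa [sub_add_cancel] at this
      have h5 : ρm = P.tS / P.H + a / P.H := by rw [hρm]; ring
      rw [h5, ← hwd]
      linarith
    refine ⟨g1, ?_⟩
    have e2 : w.2 - 2 * w.1 * ω.1 = (w.2 / (2 * w.1) - ω.1) * (2 * w.1) := by
      field_simp
    rw [e2, abs_mul, abs_mul, abs_of_pos (by norm_num : (0 : ℝ) < 2), hR]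
    have h6 : 0 ≤ |w.1| := abs_nonneg _
    have h7 : 0 ≤ |w.2 / (2 * w.1) - ω.1| := abs_nonneg _
    nlinarith
  have hae : ∀ᵐ w : ℝ × ℝ, w.1 ≠ 0 := by
    have h0 : ∀ᵐ x : ℝ, x ≠ 0 := by simp [ae_iff]
    exact (Measure.quasiMeasurePreserving_fst (μ := (volume : Measure ℝ)) (ν := (volume : Measure ℝ))).ae h0
  calc ∫⁻ z, ‖P.wk ω z‖ₑ ^ 2 = ∫⁻ w : ℝ × ℝ, ‖P.wk ω w.swap‖ₑ ^ 2 := by
        rw [Measure.volume_eq_prod, lintegral_prod_swap (f := fun z => ‖P.wk ω z‖ₑ ^ 2)]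
    _ ≤ ∫⁻ w, S.indicator (fun _ => ENNReal.ofReal (c ^ 2)) w := by
        refine lintegral_mono_ae ?_
        filter_upwards [hae] with w hw
        by_cases hwS : w ∈ S
        · rw [Set.indicator_of_mem hwS, ← ofReal_norm, ← ENNReal.ofReal_pow (norm_nonneg _)]
          exact ENNReal.ofReal_le_ofReal (pow_le_pow_left₀ (norm_nonneg _) (hnorm _) 2)
        · rw [Set.indicator_of_notMem hwS, hzero w hw hwS]
          simp
    _ = ENNReal.ofReal (c ^ 2) * volume S := lintegral_indicator_const hSm _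
    _ ≤ ENNReal.ofReal (c ^ 2) * (ENNReal.ofReal (2 * wd) * ENNReal.ofReal (2 * R)) := by gcongr
    _ = ENNReal.ofReal (c ^ 2 * ((2 * wd) * (2 * R))) := by
        rw [← ENNReal.ofReal_mul (by positivity), ← ENNReal.ofReal_mul (by positivity)]

/-- LEAF `L-256-FZ-GEO-4C`.   Tonelli + the scaling `u = fs ξ₂` (`lintegral_comp_mul_left`-type lemma: `Measure.map_mul_left..`, or `MeasureTheory.lintegral_comp_smul`; `∫⁻ u, F (u / fs) = ofReal fs * ∫⁻ v, F v`) + the rearrangement `((z₁, v), z₂)` (`volume` on products is the product, `lintegral_prod`, `lintegral_lintegral_swap`). -/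
theorem fz_g4_fib (fs : ℝ) (hfs : 0 < fs) (g : RdWvPar.Mo → ℝ≥0∞) (hg : Measurable g) :
    ∫⁻ u : ℝ, ∫⁻ z : ℝ × ℝ, g ((z.1, u / fs), z.2) = ENNReal.ofReal fs * ∫⁻ q, g q := by
  obtain ⟨F, hF⟩ : ∃ F : ℝ → ℝ≥0∞, F = fun v => ∫⁻ z : ℝ × ℝ, g ((z.1, v), z.2) := ⟨_, rfl⟩
  have hFm : Measurable F := by
    have h0 : Measurable (fun p : ℝ × (ℝ × ℝ) => g ((p.2.1, p.1), p.2.2)) := hg.comp (by fun_prop)
    rw [hF]
    exact h0.lintegral_prod_right'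
  have h1 : ∫⁻ u : ℝ, F (u / fs) = ENNReal.ofReal fs * ∫⁻ v, F v := by
    have hmap := Real.map_volume_mul_right (a := fs⁻¹) (inv_ne_zero hfs.ne')
    have h3 : ∫⁻ u : ℝ, F (u * fs⁻¹) = ∫⁻ v, F v ∂(Measure.map (· * fs⁻¹) volume) :=
      (lintegral_map hFm (measurable_mul_const _)).symm
    simp only [div_eq_mul_inv]
    rw [h3, hmap, lintegral_smul_measure, inv_inv, abs_of_pos hfs, smul_eq_mul]
  have h2 : ∫⁻ v, F v = ∫⁻ q, g q := by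
    have e1 : ∫⁻ q : RdWvPar.Mo, g q = ∫⁻ x : ℝ × ℝ, ∫⁻ y : ℝ, g (x, y) := by
      rw [Measure.volume_eq_prod, lintegral_prod _ hg.aemeasurable]
    have hm2 : Measurable (fun x : ℝ × ℝ => ∫⁻ y : ℝ, g (x, y)) := hg.lintegral_prod_right'
    have e2 : ∫⁻ x : ℝ × ℝ, ∫⁻ y : ℝ, g (x, y) = ∫⁻ x1 : ℝ, ∫⁻ x2 : ℝ, ∫⁻ y : ℝ, g ((x1, x2), y) := by
      rw [Measure.volume_eq_prod, lintegral_prod _ hm2.aemeasurable]
    have e3 : ∀ v : ℝ, F v = ∫⁻ z1 : ℝ, ∫⁻ z2 : ℝ, g ((z1, v), z2) := by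
      intro v
      rw [hF]
      have hm3 : Measurable (fun z : ℝ × ℝ => g ((z.1, v), z.2)) := hg.comp (by fun_prop)
      show ∫⁻ z : ℝ × ℝ, g ((z.1, v), z.2) = _
      rw [Measure.volume_eq_prod, lintegral_prod _ hm3.aemeasurable]
    rw [e1, e2, lintegral_congr e3]
    have hm4 : Measurable (fun p : ℝ × ℝ => ∫⁻ z2 : ℝ, g ((p.2, p.1), z2)) := by
      have h0 : Measurable (fun p : (ℝ × ℝ) × ℝ => g ((p.1.2, p.1.1), p.2)) := hg.comp (by fun_prop)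
      exact h0.lintegral_prod_right'
    exact lintegral_lintegral_swap (f := fun v z1 => ∫⁻ z2 : ℝ, g ((z1, v), z2)) hm4.aemeasurable
  rw [← h2, ← h1, hF]

theorem fz_g4d_wk_meas (P : FzP) (ω : FzOm) : Measurable (P.wk ω) := by
  have hB : Measurable fzB := fz_g4_B.2.2
  unfold FzP.wk
  refine (Complex.measurable_ofReal.comp ?_).mul (Complex.measurable_exp.comp ?_)
  · refine (measurable_const.mul (hB.comp ?_)).mul (hB.comp ?_)
    · fun_prop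
    · fun_prop
  · refine measurable_const.mul (Complex.measurable_ofReal.comp ?_)
    fun_prop

/-- LEAF `L-256-FZ-GEO-4D`.   For every `u`: `hy_adj_cs volume (P.wk ω) _ (fun z => G ((z.1, u/fs), z.2)) _` (`smul_eq_mul`; `Lp.stronglyMeasurable G` composed with a measurable map; `wk` measurable: `fz_g4_B`, `fun_prop`);
integrate in `u` (`lintegral_const_mul'`-type), `fz_g4_fib` with `g = ‖G ·‖ₑ²`, `hy_fl_norm_sq`. -/
theorem fz_g4_eps (P : FzP) (hP : P.Ok) (G : Lp ℂ 2 (volume : Measure RdWvPar.Mo)) (ω : FzOm) :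
    ∫⁻ u, ‖P.wf G (ω, u)‖ₑ ^ 2 ≤ (∫⁻ z, ‖P.wk ω z‖ₑ ^ 2) * (ENNReal.ofReal P.fs * ENNReal.ofReal (‖G‖ ^ 2)) := by
  have hGm : StronglyMeasurable (G : RdWvPar.Mo → ℂ) := Lp.stronglyMeasurable G
  have hg : Measurable (fun q : RdWvPar.Mo => ‖(G : RdWvPar.Mo → ℂ) q‖ₑ ^ 2) := hGm.measurable.enorm.pow_const 2
  have h1 : ∀ u : ℝ, ‖P.wf G (ω, u)‖ₑ ^ 2
      ≤ (∫⁻ z, ‖P.wk ω z‖ₑ ^ 2) * ∫⁻ z : ℝ × ℝ, ‖(G : RdWvPar.Mo → ℂ) ((z.1, u / P.fs), z.2)‖ₑ ^ 2 := by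
    intro u
    have h2 := hy_adj_cs (volume : Measure (ℝ × ℝ)) (P.wk ω) (fz_g4d_wk_meas P ω).aemeasurable
      (fun z : ℝ × ℝ => (G : RdWvPar.Mo → ℂ) ((z.1, u / P.fs), z.2))
      (hGm.comp_measurable (by fun_prop)).aestronglyMeasurable
    simp only [smul_eq_mul] at h2
    exact h2
  have hH : Measurable (fun u : ℝ => ∫⁻ z : ℝ × ℝ, ‖(G : RdWvPar.Mo → ℂ) ((z.1, u / P.fs), z.2)‖ₑ ^ 2) := by
    have h0 : Measurable (fun p : ℝ × (ℝ × ℝ) => ‖(G : RdWvPar.Mo → ℂ) ((p.2.1, p.1 / P.fs), p.2.2)‖ₑ ^ 2) :=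
      hg.comp (by fun_prop)
    exact h0.lintegral_prod_right'
  calc ∫⁻ u, ‖P.wf G (ω, u)‖ₑ ^ 2
      ≤ ∫⁻ u : ℝ, (∫⁻ z, ‖P.wk ω z‖ₑ ^ 2) * ∫⁻ z : ℝ × ℝ, ‖(G : RdWvPar.Mo → ℂ) ((z.1, u / P.fs), z.2)‖ₑ ^ 2 := lintegral_mono h1
    _ = (∫⁻ z, ‖P.wk ω z‖ₑ ^ 2) * ∫⁻ u : ℝ, ∫⁻ z : ℝ × ℝ, ‖(G : RdWvPar.Mo → ℂ) ((z.1, u / P.fs), z.2)‖ₑ ^ 2 :=
        lintegral_const_mul _ hH
    _ = _ := by
        rw [fz_g4_fib P.fs hP.fs_pos _ hg, hy_fl_norm_sq]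

/-- LEAF `L-256-FZ-GEO-4E`.   `fzCut`: the `MemLp` condition holds (`MemLp.indicator`, `(hb.inter hU).prod MeasurableSet.univ`), `MemLp.coeFn_toLp`: `V =ᵐ 1_{(band ∩ U) × ℝ} W G =ᵐ 1_{..} wf G`.
`hyE = ∫⁻_{y.1 ∈ S} ‖V‖ₑ² ≤ ∫⁻_{y.1 ∈ S ∩ band} ‖W G‖ₑ²`; Tonelli (`hy_fl_E_eps` for the state `fzW P G`); for a.e. `ω`: `W G (ω, ·) =ᵐ wf G (ω, ·)` (`Measure.ae_ae_of_ae_prod`); `setLIntegral_mono_ae`, `setLIntegral_const`. -/
theorem fz_g4_E (P : FzP) (hW : ∀ G, (fzW P G : FzOm × ℝ → ℂ) =ᵐ[(volume : Measure FzOm).prod (volume : Measure ℝ)] P.wf G) (a : ℝ) (U : Set FzOm) (hU : MeasurableSet U)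
    (G : Lp ℂ 2 (volume : Measure RdWvPar.Mo)) (S : Set FzOm) (hS : MeasurableSet S) (K : ℝ≥0∞) (hK : ∀ ω ∈ fzBand a, ∫⁻ u, ‖P.wf G (ω, u)‖ₑ ^ 2 ≤ K) :
    hyE (fzHy P a) S (fzCut (fzBand a ∩ U) (fzW P G)) ≤ K * volume (S ∩ fzBand a) := by
  have hb : MeasurableSet (fzBand a) := by
    have m1 : Measurable fun ω : FzOm => ω.2.1 := by fun_prop
    exact (measurableSet_le measurable_const m1).inter (measurableSet_lt m1 measurable_const)
  have hA : MeasurableSet ((fzBand a ∩ U) ×ˢ (Set.univ : Set ℝ)) := (hb.inter hU).prod MeasurableSet.univ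
  have hmem : MemLp (((fzBand a ∩ U) ×ˢ (Set.univ : Set ℝ)).indicator (fzW P G : FzOm × ℝ → ℂ)) 2
      ((volume : Measure FzOm).prod (volume : Measure ℝ)) := (Lp.memLp (fzW P G)).indicator hA
  have hV : (fzCut (fzBand a ∩ U) (fzW P G) : FzOm × ℝ → ℂ) =ᵐ[(volume : Measure FzOm).prod (volume : Measure ℝ)]
      ((fzBand a ∩ U) ×ˢ (Set.univ : Set ℝ)).indicator (fzW P G : FzOm × ℝ → ℂ) := by
    unfold fzCut
    rw [dif_pos hmem]
    exact hmem.coeFn_toLp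
  have hB : MeasurableSet {y : FzOm × ℝ | y.1 ∈ S} := measurable_fst hS
  have hB' : MeasurableSet {y : FzOm × ℝ | y.1 ∈ S ∩ fzBand a} := measurable_fst (hS.inter hb)
  -- step 1: reduce to the state `W G` over `S ∩ band`
  have s1 : hyE (fzHy P a) S (fzCut (fzBand a ∩ U) (fzW P G)) ≤ hyE (fzHy P a) (S ∩ fzBand a) (fzW P G) := by
    unfold hyE
    show ∫⁻ y in {y : FzOm × ℝ | y.1 ∈ S}, ‖(fzCut (fzBand a ∩ U) (fzW P G) : FzOm × ℝ → ℂ) y‖ₑ ^ 2 ∂((volume : Measure FzOm).prod (volume : Measure ℝ))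
      ≤ ∫⁻ y in {y : FzOm × ℝ | y.1 ∈ S ∩ fzBand a}, ‖(fzW P G : FzOm × ℝ → ℂ) y‖ₑ ^ 2 ∂((volume : Measure FzOm).prod (volume : Measure ℝ))
    rw [← lintegral_indicator hB, ← lintegral_indicator hB']
    refine lintegral_mono_ae ?_
    filter_upwards [hV] with y hy
    by_cases h1 : y.1 ∈ S
    · have m1 : y ∈ {y : FzOm × ℝ | y.1 ∈ S} := h1
      rw [Set.indicator_of_mem m1, hy]
      by_cases h2 : y.1 ∈ fzBand a
      · have m2 : y ∈ {y : FzOm × ℝ | y.1 ∈ S ∩ fzBand a} := ⟨h1, h2⟩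
        rw [Set.indicator_of_mem m2]
        by_cases h3 : y ∈ (fzBand a ∩ U) ×ˢ (Set.univ : Set ℝ)
        · rw [Set.indicator_of_mem h3]
        · rw [Set.indicator_of_notMem h3]
          simp
      · have h3 : y ∉ (fzBand a ∩ U) ×ˢ (Set.univ : Set ℝ) := fun h => h2 h.1.1
        rw [Set.indicator_of_notMem h3]
        simp
    · have m1 : y ∉ {y : FzOm × ℝ | y.1 ∈ S} := h1
      rw [Set.indicator_of_notMem m1]
      exact zero_le
  -- step 2: Tonelli and the fibre bound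
  have s2 : hyE (fzHy P a) (S ∩ fzBand a) (fzW P G) ≤ K * volume (S ∩ fzBand a) := by
    rw [hy_fl_E_eps (fzHy P a) (S ∩ fzBand a) (hS.inter hb) (fzW P G)]
    show ∫⁻ ω in S ∩ fzBand a, (∫⁻ u, ‖(fzW P G : FzOm × ℝ → ℂ) (ω, u)‖ₑ ^ 2) ∂(volume : Measure FzOm) ≤ _
    have h1 : ∀ᵐ ω ∂(volume : Measure FzOm), ∀ᵐ u ∂(volume : Measure ℝ), (fzW P G : FzOm × ℝ → ℂ) (ω, u) = P.wf G (ω, u) :=
      Measure.ae_ae_of_ae_prod (hW G)
    have h2 : ∀ᵐ ω ∂((volume : Measure FzOm).restrict (S ∩ fzBand a)), (∫⁻ u, ‖(fzW P G : FzOm × ℝ → ℂ) (ω, u)‖ₑ ^ 2) ≤ K := by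
      rw [ae_restrict_iff' (hS.inter hb)]
      filter_upwards [h1] with ω hω hmemω
      have e : ∫⁻ u, ‖(fzW P G : FzOm × ℝ → ℂ) (ω, u)‖ₑ ^ 2 = ∫⁻ u, ‖P.wf G (ω, u)‖ₑ ^ 2 := by
        refine lintegral_congr_ae ?_
        filter_upwards [hω] with u hu
        rw [hu]
      rw [e]
      exact hK ω hmemω.2
    calc _ ≤ ∫⁻ _ω in S ∩ fzBand a, K ∂(volume : Measure FzOm) := lintegral_mono_ae h2
      _ = K * volume (S ∩ fzBand a) := setLIntegral_const _ _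
  exact s1.trans s2

/-- LEAF `L-256-FZ-GEO-4F`.   `ω = (X0, s0, B0, Y0)`: `|X0 - x| ≤ r`, `a ≤ s0 < 2a`, `|B0 - c₂(X0)| ≤ l r`, `|Y0 - c₃(X0, B0)| ≤ l r²`: `hy_fl_slab` three times (or `hy_fl_box` after the measure preserving swap of `s0` to the front) + an interval. -/
theorem fz_g4_vol (P : FzP) (a : ℝ) (ha : 0 < a) (Q : CyT) (l T : ℝ) (hl : 0 ≤ l) (hr : 0 ≤ Q.r) :
    (volume : Measure FzOm) ((hyBs (fzHy P a) Q l T : Set FzOm) ∩ fzBand a) ≤ ENNReal.ofReal (8 * a * l ^ 2 * Q.r ^ 4) := by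
  obtain ⟨S, hSdef⟩ : ∃ S : Set (ℝ × ℝ × ℝ × ℝ), S = {ω | (|ω.1 - Q.x| ≤ Q.r ∧ |ω.2.2.1 + T * ω.1 - Q.b| ≤ l * Q.r ∧
      |ω.2.2.2 + T * ω.1 ^ 2 - Q.y - 2 * Q.x * (ω.2.2.1 + T * ω.1 - Q.b)| ≤ l * Q.r ^ 2) ∧ (a ≤ ω.2.1 ∧ ω.2.1 < 2 * a)} := ⟨_, rfl⟩
  have hSe : ((hyBs (fzHy P a) Q l T : Set FzOm) ∩ fzBand a) = S := by
    rw [hSdef]
    rfl
  have hm : MeasurableSet S := by
    rw [hSdef]
    have s1 : MeasurableSet {ω : ℝ × ℝ × ℝ × ℝ | |ω.1 - Q.x| ≤ Q.r} := measurableSet_le (by fun_prop) measurable_const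
    have s2 : MeasurableSet {ω : ℝ × ℝ × ℝ × ℝ | |ω.2.2.1 + T * ω.1 - Q.b| ≤ l * Q.r} := measurableSet_le (by fun_prop) measurable_const
    have s3 : MeasurableSet {ω : ℝ × ℝ × ℝ × ℝ | |ω.2.2.2 + T * ω.1 ^ 2 - Q.y - 2 * Q.x * (ω.2.2.1 + T * ω.1 - Q.b)| ≤ l * Q.r ^ 2} :=
      measurableSet_le (by fun_prop) measurable_const
    have s4 : MeasurableSet {ω : ℝ × ℝ × ℝ × ℝ | a ≤ ω.2.1} := measurableSet_le measurable_const (by fun_prop)
    have s5 : MeasurableSet {ω : ℝ × ℝ × ℝ × ℝ | ω.2.1 < 2 * a} := measurableSet_lt (by fun_prop) measurable_const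
    exact (s1.inter (s2.inter s3)).inter (s4.inter s5)
  have hgoal : (volume : Measure FzOm) ((hyBs (fzHy P a) Q l T : Set FzOm) ∩ fzBand a) = (volume : Measure (ℝ × ℝ × ℝ × ℝ)) S := congrArg _ hSe
  refine hgoal.le.trans ?_
  have key := hy_fl_slab S hm Q.x Q.r (ENNReal.ofReal (2 * (a / 2)) * (ENNReal.ofReal (2 * (l * Q.r)) * ENNReal.ofReal (2 * (l * Q.r ^ 2))))
    (fun ω hω => by rw [hSdef] at hω; exact hω.1.1) (fun x => by
    refine hy_fl_slab _ (measurable_prodMk_left hm) (3 * a / 2) (a / 2) _ (fun ω hω => ?_) (fun s => ?_)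
    · have hω' : (x, ω) ∈ S := hω
      rw [hSdef] at hω'
      obtain ⟨h1, h2⟩ := hω'.2
      rw [abs_le]
      constructor
      · show -(a / 2) ≤ ω.1 - 3 * a / 2
        have : a ≤ ω.1 := h1
        linarith
      · show ω.1 - 3 * a / 2 ≤ a / 2
        have : ω.1 < 2 * a := h2
        linarith
    · refine hy_fl_slab _ (measurable_prodMk_left (measurable_prodMk_left hm)) (Q.b - T * x) (l * Q.r) _ (fun ω hω => ?_) (fun y => ?_)
      · have hω' : (x, s, ω) ∈ S := hω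
        rw [hSdef] at hω'
        have h2 : |ω.1 + T * x - Q.b| ≤ l * Q.r := hω'.1.2.1
        have e : ω.1 - (Q.b - T * x) = ω.1 + T * x - Q.b := by ring
        rw [e]
        exact h2
      · have hsub : Prod.mk y ⁻¹' (Prod.mk s ⁻¹' (Prod.mk x ⁻¹' S))
            ⊆ Set.Icc ((Q.y + 2 * Q.x * (y + T * x - Q.b) - T * x ^ 2) - l * Q.r ^ 2) ((Q.y + 2 * Q.x * (y + T * x - Q.b) - T * x ^ 2) + l * Q.r ^ 2) := by
          intro z hz
          have hz' : (x, s, y, z) ∈ S := hz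
          rw [hSdef] at hz'
          have h3 : |z + T * x ^ 2 - Q.y - 2 * Q.x * (y + T * x - Q.b)| ≤ l * Q.r ^ 2 := hz'.1.2.2
          have := abs_le.1 h3
          constructor <;> linarith [this.1, this.2]
        refine (measure_mono hsub).trans ?_
        rw [Real.volume_Icc]
        apply le_of_eq
        congr 1
        ring)
  refine key.trans (le_of_eq ?_)
  rw [← ENNReal.ofReal_mul (by positivity), ← ENNReal.ofReal_mul (by positivity), ← ENNReal.ofReal_mul (by positivity)]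
  congr 1
  ring

/-- LEAF `L-256-FZ-GEO-4A`.   `ka = (K + E + 1) / dl^(1-η)`;   `r ≤ 1`: `r⁴ ≤ r^(3+η)`;   `r ≥ 1`: `1 ≤ r^(3+η)`;   `dl^(1-η) ≤ f^(1-η)`. -/
theorem fz_g4_num {η K E dl : ℝ} (h0 : 0 < η) (h1 : η < 1) (hK : 0 ≤ K) (hE : 0 ≤ E) (hdl : 0 < dl) :
    ∃ ka : ℝ, 0 < ka ∧ ∀ r f m : ℝ, 0 < r → dl ≤ f → m ≤ K * r ^ 4 → m ≤ E → m ≤ ka * (r ^ (3 + η) * f ^ (1 - η)) := by
  have hd : 0 < dl ^ (1 - η) := Real.rpow_pos_of_pos hdl _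
  refine ⟨(K + E + 1) / dl ^ (1 - η), by positivity, fun r f m hr hf hm1 hm2 => ?_⟩
  have hf1 : dl ^ (1 - η) ≤ f ^ (1 - η) := Real.rpow_le_rpow hdl.le hf (by linarith)
  have hr0 : 0 < r ^ (3 + η) := Real.rpow_pos_of_pos hr _
  have h2 : (K + E + 1) * r ^ (3 + η) ≤ (K + E + 1) / dl ^ (1 - η) * (r ^ (3 + η) * f ^ (1 - η)) := by
    have e : (K + E + 1) / dl ^ (1 - η) * (r ^ (3 + η) * f ^ (1 - η)) = (K + E + 1) * r ^ (3 + η) * (f ^ (1 - η) / dl ^ (1 - η)) := by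
      field_simp
    rw [e]
    exact le_mul_of_one_le_right (by positivity) ((one_le_div hd).2 hf1)
  refine le_trans ?_ h2
  rcases le_total r 1 with hr1 | hr1
  · have h3 : r ^ 4 ≤ r ^ (3 + η) := by
      rw [← Real.rpow_natCast r 4]
      exact Real.rpow_le_rpow_of_exponent_ge hr hr1 (by push_cast; linarith)
    nlinarith
  · have h3 : 1 ≤ r ^ (3 + η) := Real.one_le_rpow hr1 (by linarith)
    nlinarith

/-- **G4**: trivial regularity of the hybrid states -/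
theorem fz_g_reg0 (η : ℝ) (h0 : 0 < η) (h1 : η < 1) (P : FzP) (hP : P.Ok)
    (hW : ∀ G, (fzW P G : FzOm × ℝ → ℂ) =ᵐ[(volume : Measure FzOm).prod (volume : Measure ℝ)] P.wf G) (a : ℝ) (ha : 0 < a) (U : Set FzOm) (hU : MeasurableSet U)
    (G : Lp ℂ 2 (volume : Measure RdWvPar.Mo)) (T : ℝ) (k b : ℕ) :
    ∃ ka : ℝ, 0 < ka ∧ ((fzHy P a).sys η).Reg T k b ka (fzCut (fzBand a ∩ U) (fzW P G)) := by
  have hp := fz_g4_hy_ok P hP ha
  obtain ⟨K1, hK1, hwk⟩ := fz_g4_wk P hP a ha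
  set V : ((fzHy P a).sys η).Kc := fzCut (fzBand a ∩ U) (fzW P G) with hV
  set l : ℝ := (2 : ℝ)⁻¹ ^ k with hl
  have hl0 : 0 < l := by positivity
  have hdl : 0 < (fzHy P a).dl k := by
    unfold ChyPar.dl
    exact Real.sqrt_pos.mpr (mul_pos hp.H_pos (by positivity))
  obtain ⟨ka, hka, hnum⟩ := fz_g4_num (K := K1 * (P.fs * ‖G‖ ^ 2) * (8 * a * l ^ 2)) (E := ‖V‖ ^ 2) h0 h1
    (by have := hP.fs_pos; positivity) (by positivity) hdl
  refine ⟨ka, hka, ?_⟩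
  intro Q hQ
  obtain ⟨hr, hf, hfl⟩ : 0 < Q.r ∧ 0 < Q.f ∧ (fzHy P a).dl k ≤ Q.f := hQ
  have c1 := hy_fl_cell1 (fzHy P a) hp η T k b Q V
  have hS := hy_fl_bs_meas (fzHy P a) hp Q l T
  refine hnum Q.r Q.f _ hr hfl ?_ ?_
  · have c2 := fz_g4_E P hW a U hU G (hyBs (fzHy P a) Q l T) hS (ENNReal.ofReal K1 * (ENNReal.ofReal P.fs * ENNReal.ofReal (‖G‖ ^ 2)))
      (fun ω hω => (fz_g4_eps P hP G ω).trans (mul_le_mul_left (hwk ω hω) _))
    have c3 := fz_g4_vol P a ha Q l T hl0.le hr.le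
    have c4 : ENNReal.ofReal (((fzHy P a).sys η).ms T k b (((fzHy P a).sys η).cell Q T k) V)
        ≤ ENNReal.ofReal (K1 * (P.fs * ‖G‖ ^ 2) * (8 * a * l ^ 2) * Q.r ^ 4) := by
      refine c1.trans (c2.trans ((mul_le_mul_right c3 _).trans (le_of_eq ?_)))
      rw [← ENNReal.ofReal_mul hP.fs_pos.le, ← ENNReal.ofReal_mul hK1, ← ENNReal.ofReal_mul (by have := hP.fs_pos; positivity)]
      congr 1
      ring
    exact (ENNReal.ofReal_le_ofReal_iff (by have := hP.fs_pos; positivity)).mp c4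
  · have c5 := c1.trans (hy_fl_le_norm (fzHy P a) (hyBs (fzHy P a) Q l T) V)
    exact (ENNReal.ofReal_le_ofReal_iff (by positivity)).mp c5

end Claimed.Agent.R256
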