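-- KEEP
import Claimed.Agent.R256.Fz.Flat

/-!
# Row 256 (LS paper), folder Fz, file MDefs : THE DEFINITIONS OF `Fz/Main.lean` (bands, enlarged tests, hybrid experiments)          (chief helper207; prefix `fz_`)          DEFINITIONS ONLY.   ALL UNITS IMPORT THIS FILE OR `Fz/Seam.lean`, NEVER `Fz/Main.lean`

Plan: report 951 (kind plan256).      `d : FzDat` a flat wave, `S` the window exponent, `P = d.P S` (`tX = √H δ^S`, `tS = Hf δ^S`), bands `a = fzA C j = 2^(j - (C+10))`, `j < 2C+20`, base box `R = δ^-g0 / 4`,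
hybrid state `fzSt P a R G = 1_{band a ∩ box R} W G`, enlarged label tests `fzEnl Λ (tc l)` (`r ↦ 2r`, `f ↦ Λ f`, `Λ = δ^-g1`).
* `FzDat.Asg`   fractional assignments on the rows of the hybrid system of one band, carried by the enlarged label tests.
* `FzDat.xp`    the FREE hybrid experiment of one band (`k0 = 0`, `i0 = 0`, scale `n`, budget `e`; `ka` is irrelevant for `rd`).
* `fz_out`      **OUT** (owner helper199): the label masses of the flat wave are dominated by the label masses of the hybrid experiments, `m l ≤ K Σ_j m'_j l + e l`, `Σ e l ≤ δ^J e`, `K = 2^13 (C+10)`.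
* `fz_in`       **IN** (owner helper89): every hybrid experiment of this kind obeys the truncated rate `CyTrRate (sfHy η)`: `rd ≤ 2^(-(1/2 - Γc - γ) n) e √bq`.
* `fz_flat_rate`   FLAT-RATE from IN + OUT (cube sums; leaf `L-256-FZ-TOP`).
WINDOW EXPONENT: `fzS Ds = 16 Ds + 16` in both   (the flat coordinates of the rows of a label are `≤ 20 δ^(-3 Ds) ≤ δ^(-S/4)`; the freezing phase `T δ^S N² / 2` must stay bounded).
-/

set_option autoImplicit false

namespace Claimed.Agent.R256

open MeasureTheory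
open scoped ENNReal

/-- the window exponent -/
def fzS (Ds : ℝ) : ℝ := 16 * Ds + 16

/-- the freeze parameters of a flat wave -/
noncomputable def FzDat.P (d : FzDat) (S : ℝ) : FzP :=
  ⟨d.p.H, d.fs, Real.sqrt d.p.H * d.s ^ S, d.p.H / d.fs ^ 2 * d.s ^ S⟩

/-- the bands -/
noncomputable def fzA (C : ℕ) (j : Fin (2 * C + 20)) : ℝ := 2 ^ (((j : ℕ) : ℤ) - ((C : ℤ) + 10))

/-- the enlarged test -/
def fzEnl (Λ : ℝ) (Q : CyT) : CyT := { Q with r := 2 * Q.r, f := Λ * Q.f }

/-- a fractional assignment on the hybrid rows of the band `a`, carried by the enlarged label tests -/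
structure FzDat.Asg (d : FzDat) (P : FzP) (a Λ : ℝ) (θ : Fin d.L → FzOm × ℝ × ℝ → ℝ) : Prop where
  meas : ∀ l, Measurable (θ l)
  nn : ∀ l x, 0 ≤ θ l x
  sum_le : ∀ i x, ∑ l, (if d.iv l = i then θ l x else 0) ≤ 1
  supp : ∀ l x, θ l x ≠ 0 → cyIn (fzEnl Λ (d.tc l)) d.s ((fzHy P a).co (tmL d.n (d.iv l)) x)

/-- the free hybrid experiment of the band `a` -/
noncomputable def FzDat.xp (d : FzDat) (η : ℝ) (P : FzP) (a R Λ : ℝ) (θ : Fin d.L → FzOm × ℝ × ℝ → ℝ) : Xp ((fzHy P a).sys η) where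
  k0 := 0
  i0 := 0
  n := d.n
  v := fzSt P a R d.G
  e := d.e
  ka := 1
  b0 := 0
  st := []
  bT := 0
  L := d.L
  iv := d.iv
  ts := fun l => fzEnl Λ (d.tc l)
  th := θ

theorem fz_main_eqns_cite : True := by
  have := @fzS.eq_1
  have := @FzDat.P.eq_1
  have := @fzA.eq_1
  have := @fzEnl.eq_1
  have := @FzDat.xp.eq_1
  trivial

/-- the freeze parameters at the scale `δ = 2^-n` with the window exponent `S` -/
noncomputable def fzPn (H fs S : ℝ) (n : ℕ) : FzP := ⟨H, fs, Real.sqrt H * ((2 : ℝ)⁻¹ ^ n) ^ S, H / fs ^ 2 * ((2 : ℝ)⁻¹ ^ n) ^ S⟩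

theorem fz_seam_eqns_cite : True := by
  have := @fzPn.eq_1
  trivial

theorem fz_dat_P (d : FzDat) (S : ℝ) : d.P S = fzPn d.p.H d.fs S d.n := rfl

end Claimed.Agent.R256
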