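import Claimed.Agent.R256.Fz.KDefs

/-!
# Row 256 (LS paper), folder Fz = WAVE FREEZE, unit FZ-K, file KAmp : THE MODEL AMPLITUDE (support, joint smoothness, normal form)          (helper295; prefix `fz_k_`)

* `fz_k_B_supp, fz_k_B_contDiff`      the bump `fzB`.
* `fz_k_b_supp`      support of `fzKB`:   `2^-(β+5) < σ/2 < 2^(β+5)`, `s² < 2`, `ζ₁² < 2σ²`, `(ζ₂ - mu s)² < 2σ²`, `a1² < 8`.
* `fz_k_zero'`       the model integral vanishes for `|a1| > 3`.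
* `fzKpOf`           the parameters as a point of `Fin 9 → ℝ`;   `fz_k_b_smooth` joint smoothness of the amplitude.
* `fz_k_I_eq`        the model integral in the normal form of `ls_unif_decay2`.
-/

set_option autoImplicit false

namespace Claimed.Agent.R256

open MeasureTheory
open scoped ENNReal ComplexConjugate ContDiff

theorem fz_k_B_supp {t : ℝ} (h : fzB t ≠ 0) : t ^ 2 < 2 := by
  by_contra hx
  push Not at hx
  apply h
  unfold fzB fzB0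
  rw [Real.smoothTransition.zero_of_nonpos (by linarith), zero_div]

theorem fz_k_B_contDiff : ContDiff ℝ ∞ fzB := by
  unfold fzB fzB0
  have h1 : ContDiff ℝ ∞ fun t : ℝ => 2 - t ^ 2 := by fun_prop
  exact (Real.smoothTransition.contDiff.comp h1).div_const _

/-- support of the model amplitude -/
theorem fz_k_b_supp {β : ℕ} {π : FzKp} (h0 : 0 ≤ π.lam) (h1 : π.lam ≤ 1) {w : (ℝ × ℝ) × ℝ} (h : fzKB β π w ≠ 0) :
    (2 : ℝ)⁻¹ ^ (β + 5) < (π.s0 + π.tS * w.2) / 2 ∧ (π.s0 + π.tS * w.2) / 2 < 2 ^ (β + 5) ∧ w.2 ^ 2 < 2 ∧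
      w.1.1 ^ 2 < 2 * (π.s0 + π.tS * w.2) ^ 2 ∧ (w.1.2 - π.mu * w.2) ^ 2 < 2 * (π.s0 + π.tS * w.2) ^ 2 ∧ π.a1 ^ 2 < 8 := by
  unfold fzKB at h
  obtain ⟨h2, -⟩ := mul_ne_zero_iff.1 h
  have h3 : rdChi β ((π.s0 + π.tS * w.2) / 2) * fzB (w.1.1 / (π.s0 + π.tS * w.2)) * fzB w.2
      * rdPsi (π.lam * w.1.1 / (π.s0 + π.tS * w.2) - π.a1, (w.1.2 - π.mu * w.2) / (π.s0 + π.tS * w.2)) ≠ 0 := fun h0 => h2 (by rw [h0]; simp)
  obtain ⟨h4, n4⟩ := mul_ne_zero_iff.1 h3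
  obtain ⟨h5, n3⟩ := mul_ne_zero_iff.1 h4
  obtain ⟨n1, n2⟩ := mul_ne_zero_iff.1 h5
  obtain ⟨c1, c2⟩ := rd_chi_supp n1
  have c3 := fz_k_B_supp n2
  have c4 := fz_k_B_supp n3
  have c5 := rd_psi_supp n4
  set σ := π.s0 + π.tS * w.2 with hσ
  have hσ0 : 0 < σ := by
    have : (0 : ℝ) < (2 : ℝ)⁻¹ ^ (β + 5) := by positivity
    linarith
  have hσ2 : 0 < σ ^ 2 := by positivity
  unfold rtSq at c5
  simp only at c5
  set v1 := w.1.1 / σ with hv1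
  set v2 := (w.1.2 - π.mu * w.2) / σ with hv2
  have e1 : w.1.1 = σ * v1 := by rw [hv1]; field_simp
  have e2 : w.1.2 - π.mu * w.2 = σ * v2 := by rw [hv2]; field_simp
  have e3 : π.lam * w.1.1 / σ = π.lam * v1 := by rw [hv1]; ring
  rw [e3] at c5
  refine ⟨c1, c2, c4, ?_, ?_, ?_⟩
  · rw [e1, mul_pow]
    nlinarith
  · rw [e2, mul_pow]
    nlinarith [sq_nonneg (π.lam * v1 - π.a1)]
  · have l2 : π.lam ^ 2 ≤ 1 := pow_le_one₀ h0 h1
    have t1 : (π.lam * v1) ^ 2 ≤ 2 := by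
      rw [mul_pow]
      nlinarith [sq_nonneg v1]
    nlinarith [sq_nonneg (π.lam * v1 + (π.lam * v1 - π.a1)), sq_nonneg v2]

/-- the model integral vanishes for `|a1| > 3` -/
theorem fz_k_zero' (β : ℕ) (a a2 : ℝ) (π : FzKp) (h0 : 0 ≤ π.lam) (h1 : π.lam ≤ 1) (h3 : 3 < |π.a1|) (X : ℝ × ℝ) (Y : ℝ) : fzKI β a a2 π X Y = 0 := by
  unfold fzKI
  refine integral_eq_zero_of_ae (Filter.Eventually.of_forall fun w => ?_)
  have : fzKB β π w = 0 := by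
    by_contra hne
    have h8 := (fz_k_b_supp h0 h1 hne).2.2.2.2.2
    have h9 : (3 : ℝ) ^ 2 < |π.a1| ^ 2 := pow_lt_pow_left₀ h3 (by norm_num) (by norm_num)
    rw [sq_abs] at h9
    linarith
  simp only [this, zero_mul, mul_zero, Pi.zero_apply]

/-- the nine parameters as a point of `Fin 9 → ℝ` -/
def fzKpOf (p : Fin 9 → ℝ) : FzKp := ⟨p 0, p 1, p 2, p 3, p 4, p 5, p 6, p 7, p 8⟩

theorem fz_k_amp_eqns_cite : True := by
  have := @fzKpOf.eq_1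
  trivial

open Claimed.Agent.R255.BR in
/-- **joint smoothness of the model amplitude** -/
theorem fz_k_b_smooth (β : ℕ) :
    ContDiff ℝ (⊤ : ℕ∞) fun z : (E2 × ℝ) × (Fin 9 → ℝ) => fzKB β (fzKpOf z.2) ((z.1.1 0, z.1.1 1), z.1.2) := by
  rw [contDiff_iff_contDiffAt]
  intro z
  have hs : ContDiff ℝ (⊤ : ℕ∞) fun z : (E2 × ℝ) × (Fin 9 → ℝ) => z.1.2 := contDiff_snd.comp contDiff_fst
  have hp : ∀ i : Fin 9, ContDiff ℝ (⊤ : ℕ∞) fun z : (E2 × ℝ) × (Fin 9 → ℝ) => z.2 i := fun i =>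
    (contDiff_apply ℝ ℝ i).comp contDiff_snd
  have hσ : ContDiff ℝ (⊤ : ℕ∞) fun z : (E2 × ℝ) × (Fin 9 → ℝ) => z.2 3 + z.2 4 * z.1.2 := (hp 3).add ((hp 4).mul hs)
  by_cases hz : 0 < z.2 3 + z.2 4 * z.1.2
  · have h0 : ContDiff ℝ (⊤ : ℕ∞) fun z : (E2 × ℝ) × (Fin 9 → ℝ) => z.1.1 0 :=
      (EuclideanSpace.proj (0 : Fin 2) : E2 →L[ℝ] ℝ).contDiff.comp (contDiff_fst.comp contDiff_fst)
    have h1 : ContDiff ℝ (⊤ : ℕ∞) fun z : (E2 × ℝ) × (Fin 9 → ℝ) => z.1.1 1 :=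
      (EuclideanSpace.proj (1 : Fin 2) : E2 →L[ℝ] ℝ).contDiff.comp (contDiff_fst.comp contDiff_fst)
    have hχ : ContDiffAt ℝ (⊤ : ℕ∞) (fun z : (E2 × ℝ) × (Fin 9 → ℝ) => rdChi β ((z.2 3 + z.2 4 * z.1.2) / 2)) z :=
      ((rd_chi_contDiff β).comp (hσ.div_const 2)).contDiffAt
    have hB1 : ContDiffAt ℝ (⊤ : ℕ∞) (fun z : (E2 × ℝ) × (Fin 9 → ℝ) => fzB (z.1.1 0 / (z.2 3 + z.2 4 * z.1.2))) z :=
      fz_k_B_contDiff.contDiffAt.comp z (h0.contDiffAt.div hσ.contDiffAt hz.ne')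
    have hB2 : ContDiffAt ℝ (⊤ : ℕ∞) (fun z : (E2 × ℝ) × (Fin 9 → ℝ) => fzB z.1.2) z := (fz_k_B_contDiff.comp hs).contDiffAt
    have hψ : ContDiffAt ℝ (⊤ : ℕ∞) (fun z : (E2 × ℝ) × (Fin 9 → ℝ) =>
        rdPsi (z.2 1 * z.1.1 0 / (z.2 3 + z.2 4 * z.1.2) - z.2 0, (z.1.1 1 - z.2 8 * z.1.2) / (z.2 3 + z.2 4 * z.1.2))) z :=
      rd_psi_contDiff.contDiffAt.comp z
        (((((hp 1).mul h0).contDiffAt.div hσ.contDiffAt hz.ne').sub (hp 0).contDiffAt).prodMk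
          ((h1.sub ((hp 8).mul hs)).contDiffAt.div hσ.contDiffAt hz.ne'))
    have hq : ContDiffAt ℝ (⊤ : ℕ∞) (fun z : (E2 × ℝ) × (Fin 9 → ℝ) =>
        (-(z.2 2 * z.1.1 0 ^ 2) + z.1.2 * (z.2 7 * z.1.1 1 ^ 2 + 2 * z.2 6 * z.1.1 1 + z.2 5)) / (2 * (z.2 3 + z.2 4 * z.1.2))) z :=
      ((((hp 2).mul (h0.pow 2)).neg.add (hs.mul ((((hp 7).mul (h1.pow 2)).add ((contDiff_const.mul (hp 6)).mul h1)).add (hp 5)))).contDiffAt).div
        (contDiff_const.mul hσ).contDiffAt (by positivity)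
    unfold fzKB fzKpOf
    exact (Complex.ofRealCLM.contDiff.contDiffAt.comp z (((hχ.mul hB1).mul hB2).mul hψ)).mul
      (Complex.contDiff_exp.contDiffAt.comp z (contDiffAt_const.mul (Complex.ofRealCLM.contDiff.contDiffAt.comp z hq)))
  · have hpos : (0 : ℝ) < (2 : ℝ)⁻¹ ^ (β + 5) := by positivity
    have hU : {y : (E2 × ℝ) × (Fin 9 → ℝ) | (y.2 3 + y.2 4 * y.1.2) / 2 < (2 : ℝ)⁻¹ ^ (β + 5)} ∈ nhds z :=
      (isOpen_lt (hσ.div_const 2).continuous continuous_const).mem_nhds (by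
        show (z.2 3 + z.2 4 * z.1.2) / 2 < (2 : ℝ)⁻¹ ^ (β + 5)
        have := not_lt.1 hz
        linarith)
    have h3 : (fun z : (E2 × ℝ) × (Fin 9 → ℝ) => fzKB β (fzKpOf z.2) ((z.1.1 0, z.1.1 1), z.1.2)) =ᶠ[nhds z] fun _ => 0 := by
      filter_upwards [hU] with y hy
      have h0 : rdChi β ((y.2 3 + y.2 4 * y.1.2) / 2) = 0 := by
        by_contra hne
        exact absurd (rd_chi_supp hne).1 (not_lt.2 (le_of_lt hy))
      unfold fzKB fzKpOf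
      simp only
      rw [h0]
      simp
    exact contDiffAt_const.congr_of_eventuallyEq h3

open Claimed.Agent.R255.BR in
/-- the model integral in the normal form of `ls_unif_decay2` -/
theorem fz_k_I_eq (β : ℕ) (a a2 : ℝ) (π : FzKp) (X : ℝ × ℝ) (Y : ℝ) :
    fzKI β a a2 π X Y = ∫ w : E2 × ℝ, ee (inner ℝ w.1 ((2 * Real.pi)⁻¹ • rtW1cV X) + w.2 * (-((2 * Real.pi)⁻¹ * Y)))
      * (fzKB β π ((w.1 0, w.1 1), w.2) * ((fzKG a a2 ((w.1 0, w.1 1), w.2) : ℝ) : ℂ)) := by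
  have mp : MeasurePreserving (rtW1cV.prodCongr (MeasurableEquiv.refl ℝ)) (volume : Measure ((ℝ × ℝ) × ℝ)) (volume : Measure (E2 × ℝ)) :=
    rt_w1c_V_mp.prod (MeasurePreserving.id volume)
  rw [← mp.integral_comp (rtW1cV.prodCongr (MeasurableEquiv.refl ℝ)).measurableEmbedding]
  unfold fzKI
  refine integral_congr_ae (Filter.Eventually.of_forall fun w => ?_)
  have e : (rtW1cV.prodCongr (MeasurableEquiv.refl ℝ)) w = (rtW1cV w.1, w.2) := rfl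
  obtain ⟨a0, a1⟩ := rt_w1c_V_apply w.1
  simp only [e, a0, a1, Prod.mk.eta]
  rw [inner_smul_right, rt_k_V_inner, rt_w1c_exp_ee]
  congr 2
  ring

end Claimed.Agent.R256
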