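import Claimed.Agent.R256.Fz.KDefs

/-!
# Row 256 (LS paper), folder Fz = WAVE FREEZE, unit FZ-K, file KGau : THE GAUSSIAN MULTIPLIER          (helper295; prefix `fz_kg_`)

`fz_kg_main`:   the Gaussian factor `w ↦ exp(-(ζ₂ + a2)²/(2a))` on `E2 × ℝ` is smooth and, on `|ζ₂| ≤ c0`, all its derivatives of order `≤ L` are `≤ C (1 + |a2|)^-N`, uniformly in the NON COMPACT parameter `a2`.
(Hermite formula of Mathlib for the derivatives of `exp(-y²/2)`;   `(1+|y|)^M exp(-y²/2) ≤ M! e^{3/2}`.)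
-/

set_option autoImplicit false

namespace Claimed.Agent.R256

open MeasureTheory Claimed.Agent.R255.BR
open scoped ENNReal ContDiff

/-- a polynomial grows polynomially -/
theorem fz_kg_poly (p : Polynomial ℤ) : ∃ S : ℝ, 0 ≤ S ∧ ∀ y : ℝ, |Polynomial.aeval y p| ≤ S * (1 + |y|) ^ p.natDegree := by
  refine ⟨∑ k ∈ Finset.range (p.natDegree + 1), |(p.coeff k : ℝ)|, Finset.sum_nonneg fun _ _ => abs_nonneg _, fun y => ?_⟩
  rw [Polynomial.aeval_eq_sum_range, Finset.sum_mul]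
  refine (Finset.abs_sum_le_sum_abs _ _).trans (Finset.sum_le_sum fun k hk => ?_)
  have hk' : k ≤ p.natDegree := Nat.lt_succ_iff.1 (Finset.mem_range.1 hk)
  rw [zsmul_eq_mul, abs_mul, abs_pow]
  refine mul_le_mul_of_nonneg_left ?_ (abs_nonneg _)
  calc |y| ^ k ≤ (1 + |y|) ^ k := pow_le_pow_left₀ (abs_nonneg _) (by linarith) k
    _ ≤ (1 + |y|) ^ p.natDegree := pow_le_pow_right₀ (by linarith [abs_nonneg y]) hk'

theorem fz_kg_exp (M : ℕ) (y : ℝ) : (1 + |y|) ^ M * Real.exp (-(y ^ 2 / 2)) ≤ (M.factorial : ℝ) * Real.exp (3 / 2) := by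
  have h0 : 0 ≤ 1 + |y| := by positivity
  have h1 := Real.pow_div_factorial_le_exp (1 + |y|) h0 M
  have hf : (0 : ℝ) < M.factorial := by exact_mod_cast M.factorial_pos
  rw [div_le_iff₀ hf] at h1
  calc (1 + |y|) ^ M * Real.exp (-(y ^ 2 / 2)) ≤ Real.exp (1 + |y|) * (M.factorial : ℝ) * Real.exp (-(y ^ 2 / 2)) :=
        mul_le_mul_of_nonneg_right h1 (Real.exp_pos _).le
    _ = (M.factorial : ℝ) * Real.exp (1 + |y| + -(y ^ 2 / 2)) := by rw [Real.exp_add (1 + |y|)]; ring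
    _ ≤ (M.factorial : ℝ) * Real.exp (3 / 2) := by
        refine mul_le_mul_of_nonneg_left (Real.exp_le_exp.2 ?_) hf.le
        have : y ^ 2 = |y| ^ 2 := (sq_abs y).symm
        rw [this]
        nlinarith [sq_nonneg (|y| - 1)]

/-- Schwartz bounds for `exp(-y²/2)` -/
theorem fz_kg_one (i N : ℕ) : ∃ C : ℝ, 0 ≤ C ∧ ∀ y : ℝ, (1 + |y|) ^ N * |iteratedDeriv i (fun y : ℝ => Real.exp (-(y ^ 2 / 2))) y| ≤ C := by
  obtain ⟨S, hS, hp⟩ := fz_kg_poly (Polynomial.hermite i)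
  refine ⟨S * (((N + (Polynomial.hermite i).natDegree).factorial : ℝ) * Real.exp (3 / 2)), by positivity, fun y => ?_⟩
  rw [iteratedDeriv_eq_iterate, Polynomial.deriv_gaussian_eq_hermite_mul_gaussian, abs_mul, abs_mul, abs_pow, abs_neg, abs_one, one_pow, one_mul,
    abs_of_pos (Real.exp_pos _)]
  have h0 : 0 ≤ 1 + |y| := by positivity
  calc (1 + |y|) ^ N * (|Polynomial.aeval y (Polynomial.hermite i)| * Real.exp (-(y ^ 2 / 2)))
      ≤ (1 + |y|) ^ N * (S * (1 + |y|) ^ (Polynomial.hermite i).natDegree * Real.exp (-(y ^ 2 / 2))) := by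
        gcongr
        exact hp y
    _ = S * ((1 + |y|) ^ (N + (Polynomial.hermite i).natDegree) * Real.exp (-(y ^ 2 / 2))) := by rw [pow_add]; ring
    _ ≤ _ := mul_le_mul_of_nonneg_left (fz_kg_exp _ y) hS

theorem fz_kg_g0_contDiff : ContDiff ℝ ∞ fun y : ℝ => Real.exp (-(y ^ 2 / 2)) := by
  have h1 : ContDiff ℝ ∞ fun y : ℝ => -(y ^ 2 / 2) := by fun_prop
  exact Real.contDiff_exp.comp h1

/-- the linear form `w ↦ ζ₂/√a` -/
noncomputable def fzKgL (a : ℝ) : E2 × ℝ →L[ℝ] ℝ :=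
  (Real.sqrt a)⁻¹ • ((EuclideanSpace.proj (1 : Fin 2) : E2 →L[ℝ] ℝ).comp (ContinuousLinearMap.fst ℝ E2 ℝ))

theorem fz_kg_eqns_cite : True := by
  have := @fzKgL.eq_1
  trivial

theorem fz_kg_L_apply (a : ℝ) (w : E2 × ℝ) : fzKgL a w = (Real.sqrt a)⁻¹ * w.1 1 := rfl

theorem fz_kg_L_norm (a : ℝ) : ‖fzKgL a‖ ≤ (Real.sqrt a)⁻¹ := by
  refine ContinuousLinearMap.opNorm_le_bound _ (by positivity) fun w => ?_
  rw [fz_kg_L_apply, norm_mul, Real.norm_eq_abs, abs_of_nonneg (by positivity : (0 : ℝ) ≤ (Real.sqrt a)⁻¹)]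
  refine mul_le_mul_of_nonneg_left ?_ (by positivity)
  exact (PiLp.norm_apply_le w.1 1).trans (le_max_left _ _)

/-- the Gaussian factor through `exp(-y²/2)` -/
theorem fz_kg_eq {a : ℝ} (ha : 0 < a) (a2 : ℝ) (w : E2 × ℝ) :
    fzKG a a2 ((w.1 0, w.1 1), w.2) = Real.exp (-((fzKgL a w + (Real.sqrt a)⁻¹ * a2) ^ 2 / 2)) := by
  unfold fzKG
  rw [fz_kg_L_apply, ← mul_add, mul_pow, inv_pow, Real.sq_sqrt ha.le]
  congr 1
  field_simp

/-- **the Gaussian multiplier** -/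
theorem fz_kg_main (L N : ℕ) (a c0 : ℝ) (ha : 0 < a) (hc0 : 0 ≤ c0) : ∃ C : ℝ, 0 ≤ C ∧ ∀ a2 : ℝ,
    ContDiff ℝ ∞ (fun w : E2 × ℝ => ((fzKG a a2 ((w.1 0, w.1 1), w.2) : ℝ) : ℂ)) ∧
    ∀ i ≤ L, ∀ w : E2 × ℝ, |w.1 1| ≤ c0 →
      ‖iteratedFDeriv ℝ i (fun w : E2 × ℝ => ((fzKG a a2 ((w.1 0, w.1 1), w.2) : ℝ) : ℂ)) w‖ ≤ C * ((1 + |a2|) ^ N)⁻¹ := by
  choose C0 hC0 hC using fun i => fz_kg_one i N
  have hsa : 0 < Real.sqrt a := Real.sqrt_pos.2 ha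
  set K : ℝ := 1 + c0 + Real.sqrt a with hK
  have hK0 : 0 < K := by positivity
  refine ⟨∑ i ∈ Finset.range (L + 1), K ^ N * C0 i * ((Real.sqrt a)⁻¹) ^ i,
    Finset.sum_nonneg fun i _ => by have := hC0 i; positivity, fun a2 => ?_⟩
  have hfun : (fun w : E2 × ℝ => fzKG a a2 ((w.1 0, w.1 1), w.2))
      = (fun y : ℝ => Real.exp (-((y + (Real.sqrt a)⁻¹ * a2) ^ 2 / 2))) ∘ fzKgL a := by
    funext w
    exact fz_kg_eq ha a2 w
  have hsh : ContDiff ℝ ∞ fun y : ℝ => Real.exp (-((y + (Real.sqrt a)⁻¹ * a2) ^ 2 / 2)) :=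
    fz_kg_g0_contDiff.comp (contDiff_id.add contDiff_const)
  have hr : ContDiff ℝ ∞ fun w : E2 × ℝ => fzKG a a2 ((w.1 0, w.1 1), w.2) := by
    rw [hfun]
    exact hsh.comp (fzKgL a).contDiff
  refine ⟨Complex.ofRealCLM.contDiff.comp hr, fun i hi w hw => ?_⟩
  have e0 : (fun w : E2 × ℝ => ((fzKG a a2 ((w.1 0, w.1 1), w.2) : ℝ) : ℂ)) = Complex.ofRealLI ∘ fun w : E2 × ℝ => fzKG a a2 ((w.1 0, w.1 1), w.2) := rfl
  rw [e0, Complex.ofRealLI.norm_iteratedFDeriv_comp_left hr.contDiffAt (by exact_mod_cast le_top), hfun,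
    (fzKgL a).iteratedFDeriv_comp_right hsh _ (i := i) (by exact_mod_cast le_top)]
  refine (ContinuousMultilinearMap.norm_compContinuousLinearMap_le _ _).trans ?_
  have e2 := iteratedFDeriv_comp_add_right (𝕜 := ℝ) (f := fun y : ℝ => Real.exp (-(y ^ 2 / 2))) i ((Real.sqrt a)⁻¹ * a2) (fzKgL a w)
  rw [e2, norm_iteratedFDeriv_eq_norm_iteratedDeriv, Finset.prod_const, Finset.card_univ, Fintype.card_fin, Real.norm_eq_abs]
  set y : ℝ := fzKgL a w + (Real.sqrt a)⁻¹ * a2 with hy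
  have hy' : Real.sqrt a * y = w.1 1 + a2 := by
    rw [hy, fz_kg_L_apply]
    field_simp
  have h1 : 1 + |a2| ≤ K * (1 + |y|) := by
    have h2 : |a2| ≤ |w.1 1| + Real.sqrt a * |y| := by
      have : a2 = Real.sqrt a * y - w.1 1 := by rw [hy']; ring
      calc |a2| = |Real.sqrt a * y - w.1 1| := by rw [← this]
        _ ≤ |Real.sqrt a * y| + |w.1 1| := abs_sub _ _
        _ = |w.1 1| + Real.sqrt a * |y| := by rw [abs_mul, abs_of_pos hsa]; ring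
    have h3 : 0 ≤ |y| := abs_nonneg y
    rw [hK]
    nlinarith
  have h4 : (1 + |a2|) ^ N ≤ K ^ N * (1 + |y|) ^ N := by
    rw [← mul_pow]
    exact pow_le_pow_left₀ (by positivity) h1 N
  have hpos : 0 < (1 + |a2|) ^ N := by positivity
  have h5 : |iteratedDeriv i (fun y : ℝ => Real.exp (-(y ^ 2 / 2))) y| ≤ K ^ N * C0 i * ((1 + |a2|) ^ N)⁻¹ := by
    rw [← div_eq_mul_inv, le_div_iff₀ hpos]
    calc |iteratedDeriv i (fun y : ℝ => Real.exp (-(y ^ 2 / 2))) y| * (1 + |a2|) ^ N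
        ≤ |iteratedDeriv i (fun y : ℝ => Real.exp (-(y ^ 2 / 2))) y| * (K ^ N * (1 + |y|) ^ N) :=
          mul_le_mul_of_nonneg_left h4 (abs_nonneg _)
      _ = K ^ N * ((1 + |y|) ^ N * |iteratedDeriv i (fun y : ℝ => Real.exp (-(y ^ 2 / 2))) y|) := by ring
      _ ≤ K ^ N * C0 i := mul_le_mul_of_nonneg_left (hC i y) (by positivity)
  have h6 : ‖fzKgL a‖ ^ i ≤ ((Real.sqrt a)⁻¹) ^ i := pow_le_pow_left₀ (norm_nonneg _) (fz_kg_L_norm a) i
  have h7 : K ^ N * C0 i * ((Real.sqrt a)⁻¹) ^ i ≤ ∑ i ∈ Finset.range (L + 1), K ^ N * C0 i * ((Real.sqrt a)⁻¹) ^ i :=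
    Finset.single_le_sum (f := fun i => K ^ N * C0 i * ((Real.sqrt a)⁻¹) ^ i) (fun i _ => by have := hC0 i; positivity)
      (Finset.mem_range.2 (Nat.lt_succ_of_le hi))
  calc |iteratedDeriv i (fun y : ℝ => Real.exp (-(y ^ 2 / 2))) y| * ‖fzKgL a‖ ^ i
      ≤ (K ^ N * C0 i * ((1 + |a2|) ^ N)⁻¹) * ((Real.sqrt a)⁻¹) ^ i := by
        have := hC0 i
        gcongr
    _ = (K ^ N * C0 i * ((Real.sqrt a)⁻¹) ^ i) * ((1 + |a2|) ^ N)⁻¹ := by ring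
    _ ≤ _ := mul_le_mul_of_nonneg_right h7 (by positivity)

end Claimed.Agent.R256
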