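import Claimed.Agent.R256.Top.Tools

/-!
# Row 256 (LS paper), folder Fz = WAVE FREEZE, unit FZ-K, file KTool : UNIFORM FOURIER DECAY WITH A MULTIPLIER          (helper295; prefix `fz_kt_`)          paper free

`ls_unif_decay`, `ls_unif_decay2` (`Top/Tools.lean`) for amplitudes `𝔟 (w, p) * g w`:   `𝔟` jointly smooth, `p` in a compact set, `g` ANY smooth function whose derivatives of order `≤ L` are `≤ c` on the compact set `KW` which carries `𝔟 (·, p)`.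
Conclusion `≤ C c` with `C` independent of `g`, `c`.      (Used for the Gaussian factor with its non compact parameter.)
-/

set_option autoImplicit false

namespace Claimed.Agent.R256

open MeasureTheory Complex Claimed.Agent.R255.BR
open scoped FourierTransform Real InnerProductSpace ENNReal ContDiff

section

variable {W P : Type} [NormedAddCommGroup W] [InnerProductSpace ℝ W] [FiniteDimensional ℝ W] [MeasurableSpace W] [BorelSpace W]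
  [NormedAddCommGroup P] [NormedSpace ℝ P]

theorem fz_kt_tsupport (𝔟 : W × P → ℂ) {KW : Set W} (hKW : IsCompact KW) {KP : Set P} (hs : ∀ w p, p ∈ KP → w ∉ KW → 𝔟 (w, p) = 0)
    {p : P} (hp : p ∈ KP) (g : W → ℂ) : tsupport (fun w => 𝔟 (w, p) * g w) ⊆ KW := by
  refine closure_minimal ?_ hKW.isClosed
  intro w hw
  by_contra h
  exact hw (by simp only [hs w p hp h, zero_mul])

theorem fz_kt_int (𝔟 : W × P → ℂ) (h𝔟 : ContDiff ℝ ∞ 𝔟) {KW : Set W} (hKW : IsCompact KW)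
    {KP : Set P} (hs : ∀ w p, p ∈ KP → w ∉ KW → 𝔟 (w, p) = 0) {p : P} (hp : p ∈ KP) (g : W → ℂ) (hg : ContDiff ℝ ∞ g) (k j : ℕ) :
    Integrable fun v => ‖v‖ ^ k * ‖iteratedFDeriv ℝ j (fun w => 𝔟 (w, p) * g w) v‖ := by
  have hc : HasCompactSupport (fun w => 𝔟 (w, p) * g w) :=
    hKW.of_isClosed_subset (isClosed_tsupport _) (fz_kt_tsupport 𝔟 hKW hs hp g)
  have h1 : Continuous (iteratedFDeriv ℝ j (fun w => 𝔟 (w, p) * g w)) :=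
    ((ls_ud_slice_smooth 𝔟 h𝔟 p).mul hg).continuous_iteratedFDeriv (m := j) (by exact_mod_cast le_top)
  refine Continuous.integrable_of_hasCompactSupport (by fun_prop) ?_
  exact ((hc.iteratedFDeriv j).norm).mul_left

/-- the `L¹` norms of the derivatives -/
theorem fz_kt_M (𝔟 : W × P → ℂ) (h𝔟 : ContDiff ℝ ∞ 𝔟) {KW : Set W} (hKW : IsCompact KW)
    {KP : Set P} (hKP : IsCompact KP) (hs : ∀ w p, p ∈ KP → w ∉ KW → 𝔟 (w, p) = 0) (j : ℕ) :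
    ∃ M : ℝ, 0 ≤ M ∧ ∀ p ∈ KP, ∀ (g : W → ℂ) (c : ℝ), ContDiff ℝ ∞ g → 0 ≤ c → (∀ i ≤ j, ∀ w ∈ KW, ‖iteratedFDeriv ℝ i g w‖ ≤ c) →
      ∫ v, ‖v‖ ^ 0 * ‖iteratedFDeriv ℝ j (fun w => 𝔟 (w, p) * g w) v‖ ≤ M * c := by
  have hb : ∀ i : ℕ, ∃ C : ℝ, ∀ z ∈ KW ×ˢ KP, ‖iteratedFDeriv ℝ i 𝔟 z‖ ≤ C := fun i =>
    (hKW.prod hKP).exists_bound_of_continuousOn (h𝔟.continuous_iteratedFDeriv (m := i) (by exact_mod_cast le_top)).continuousOn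
  choose C hC using hb
  refine ⟨(∑ i ∈ Finset.range (j + 1), (j.choose i : ℝ) * |C i|) * (volume KW).toReal, by positivity, fun p hp g c hg hc hgc => ?_⟩
  have hz : ∀ v, v ∉ KW → ‖v‖ ^ 0 * ‖iteratedFDeriv ℝ j (fun w => 𝔟 (w, p) * g w) v‖ = 0 := by
    intro v hv
    have : v ∉ Function.support (iteratedFDeriv ℝ j (fun w => 𝔟 (w, p) * g w)) := fun h =>
      hv (fz_kt_tsupport 𝔟 hKW hs hp g (support_iteratedFDeriv_subset j h))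
    rw [Function.notMem_support.1 this]
    simp
  rw [← setIntegral_eq_integral_of_forall_compl_eq_zero hz]
  have hb := norm_setIntegral_le_of_norm_le_const (μ := volume) (s := KW) (C := (∑ i ∈ Finset.range (j + 1), (j.choose i : ℝ) * |C i|) * c)
    (f := fun v => ‖v‖ ^ 0 * ‖iteratedFDeriv ℝ j (fun w => 𝔟 (w, p) * g w) v‖) hKW.measure_lt_top (fun v hv => by
      rw [pow_zero, one_mul, norm_norm]
      refine (norm_iteratedFDeriv_mul_le (N := ∞) (ls_ud_slice_smooth 𝔟 h𝔟 p) hg v (n := j) (by exact_mod_cast le_top)).trans ?_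
      rw [Finset.sum_mul]
      refine Finset.sum_le_sum fun i hi => ?_
      have h1 : ‖iteratedFDeriv ℝ i (fun w => 𝔟 (w, p)) v‖ ≤ |C i| :=
        ((ls_ud_slice_norm 𝔟 h𝔟 p i v).trans (hC i (v, p) ⟨hv, hp⟩)).trans (le_abs_self _)
      have h2 : ‖iteratedFDeriv ℝ (j - i) g v‖ ≤ c := hgc (j - i) (Nat.sub_le _ _) v hv
      calc (j.choose i : ℝ) * ‖iteratedFDeriv ℝ i (fun w => 𝔟 (w, p)) v‖ * ‖iteratedFDeriv ℝ (j - i) g v‖
          ≤ (j.choose i : ℝ) * |C i| * c := by gcongr)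
  refine (le_abs_self _).trans ?_
  have e : (∑ i ∈ Finset.range (j + 1), (j.choose i : ℝ) * |C i|) * (volume KW).toReal * c
      = (∑ i ∈ Finset.range (j + 1), (j.choose i : ℝ) * |C i|) * c * (volume KW).toReal := by ring
  rw [e]
  simpa [Measure.real] using hb

theorem fz_kt_pow (𝔟 : W × P → ℂ) (h𝔟 : ContDiff ℝ ∞ 𝔟) {KW : Set W} (hKW : IsCompact KW)
    {KP : Set P} (hKP : IsCompact KP) (hs : ∀ w p, p ∈ KP → w ∉ KW → 𝔟 (w, p) = 0) (n : ℕ) :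
    ∃ B : ℝ, 0 ≤ B ∧ ∀ p ∈ KP, ∀ (g : W → ℂ) (c : ℝ), ContDiff ℝ ∞ g → 0 ≤ c → (∀ i ≤ n, ∀ w ∈ KW, ‖iteratedFDeriv ℝ i g w‖ ≤ c) →
      ∀ x : W, ‖x‖ ^ n * ‖𝓕 (fun w => 𝔟 (w, p) * g w) x‖ ≤ B * c := by
  choose M hM0 hM using fz_kt_M 𝔟 h𝔟 hKW hKP hs
  refine ⟨(2 * π) ^ 0 * (2 * (0 : ℕ) + 2) ^ n * ∑ q ∈ Finset.range (0 + 1) ×ˢ Finset.range (n + 1), M q.2,
    by have := Finset.sum_nonneg (s := Finset.range (0 + 1) ×ˢ Finset.range (n + 1)) (f := fun q => M q.2) fun q _ => hM0 q.2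
       positivity, fun p hp g c hg hc hgc x => ?_⟩
  have h := Real.pow_mul_norm_iteratedFDeriv_fourier_le (K := 0) (N := ⊤) (f := fun w => 𝔟 (w, p) * g w)
    ((ls_ud_slice_smooth 𝔟 h𝔟 p).mul hg) (fun k j _ _ => fz_kt_int 𝔟 h𝔟 hKW hs hp g hg k j) (k := 0) (n := n) le_rfl le_top x
  rw [norm_iteratedFDeriv_zero] at h
  refine h.trans ?_
  rw [mul_assoc _ _ c]
  refine mul_le_mul_of_nonneg_left ?_ (by positivity)
  rw [Finset.sum_mul]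
  refine Finset.sum_le_sum fun q hq => ?_
  have hq1 : q.1 = 0 := by
    have := (Finset.mem_product.1 hq).1
    simpa using this
  have hq2 : q.2 ≤ n := Nat.lt_succ_iff.1 (Finset.mem_range.1 (Finset.mem_product.1 hq).2)
  rw [hq1]
  exact hM q.2 p hp g c hg hc fun i hi => hgc i (hi.trans hq2)

/-- **uniform Fourier decay with a multiplier** -/
theorem fz_kt_decay (𝔟 : W × P → ℂ) (h𝔟 : ContDiff ℝ ∞ 𝔟) {KW : Set W} (hKW : IsCompact KW)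
    {KP : Set P} (hKP : IsCompact KP) (hs : ∀ w p, p ∈ KP → w ∉ KW → 𝔟 (w, p) = 0) (L : ℕ) :
    ∃ C : ℝ, 0 ≤ C ∧ ∀ p ∈ KP, ∀ (g : W → ℂ) (c : ℝ), ContDiff ℝ ∞ g → 0 ≤ c → (∀ i ≤ L, ∀ w ∈ KW, ‖iteratedFDeriv ℝ i g w‖ ≤ c) →
      ∀ x : W, (1 + ‖x‖) ^ L * ‖∫ w, ee ⟪w, x⟫_ℝ * (𝔟 (w, p) * g w)‖ ≤ C * c := by
  choose B hB0 hB using fz_kt_pow 𝔟 h𝔟 hKW hKP hs
  refine ⟨∑ m ∈ Finset.range (L + 1), (L.choose m : ℝ) * B m, Finset.sum_nonneg fun m _ => mul_nonneg (Nat.cast_nonneg _) (hB0 m),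
    fun p hp g c hg hc hgc x => ?_⟩
  have e : ∫ w, ee ⟪w, x⟫_ℝ * (𝔟 (w, p) * g w) = 𝓕 (fun w => 𝔟 (w, p) * g w) (-x) := by
    rw [fourier_ee]
    refine integral_congr_ae (Filter.Eventually.of_forall fun v => ?_)
    simp only [inner_neg_right, neg_neg]
  rw [e, add_comm 1 ‖x‖, add_pow, Finset.sum_mul, Finset.sum_mul]
  refine Finset.sum_le_sum fun m hm => ?_
  have hmL : m ≤ L := Nat.lt_succ_iff.1 (Finset.mem_range.1 hm)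
  have h := hB m p hp g c hg hc (fun i hi => hgc i (hi.trans hmL)) (-x)
  rw [norm_neg] at h
  calc ‖x‖ ^ m * 1 ^ (L - m) * (L.choose m : ℝ) * ‖𝓕 (fun w => 𝔟 (w, p) * g w) (-x)‖
      = (L.choose m : ℝ) * (‖x‖ ^ m * ‖𝓕 (fun w => 𝔟 (w, p) * g w) (-x)‖) := by rw [one_pow]; ring
    _ ≤ (L.choose m : ℝ) * (B m * c) := mul_le_mul_of_nonneg_left h (Nat.cast_nonneg _)
    _ = _ := by ring

end

/-- `Ji` as a continuous linear map -/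
noncomputable def fzKtJi : E3 →L[ℝ] E2 × ℝ :=
  LinearMap.toContinuousLinearMap (IsLinearMap.mk' Ji
    ⟨fun x y => by rw [← Ji_J (Ji x + Ji y), J_add, J_Ji, J_Ji], fun c x => by rw [← Ji_J (c • Ji x), J_smul, J_Ji]⟩)

theorem fz_kt_eqns_cite : True := by
  have := @fzKtJi.eq_1
  trivial

theorem fz_kt_Ji_apply (z : E3) : fzKtJi z = Ji z := rfl

theorem fz_kt_Ji_norm : ‖fzKtJi‖ ≤ 1 := by
  refine ContinuousLinearMap.opNorm_le_bound _ zero_le_one fun z => ?_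
  rw [one_mul, fz_kt_Ji_apply]
  have hn := norm_J_sq (Ji z)
  rw [J_Ji] at hn
  have h0 := norm_nonneg z
  rw [Prod.norm_def]
  refine max_le ?_ ?_
  · refine abs_le_of_sq_le_sq' ?_ h0 |>.2
    nlinarith [sq_nonneg (Ji z).2]
  · rw [Real.norm_eq_abs]
    refine abs_le_of_sq_le_sq ?_ h0
    nlinarith [sq_nonneg ‖(Ji z).1‖]

/-- **the same on `E2 × ℝ`** with the pairing `<ω, β> + σ υ` -/
theorem fz_kt_decay2 {P : Type} [NormedAddCommGroup P] [NormedSpace ℝ P] (𝔟 : (E2 × ℝ) × P → ℂ) (h𝔟 : ContDiff ℝ ∞ 𝔟)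
    {KW : Set (E2 × ℝ)} (hKW : IsCompact KW) {KP : Set P} (hKP : IsCompact KP)
    (hs : ∀ w p, p ∈ KP → w ∉ KW → 𝔟 (w, p) = 0) (L : ℕ) :
    ∃ C : ℝ, 0 ≤ C ∧ ∀ p ∈ KP, ∀ (g : E2 × ℝ → ℂ) (c : ℝ), ContDiff ℝ ∞ g → 0 ≤ c → (∀ i ≤ L, ∀ w ∈ KW, ‖iteratedFDeriv ℝ i g w‖ ≤ c) →
      ∀ (β : E2) (υ : ℝ), (1 + ‖β‖ + |υ|) ^ L * ‖∫ w : E2 × ℝ, ee (⟪w.1, β⟫_ℝ + w.2 * υ) * (𝔟 (w, p) * g w)‖ ≤ C * c := by
  have h1 : ContDiff ℝ ∞ fun z : E3 × P => 𝔟 (Ji z.1, z.2) :=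
    h𝔟.comp ((ls_ud_contDiff_Ji.comp contDiff_fst).prodMk contDiff_snd)
  obtain ⟨C, hC0, hC⟩ := fz_kt_decay (fun z : E3 × P => 𝔟 (Ji z.1, z.2)) h1 (hKW.image continuous_J) hKP
    (fun w p hp hw => hs _ p hp fun h => hw ⟨Ji w, h, J_Ji w⟩) L
  refine ⟨2 ^ L * C, by positivity, fun p hp g c hg hc hgc β υ => ?_⟩
  have e : ∫ w : E2 × ℝ, ee (⟪w.1, β⟫_ℝ + w.2 * υ) * (𝔟 (w, p) * g w) = ∫ z : E3, ee ⟪z, J (β, υ)⟫_ℝ * (𝔟 (Ji z, p) * g (Ji z)) := by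
    rw [integral_J]
    refine integral_congr_ae (Filter.Eventually.of_forall fun w => ?_)
    simp only [inner_J, Ji_J]
  have hgJ : ContDiff ℝ ∞ fun z : E3 => g (Ji z) := hg.comp ls_ud_contDiff_Ji
  have hgb : ∀ i ≤ L, ∀ z ∈ J '' KW, ‖iteratedFDeriv ℝ i (fun z : E3 => g (Ji z)) z‖ ≤ c := by
    rintro i hi z ⟨w, hw, rfl⟩
    have e1 : (fun z : E3 => g (Ji z)) = g ∘ fzKtJi := rfl
    rw [e1, fzKtJi.iteratedFDeriv_comp_right hg _ (i := i) (by exact_mod_cast le_top)]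
    refine (ContinuousMultilinearMap.norm_compContinuousLinearMap_le _ _).trans ?_
    rw [fz_kt_Ji_apply, Ji_J]
    calc ‖iteratedFDeriv ℝ i g w‖ * ∏ _j : Fin i, ‖fzKtJi‖ ≤ ‖iteratedFDeriv ℝ i g w‖ * 1 := by
          refine mul_le_mul_of_nonneg_left ?_ (norm_nonneg _)
          exact Finset.prod_le_one (fun _ _ => norm_nonneg _) fun _ _ => fz_kt_Ji_norm
      _ ≤ c := by rw [mul_one]; exact hgc i hi w hw
  have hn := norm_J_sq (β, υ)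
  simp only at hn
  have hJ0 := norm_nonneg (J (β, υ))
  have b1 : ‖β‖ ≤ ‖J (β, υ)‖ := by
    refine abs_le_of_sq_le_sq' ?_ hJ0 |>.2
    nlinarith [sq_nonneg υ]
  have b2 : |υ| ≤ ‖J (β, υ)‖ := by
    refine abs_le_of_sq_le_sq ?_ hJ0
    nlinarith [sq_nonneg ‖β‖]
  have b3 : (1 + ‖β‖ + |υ|) ^ L ≤ 2 ^ L * (1 + ‖J (β, υ)‖) ^ L := by
    rw [← mul_pow]
    exact pow_le_pow_left₀ (by positivity) (by linarith) L
  rw [e]
  calc (1 + ‖β‖ + |υ|) ^ L * ‖∫ z : E3, ee ⟪z, J (β, υ)⟫_ℝ * (𝔟 (Ji z, p) * g (Ji z))‖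
      ≤ 2 ^ L * (1 + ‖J (β, υ)‖) ^ L * ‖∫ z : E3, ee ⟪z, J (β, υ)⟫_ℝ * (𝔟 (Ji z, p) * g (Ji z))‖ :=
        mul_le_mul_of_nonneg_right b3 (norm_nonneg _)
    _ = 2 ^ L * ((1 + ‖J (β, υ)‖) ^ L * ‖∫ z : E3, ee ⟪z, J (β, υ)⟫_ℝ * (𝔟 (Ji z, p) * g (Ji z))‖) := by ring
    _ ≤ 2 ^ L * (C * c) := mul_le_mul_of_nonneg_left (hC p hp _ c hgJ hc hgb _) (by positivity)
    _ = _ := by ring

end Claimed.Agent.R256
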