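import Claimed.Agent.R256.Fz.KAmp
import Claimed.Agent.R256.Fz.KTool
import Claimed.Agent.R256.Fz.KGau

/-!
# Row 256 (LS paper), folder Fz = WAVE FREEZE, unit FZ-K, file KDec : UNIFORM DECAY OF THE MODEL INTEGRAL          (helper295; prefix `fz_kd_`)

`fz_kd_main` = the seam `fz_k_decay` of `Fz/KContract.lean`:   `‖fzKI β a a2 π X Y‖ ≤ C (1 + |a2|)^-N rtKW N (X, Y)` for `β ≤ bm`, `π.Ok a`, all `a2, X, Y`.
(`fz_k_b_smooth`, `fz_k_I_eq` of `KAmp`, the tool `fz_kt_decay2` of `KTool`, the Gaussian multiplier `fz_kg_main` of `KGau`.)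
-/

set_option autoImplicit false

namespace Claimed.Agent.R256

open MeasureTheory Claimed.Agent.R255.BR
open scoped ENNReal ContDiff

/-- support of the model amplitude in `w`, no hypothesis on the parameters -/
theorem fz_kd_supp {β : ℕ} {π : FzKp} {w : (ℝ × ℝ) × ℝ} (h : fzKB β π w ≠ 0) :
    0 < π.s0 + π.tS * w.2 ∧ π.s0 + π.tS * w.2 < 2 ^ (β + 6) ∧ w.2 ^ 2 < 2 ∧
      w.1.1 ^ 2 < 2 * (π.s0 + π.tS * w.2) ^ 2 ∧ (w.1.2 - π.mu * w.2) ^ 2 < 2 * (π.s0 + π.tS * w.2) ^ 2 := by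
  unfold fzKB at h
  obtain ⟨h2, -⟩ := mul_ne_zero_iff.1 h
  have h3 : rdChi β ((π.s0 + π.tS * w.2) / 2) * fzB (w.1.1 / (π.s0 + π.tS * w.2)) * fzB w.2
      * rdPsi (π.lam * w.1.1 / (π.s0 + π.tS * w.2) - π.a1, (w.1.2 - π.mu * w.2) / (π.s0 + π.tS * w.2)) ≠ 0 := fun h0 => h2 (by rw [h0]; simp)
  obtain ⟨h4, n4⟩ := mul_ne_zero_iff.1 h3
  obtain ⟨h5, n3⟩ := mul_ne_zero_iff.1 h4
  obtain ⟨n1, n2⟩ := mul_ne_zero_iff.1 h5
  obtain ⟨c1, c2⟩ := rd_chi_supp n1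
  have c3 := fz_k_B_supp n2
  have c4 := fz_k_B_supp n3
  have c5 := rd_psi_supp n4
  set σ := π.s0 + π.tS * w.2 with hσ
  have hσ0 : 0 < σ := by
    have : (0 : ℝ) < (2 : ℝ)⁻¹ ^ (β + 5) := by positivity
    linarith
  have hσ2 : 0 < σ ^ 2 := by positivity
  unfold rtSq at c5
  simp only at c5
  set v1 := w.1.1 / σ with hv1
  set v2 := (w.1.2 - π.mu * w.2) / σ with hv2
  have e1 : w.1.1 = σ * v1 := by rw [hv1]; field_simp
  have e2 : w.1.2 - π.mu * w.2 = σ * v2 := by rw [hv2]; field_simp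
  refine ⟨hσ0, ?_, c4, ?_, ?_⟩
  · rw [pow_succ]
    linarith
  · rw [e1, mul_pow]
    nlinarith
  · rw [e2, mul_pow]
    nlinarith [sq_nonneg (π.lam * w.1.1 / σ - π.a1)]

/-- the parameters as a vector -/
def fzKpTo (π : FzKp) : Fin 9 → ℝ := ![π.a1, π.lam, π.tau, π.s0, π.tS, π.m1, π.m2, π.m3, π.mu]

theorem fz_kd_eqns_cite : True := by
  have := @fzKpTo.eq_1
  trivial

theorem fz_kd_of_to (π : FzKp) : fzKpOf (fzKpTo π) = π := rfl

theorem fz_kd_to_mem {π : FzKp} {a : ℝ} (ha : 0 < a) (h : π.Ok a) (h3 : |π.a1| ≤ 3) : fzKpTo π ∈ Metric.closedBall (0 : Fin 9 → ℝ) (3 + 2 * a) := by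
  rw [mem_closedBall_zero_iff, pi_norm_le_iff_of_nonneg (by positivity)]
  have b1 : |π.lam| ≤ 3 + 2 * a := by rw [abs_of_nonneg h.lam0]; linarith [h.lam1]
  have b2 : |π.tau| ≤ 3 + 2 * a := by rw [abs_of_nonneg h.tau0]; linarith [h.tau1]
  have b3 : |π.s0| ≤ 3 + 2 * a := by rw [abs_of_nonneg (ha.le.trans h.s0_lo)]; linarith [h.s0_hi]
  have b4 : |π.tS| ≤ 3 + 2 * a := by rw [abs_of_nonneg h.tS0]; linarith [h.tS1]
  have b5 : |π.m1| ≤ 3 + 2 * a := by linarith [h.m1]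
  have b6 : |π.m2| ≤ 3 + 2 * a := by linarith [h.m2]
  have b7 : |π.m3| ≤ 3 + 2 * a := by linarith [h.m3]
  have b8 : |π.mu| ≤ 3 + 2 * a := by linarith [h.mu]
  have b0 : |π.a1| ≤ 3 + 2 * a := by linarith
  intro i
  rw [Real.norm_eq_abs]
  fin_cases i
  · exact b0
  · exact b1
  · exact b2
  · exact b3
  · exact b4
  · exact b5
  · exact b6
  · exact b7
  · exact b8

theorem fz_kd_one (β N : ℕ) (a : ℝ) (ha : 0 < a) : ∃ C : ℝ, 0 ≤ C ∧ ∀ (a2 : ℝ) (π : FzKp), π.Ok a → ∀ (X : ℝ × ℝ) (Y : ℝ),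
    ‖fzKI β a a2 π X Y‖ ≤ C * (((1 + |a2|) ^ N)⁻¹ * rtKW N (X, Y)) := by
  set r0 : ℝ := 3 + 2 * a with hr0
  have hr00 : 0 < r0 := by positivity
  set R : ℝ := 4 * 2 ^ (β + 6) + 2 * r0 with hR
  have hR0 : 0 < R := by positivity
  obtain ⟨C, hC0, hC⟩ := fz_kt_decay2 (P := Fin 9 → ℝ)
    (fun z => fzKB β (fzKpOf z.2) ((z.1.1 0, z.1.1 1), z.1.2)) (fz_k_b_smooth β)
    (KW := Metric.closedBall (0 : E2) R ×ˢ Set.Icc (-2 : ℝ) 2) ((isCompact_closedBall _ _).prod isCompact_Icc)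
    (KP := Metric.closedBall (0 : Fin 9 → ℝ) r0) (isCompact_closedBall _ _)
    (by
      intro w p hp hw
      by_contra hne
      apply hw
      obtain ⟨c0, c1, c2, c3, c4⟩ := fz_kd_supp hne
      simp only at c0 c1 c2 c3 c4
      have hmu : |p 8| ≤ r0 := by
        rw [mem_closedBall_zero_iff] at hp
        exact (norm_le_pi_norm p 8).trans hp
      set σ := (fzKpOf p).s0 + (fzKpOf p).tS * w.2 with hσ
      have hs2 : |w.2| ≤ 2 := abs_le_of_sq_le_sq (by nlinarith) (by norm_num)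
      have h1 : |w.1 0| ≤ 2 * σ := abs_le_of_sq_le_sq (by nlinarith) (by positivity)
      have h2 : |w.1 1 - (fzKpOf p).mu * w.2| ≤ 2 * σ := abs_le_of_sq_le_sq (by nlinarith) (by positivity)
      have h3 : |w.1 1| ≤ 2 * σ + 2 * r0 := by
        have e : w.1 1 = (w.1 1 - (fzKpOf p).mu * w.2) + (fzKpOf p).mu * w.2 := by ring
        have h4 : |(fzKpOf p).mu * w.2| ≤ r0 * 2 := by
          rw [abs_mul]
          exact mul_le_mul hmu hs2 (abs_nonneg _) hr00.le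
        calc |w.1 1| = |(w.1 1 - (fzKpOf p).mu * w.2) + (fzKpOf p).mu * w.2| := by rw [← e]
          _ ≤ |w.1 1 - (fzKpOf p).mu * w.2| + |(fzKpOf p).mu * w.2| := abs_add_le _ _
          _ ≤ 2 * σ + 2 * r0 := by linarith
      refine ⟨?_, abs_le.1 hs2⟩
      rw [mem_closedBall_zero_iff, EuclideanSpace.norm_eq, Fin.sum_univ_two, Real.norm_eq_abs, Real.norm_eq_abs]
      apply Real.sqrt_le_iff.2 ⟨hR0.le, ?_⟩
      have h5 : |w.1 0| + |w.1 1| ≤ R := by rw [hR]; linarith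
      nlinarith [abs_nonneg (w.1 0), abs_nonneg (w.1 1)]) N
  obtain ⟨Cg, hCg0, hCg⟩ := fz_kg_main N N a R ha hR0.le
  have hπ : (1 : ℝ) ≤ 2 * Real.pi := by linarith [Real.pi_gt_three]
  refine ⟨(2 * Real.pi) ^ N * (C * Cg), by positivity, fun a2 π hok X Y => ?_⟩
  by_cases ha1 : |π.a1| ≤ 3
  · have hp := fz_kd_to_mem ha hok ha1
    obtain ⟨hg1, hg2⟩ := hCg a2
    have h := hC (fzKpTo π) hp _ (Cg * ((1 + |a2|) ^ N)⁻¹) hg1 (by positivity)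
      (fun i hi w hw => hg2 i hi w (by
        have h1 : ‖w.1‖ ≤ R := mem_closedBall_zero_iff.1 hw.1
        exact (PiLp.norm_apply_le w.1 1).trans h1))
      ((2 * Real.pi)⁻¹ • rtW1cV X) (-((2 * Real.pi)⁻¹ * Y))
    simp only [fz_kd_of_to] at h
    rw [← fz_k_I_eq, norm_smul, rt_k_V_norm, abs_neg, abs_mul, Real.norm_eq_abs, abs_of_pos (by positivity : (0 : ℝ) < (2 * Real.pi)⁻¹)] at h
    unfold rtKW
    simp only
    set s := Real.sqrt (rtSq X) with hs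
    have hs0 : 0 ≤ s := Real.sqrt_nonneg _
    have hpos : 0 < (1 + s + |Y|) ^ N := by positivity
    have e : (2 * Real.pi) ^ N * (C * Cg) * (((1 + |a2|) ^ N)⁻¹ * ((1 + s + |Y|) ^ N)⁻¹)
        = (2 * Real.pi) ^ N * (C * (Cg * ((1 + |a2|) ^ N)⁻¹)) / (1 + s + |Y|) ^ N := by
      rw [div_eq_mul_inv]
      ring
    rw [e, le_div_iff₀ hpos]
    have h1 : 1 + s + |Y| ≤ (2 * Real.pi) * (1 + (2 * Real.pi)⁻¹ * s + (2 * Real.pi)⁻¹ * |Y|) := by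
      have : (2 * Real.pi) * (1 + (2 * Real.pi)⁻¹ * s + (2 * Real.pi)⁻¹ * |Y|) = 2 * Real.pi + s + |Y| := by
        field_simp
      rw [this]
      linarith
    calc ‖fzKI β a a2 π X Y‖ * (1 + s + |Y|) ^ N
        ≤ ‖fzKI β a a2 π X Y‖ * ((2 * Real.pi) * (1 + (2 * Real.pi)⁻¹ * s + (2 * Real.pi)⁻¹ * |Y|)) ^ N :=
          mul_le_mul_of_nonneg_left (pow_le_pow_left₀ (by positivity) h1 N) (norm_nonneg _)
      _ = (2 * Real.pi) ^ N * ((1 + (2 * Real.pi)⁻¹ * s + (2 * Real.pi)⁻¹ * |Y|) ^ N * ‖fzKI β a a2 π X Y‖) := by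
          rw [mul_pow]; ring
      _ ≤ (2 * Real.pi) ^ N * (C * (Cg * ((1 + |a2|) ^ N)⁻¹)) := mul_le_mul_of_nonneg_left h (by positivity)
  · rw [fz_k_zero' β a a2 π hok.lam0 hok.lam1 (not_le.1 ha1), norm_zero]
    unfold rtKW
    positivity

/-- **uniform decay of the model integral** -/
theorem fz_kd_main (bm N : ℕ) (a : ℝ) (ha : 0 < a) : ∃ C : ℝ, 0 ≤ C ∧ ∀ β : ℕ, β ≤ bm → ∀ (a2 : ℝ) (π : FzKp), π.Ok a → ∀ (X : ℝ × ℝ) (Y : ℝ),
    ‖fzKI β a a2 π X Y‖ ≤ C * (((1 + |a2|) ^ N)⁻¹ * rtKW N (X, Y)) := by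
  choose C hC0 hC using fun β : ℕ => fz_kd_one β N a ha
  refine ⟨∑ β ∈ Finset.range (bm + 1), C β, Finset.sum_nonneg fun β _ => hC0 β, fun β hβ a2 π hok X Y => ?_⟩
  refine (hC β a2 π hok X Y).trans (mul_le_mul_of_nonneg_right ?_ ?_)
  · exact Finset.single_le_sum (f := C) (fun β _ => hC0 β) (Finset.mem_range.2 (Nat.lt_succ_of_le hβ))
  · unfold rtKW
    positivity

end Claimed.Agent.R256
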