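-- KEEP
import Claimed.Agent.R256.Fz.Defs
import Claimed.Agent.R256.Rt.Ker

/-!
# Row 256 (LS paper), folder Fz = WAVE FREEZE, unit FZ-K, file KDefs : THE CROSS KERNEL, ITS MODEL INTEGRAL, ITS MAJORANT          (architect helper295; chief helper207; prefix `fz_k_`, defs `fzK*`, `FzKp`)          DEFINITIONS ONLY

Plan: report 951 (helper207).   Interface K | OFF (helper256).   Model to clone: `Rt/Ker.lean` (`rtKK, rtKB, rtKI, rtKM`).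
NOTATION.   round row `x = (A, b, y)`;   hybrid row `z = (ω, D', N')`, `ω = (X0, s0, B0, Y0)`;   `ℓ = rdLen k = 2^-k`, `d = rdD H k = √(H/ℓ)`, `q = rdQ H k = √(Hℓ)`, `q d = H`;   band `a`, `H_c = H/(fs² a)`, `q_c = (fzHy P a).ql k = q/(fs √a)`.
* `P.pk a T k z q`      the packet of `An_hyb(T,k) W`:   `(An_hyb W G)(z) = ∫ P.pk a T k z q * G q dq`,      `P.pk = fs * wk ω (ξ₁, ρ) * pk_hyb(T,k,z)(fs ξ₂)`.
* `fzK P h a T k β x z` the kernel of `fzC0` against `(fzHy P a).rw`:   `1[ω ∈ band a] ∫ pk_round(T,k,β,x) conj (P.pk a T k z)`.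
SUBSTITUTION (checked numerically, POINTWISE identity of the integrands):      `σ = 2Hρ = s0 + tS s`,      `ξ₁ = 2ρ X0 + (tX/H) ζ₁`,      `ξ₂ = ζ₂/q + s0 A₂/H`,      Jacobian `(tX/H) (1/q) (tS/2H)`.      Then
      `(ξ₁/2ρ - X0)/tX = ζ₁/σ`,   `(2Hρ - s0)/tS = s`,   `(ξ₁/2ρ - A₁)/d = lam ζ₁/σ - a1`,   `(ξ₂/2ρ - A₂)/d = (ζ₂ - mu s)/σ`,   `q_c (fs ξ₂ - sg N'/H_c) = (ζ₂ + a2)/√a`,
      phase `= θ + ζ₁ P₁ + ζ₂ P₂ - s P₃ + (-tau ζ₁² + s (m3 ζ₂² + 2 m2 ζ₂ + m1))/(2σ)`,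
      `θ = -s0 Dz/(2H) + s0 A₂ (b₂ - fs D')/H + s0 fs² N' D'/H`,
      `Db = b₁ - B0 - T X0`,   `Dz = (y - Y0 - T X0²) - 2 X0 Db`,      `P₁ = tX Db/H`,   `P₂ = (b₂ - fs D')/q`,   `P₃ = tS Dz/(2H)`,
      `a1 = (A₁ - X0)/d`,   `a2 = s0 (A₂ - fs N')/d`,   `lam = tX/d`,   `tau = T tX²/H` (base dispersion),   `mu = tS A₂/d`,
      `m3 = T tS/(s0 ℓ)`,   `m2 = T tS A₂/q`,   `m1 = T tS s0 A₂²/H`      (RADIAL FREEZING: `-Tξ₂²/4ρ + T H ξ₂²/(2 s0) = (T ξ₂²/4ρ)(tS s/s0)`;   it is a bounded smooth factor of the amplitude).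
* `FzKp`, `fzKpr`        the nine COMPACT parameters;   `FzKp.Ok a`   their ranges.
* `fzKB β π w`          the model amplitude, `w = ((ζ₁, ζ₂), s)`.      Every denominator is `σ = s0 + tS s`, guarded by `rdChi β (σ/2)` (global smoothness as in `rt_k_b_smooth`).
* `fzKG a a2 w`         the Gaussian `exp(-(ζ₂ + a2)²/(2a))`: the only NON COMPACT parameter is `a2`.
* `fzKI β a a2 π X Y`   the model integral `∫ e^{i(ζ·X - sY)} fzKB fzKG`.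
* `fzKN P a k`          the normalisation `(2π)^{-3/2} fs cW (q_c²/π)^{1/4} tX tS/(2 H² q)`.
* `fzKM P a T k N x z`  THE MAJORANT `1[|a1| ≤ 3, ω ∈ band a] fzKN (1 + |a2|)^-N rtKW N ((P₁, P₂), P₃)`,      `rtKW N (X, Y) = (1 + |X| + |Y|)^-N` (`Rt/Ker.lean`).
-/

set_option autoImplicit false

namespace Claimed.Agent.R256

open MeasureTheory
open scoped ENNReal ComplexConjugate

/-- the rows `(ω, D, N)` of the hybrid systems `fzHy P a` -/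
abbrev FzRw : Type := FzOm × ℝ × ℝ

/-- the packet of `An_hyb(T,k) W` -/
noncomputable def FzP.pk (P : FzP) (a T : ℝ) (k : ℕ) (z : FzRw) (q : RdWvPar.Mo) : ℂ :=
  (P.fs : ℂ) * P.wk z.1 (q.1.1, q.2) * (fzHy P a).pk T k z (P.fs * q.1.2)

/-- the kernel of `fzC0` against the hybrid row measure -/
noncomputable def fzK (P : FzP) (h : P.Ok) (a T : ℝ) (k β : ℕ) (x : RdWvPar.Ph) (z : FzRw) : ℂ :=
  open Classical in
  if z.1 ∈ fzBand a then ∫ q, (P.rd h).pk T k β x q * conj (P.pk a T k z q) else 0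

/-- `Db = b₁ - B0 - T X0` -/
def fzKDb (T : ℝ) (x : RdWvPar.Ph) (z : FzRw) : ℝ := x.2.1.1 - z.1.2.2.1 - T * z.1.1

/-- `Dz = (y - Y0 - T X0²) - 2 X0 Db` -/
def fzKDz (T : ℝ) (x : RdWvPar.Ph) (z : FzRw) : ℝ := (x.2.2 - z.1.2.2.2 - T * z.1.1 ^ 2) - 2 * z.1.1 * fzKDb T x z

/-- `(P₁, P₂) = (tX Db/H, (b₂ - fs D')/q)` -/
noncomputable def fzKX (P : FzP) (T : ℝ) (k : ℕ) (x : RdWvPar.Ph) (z : FzRw) : ℝ × ℝ :=
  (P.tX * fzKDb T x z / P.H, (x.2.1.2 - P.fs * z.2.1) / rdQ P.H k)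

/-- `P₃ = tS Dz/(2H)` -/
noncomputable def fzKY (P : FzP) (T : ℝ) (x : RdWvPar.Ph) (z : FzRw) : ℝ := P.tS * fzKDz T x z / (2 * P.H)

/-- `a2 = s0 (A₂ - fs N')/d` -/
noncomputable def fzKa2 (P : FzP) (k : ℕ) (x : RdWvPar.Ph) (z : FzRw) : ℝ := z.1.2.1 * (x.1.2 - P.fs * z.2.2) / rdD P.H k

/-- the compact parameters of the model amplitude -/
structure FzKp where
  a1 : ℝ
  lam : ℝ
  tau : ℝ
  s0 : ℝ
  tS : ℝ
  m1 : ℝ
  m2 : ℝ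
  m3 : ℝ
  mu : ℝ

/-- the ranges of the compact parameters (no condition on `a1`: the amplitude vanishes for `|a1| > 3`) -/
structure FzKp.Ok (π : FzKp) (a : ℝ) : Prop where
  lam0 : 0 ≤ π.lam
  lam1 : π.lam ≤ 1
  tau0 : 0 ≤ π.tau
  tau1 : π.tau ≤ 1
  s0_lo : a ≤ π.s0
  s0_hi : π.s0 ≤ 2 * a
  tS0 : 0 ≤ π.tS
  tS1 : π.tS ≤ 1
  m1 : |π.m1| ≤ 1
  m2 : |π.m2| ≤ 1
  m3 : |π.m3| ≤ 1
  mu : |π.mu| ≤ 1

/-- the parameters of a pair of rows -/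
noncomputable def fzKpr (P : FzP) (T : ℝ) (k : ℕ) (x : RdWvPar.Ph) (z : FzRw) : FzKp where
  a1 := (x.1.1 - z.1.1) / rdD P.H k
  lam := P.tX / rdD P.H k
  tau := T * P.tX ^ 2 / P.H
  s0 := z.1.2.1
  tS := P.tS
  m1 := T * P.tS * z.1.2.1 * x.1.2 ^ 2 / P.H
  m2 := T * P.tS * x.1.2 / rdQ P.H k
  m3 := T * P.tS / (z.1.2.1 * rdLen k)
  mu := P.tS * x.1.2 / rdD P.H k

/-- the model amplitude, `w = ((ζ₁, ζ₂), s)` -/
noncomputable def fzKB (β : ℕ) (π : FzKp) (w : (ℝ × ℝ) × ℝ) : ℂ :=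
  ((rdChi β ((π.s0 + π.tS * w.2) / 2) * fzB (w.1.1 / (π.s0 + π.tS * w.2)) * fzB w.2
      * rdPsi (π.lam * w.1.1 / (π.s0 + π.tS * w.2) - π.a1, (w.1.2 - π.mu * w.2) / (π.s0 + π.tS * w.2)) : ℝ) : ℂ)
    * Complex.exp (Complex.I * (((-(π.tau * w.1.1 ^ 2) + w.2 * (π.m3 * w.1.2 ^ 2 + 2 * π.m2 * w.1.2 + π.m1)) / (2 * (π.s0 + π.tS * w.2)) : ℝ) : ℂ))

/-- the Gaussian factor -/
noncomputable def fzKG (a a2 : ℝ) (w : (ℝ × ℝ) × ℝ) : ℝ := Real.exp (-((w.1.2 + a2) ^ 2 / (2 * a)))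

/-- the model integral -/
noncomputable def fzKI (β : ℕ) (a a2 : ℝ) (π : FzKp) (X : ℝ × ℝ) (Y : ℝ) : ℂ :=
  ∫ w : (ℝ × ℝ) × ℝ, Complex.exp (Complex.I * ((rtIp w.1 X - w.2 * Y : ℝ) : ℂ)) * (fzKB β π w * ((fzKG a a2 w : ℝ) : ℂ))

/-- the normalisation -/
noncomputable def fzKN (P : FzP) (a : ℝ) (k : ℕ) : ℝ :=
  (2 * Real.pi) ^ (-(3 / 2) : ℝ) * P.fs * P.cW * ((fzHy P a).ql k ^ 2 / Real.pi) ^ (1 / 4 : ℝ) * (P.tX * P.tS / (2 * P.H ^ 2 * rdQ P.H k))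

/-- the constant phase -/
noncomputable def fzKth (P : FzP) (T : ℝ) (x : RdWvPar.Ph) (z : FzRw) : ℝ :=
  -(z.1.2.1 * fzKDz T x z / (2 * P.H)) + z.1.2.1 * x.1.2 * (x.2.1.2 - P.fs * z.2.1) / P.H + z.1.2.1 * P.fs ^ 2 * z.2.2 * z.2.1 / P.H

/-- **the majorant** -/
noncomputable def fzKM (P : FzP) (a T : ℝ) (k N : ℕ) (x : RdWvPar.Ph) (z : FzRw) : ℝ :=
  open Classical in
  if |(x.1.1 - z.1.1) / rdD P.H k| ≤ 3 ∧ z.1 ∈ fzBand a then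
    fzKN P a k * ((1 + |fzKa2 P k x z|) ^ N)⁻¹ * rtKW N (fzKX P T k x z, fzKY P T x z)
  else 0

/-- the region of validity of the majorant: hypotheses on the parameters, the time, the cut and on the NORMAL VELOCITY `A₂` of the round row -/
structure FzKReg (P : FzP) (a T : ℝ) (k : ℕ) (A2 : ℝ) : Prop where
  T0 : 0 ≤ T
  tX_d : P.tX ≤ rdD P.H k
  disp : T * P.tX ^ 2 ≤ P.H
  tS1 : P.tS ≤ 1
  fr3 : T * P.tS ≤ a * rdLen k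
  fr1 : 2 * a * (T * P.tS * A2 ^ 2) ≤ P.H
  mu : P.tS * |A2| ≤ rdD P.H k

theorem fz_k_eqns_cite : True := by
  have := @FzP.pk.eq_1
  have := @fzK.eq_1
  have := @fzKDb.eq_1
  have := @fzKDz.eq_1
  have := @fzKX.eq_1
  have := @fzKY.eq_1
  have := @fzKa2.eq_1
  have := @fzKpr.eq_1
  have := @fzKB.eq_1
  have := @fzKG.eq_1
  have := @fzKI.eq_1
  have := @fzKN.eq_1
  have := @fzKth.eq_1
  have := @fzKM.eq_1
  trivial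

end Claimed.Agent.R256
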