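import Claimed.Agent.R256.Fz.KDefs
import Claimed.Agent.R256.Hyb.Inst

/-!
# Row 256 (LS paper), folder Fz = WAVE FREEZE, unit FZ-K, file KRep : THE KERNEL REPRESENTATION OF THE CROSS OPERATOR          (sub-architect helper250, architect helper295; prefix `fz_kr_`, defs `fzKpB`, `fzKPhi`, `fzRm`, `fzAn`)

Plan: report 951 (helper207), unit FZ-K.   Model: `Rt/Ker.lean` (`rt_k_syn`, `rt_k_rep`).
`fzC0 P h a T k β F = An_round(T,k,β) W^* 1_{band a} An_hyb(T,k)^* F`.      The operator `A = An_hyb(T,k) 1_{band a} W : L²(ξ,ρ) → L²(rw_hyb)` has the BOUNDED PACKET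
  `fzKpB P a T k x q = 1[ω ∈ band a] P.pk a T k x q = 1[ω ∈ band a] fs wk(ω)(ξ₁,ρ) pk_hyb(T,k,x)(fs ξ₂)`,   `x = (ω, D', N')`, `q = ((ξ₁,ξ₂),ρ)`      (`u = fs ξ₂`, `du = fs dξ₂`).
STEPS.
 (R0) `fz_kr_hy_ok`   the hybrid parameter of a band is admissible.
 (R1) `fz_kr_map`     `(u,(ξ₁,ρ)) ↦ ((ξ₁,u/fs),ρ)` maps Lebesgue measure to `fs ·` Lebesgue measure;   `fz_kr_map_ae`, `fz_kr_map_int`.
 (R2) `fz_kr_kp_meas`, `fz_kr_kp_le`   joint measurability and sup bound of the packet.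
 (R3) `fz_kr_cut`, `fz_kr_cut_symm`   `fzCut U V = 1_{U × ℝ} V` a.e., the cut is symmetric.
 (R4) `fz_kr_row`     `A 1_s (x) = ∫_s fzKpB x q dq` for sets `s` of finite volume.
 (R5) `fz_kr_syn`     `A^* F (q) = ∫ conj (fzKpB x q) F x d rw` for integrable `F`   (as `rt_k_syn`).
 (R6) `fz_kr_rep`     `fzC0 F (z) = ∫ (∫ pk_round z q conj (fzKpB x q) dq) F x d rw` for integrable `F`   (as `rt_k_rep`).
The a.e. formula of `W` (`fz_w_spec`, unit FZ-W, helper12) enters as the HYPOTHESIS `hW`.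
-/

set_option autoImplicit false

namespace Claimed.Agent.R256

open MeasureTheory
open scoped ENNReal ComplexConjugate

/-- the packet of `An_hyb(T,k) 1_{band a} W`:   `1[ω ∈ band a] * P.pk a T k x q`,   `P.pk = fs * wk ω (ξ₁,ρ) * pk_hyb(T,k,x)(fs ξ₂)` (`Fz/KDefs.lean`) -/
noncomputable def fzKpB (P : FzP) (a T : ℝ) (k : ℕ) (x : FzRw) (q : RdWvPar.Mo) : ℂ :=
  (fzBand a).indicator (fun _ => (1 : ℂ)) x.1 * P.pk a T k x q

/-- the rearrangement `(u, (ξ₁, ρ)) ↦ ((ξ₁, u / fs), ρ)` -/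
noncomputable def fzKPhi (fs : ℝ) (y : ℝ × ℝ × ℝ) : RdWvPar.Mo := ((y.2.1, y.1 / fs), y.2.2)

/-- the hybrid row measure of the band `a`, on the CONCRETE type (`= (fzHy P a).rw` by `rfl`; avoids the instance problems of `(fzHy P a).Om`, `(fzHy P a).Fb`) -/
noncomputable def fzRm (P : FzP) (a : ℝ) : Measure (FzOm × ℝ × ℝ) := (fzHy P a).rw

/-- the hybrid analysis operator of the band `a`, on the CONCRETE types (`= (fzHy P a).an T k` by `rfl`) -/
noncomputable def fzAn (P : FzP) (a T : ℝ) (k : ℕ) :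
    Lp ℂ 2 ((volume : Measure FzOm).prod (volume : Measure ℝ)) →L[ℂ] Lp ℂ 2 (fzRm P a) := (fzHy P a).an T k

theorem fz_kr_eqns_cite : True := by
  have := @fzKpB.eq_1
  have := @fzKPhi.eq_1
  have := @fzRm.eq_1
  have := @fzAn.eq_1
  trivial

/-- (R0) LEAF L-256-FZ-KR-OK.  the hybrid parameter of a band is admissible.   Fields: `sf` (`inferInstance` after `show SigmaFinite (volume : Measure FzOm)`), `mX mB mY mS` (`show Measurable fun ω : FzOm => ..; fun_prop`),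
`sg_rg` (`le_max_left`, `max_le one_le_two (min_le_left ..)`), `H_pos` (`div_pos (div_pos h.H_pos (pow_pos h.fs_pos 2)) ha`).  ~30 l. -/
theorem fz_kr_hy_ok (P : FzP) (h : P.Ok) {a : ℝ} (ha : 0 < a) : (fzHy P a).Ok := by
  refine ⟨?_, ?_, ?_, ?_, ?_, fun ω => ⟨le_max_left _ _, max_le one_le_two (min_le_left _ _)⟩, ?_⟩
  · show SigmaFinite (volume : Measure FzOm)
    infer_instance
  · show Measurable fun ω : FzOm => ω.1
    fun_prop
  · show Measurable fun ω : FzOm => ω.2.2.1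
    fun_prop
  · show Measurable fun ω : FzOm => ω.2.2.2
    fun_prop
  · show Measurable fun ω : FzOm => max 1 (min 2 (ω.2.1 / a))
    fun_prop
  · exact div_pos (div_pos h.H_pos (pow_pos h.fs_pos 2)) ha

theorem fz_kr_rw_sf (P : FzP) (h : P.Ok) {a : ℝ} (ha : 0 < a) : SigmaFinite (fzRm P a) := hy_rw_sfin (fzHy P a) (fz_kr_hy_ok P h ha)

/-- the a.e. formula of the hybrid analysis operator -/
theorem fz_kr_an (P : FzP) (h : P.Ok) {a : ℝ} (ha : 0 < a) (T : ℝ) (k : ℕ) (V : Lp ℂ 2 ((volume : Measure FzOm).prod (volume : Measure ℝ))) :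
    (fzAn P a T k V : FzOm × ℝ × ℝ → ℂ) =ᵐ[fzRm P a] fun x => ∫ u, (fzHy P a).pk T k x u * (V : FzOm × ℝ → ℂ) (x.1, u) :=
  hy_an_row (fzHy P a) (fz_kr_hy_ok P h ha) T k V

/-- a property of almost every exact index holds at almost every row -/
theorem fz_kr_ae_fst (P : FzP) (a : ℝ) {p : FzOm → Prop} (hp : ∀ᵐ ω, p ω) : ∀ᵐ x ∂(fzRm P a), p x.1 := hy_ae_fst (fzHy P a) hp

/-- (R1) LEAF L-256-FZ-KR-MAP.   `fzKPhi fs = (fun y => ((y.2.1, y.1), y.2.2)) ∘ Prod.map (· * fs⁻¹) id`.   First map: `Measure.volume_eq_prod`, `Measure.map_prod_map`, `Real.map_volume_mul_right`, `Measure.prod_smul_left`;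
second map is measure preserving: `(Measure.measurePreserving_swap.prod (MeasurePreserving.id _)).comp volume_preserving_prodAssoc.symm`;   `Measure.map_map`, `Measure.map_smul`.  ~40 l. -/
theorem fz_kr_map {fs : ℝ} (hfs : 0 < fs) :
    Measure.map (fzKPhi fs) (volume : Measure (ℝ × ℝ × ℝ)) = ENNReal.ofReal fs • (volume : Measure RdWvPar.Mo) := by
  have he : MeasurePreserving (fun y : ℝ × ℝ × ℝ => (((y.2.1, y.1), y.2.2) : RdWvPar.Mo)) volume volume := by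
    have h1 : MeasurePreserving (MeasurableEquiv.prodAssoc (α := ℝ) (β := ℝ) (γ := ℝ)).symm volume volume :=
      (volume_preserving_prodAssoc (α₁ := ℝ) (β₁ := ℝ) (γ₁ := ℝ)).symm _
    have h2 : MeasurePreserving (Prod.map (Prod.swap : ℝ × ℝ → ℝ × ℝ) (id : ℝ → ℝ))
        (((volume : Measure ℝ).prod (volume : Measure ℝ)).prod (volume : Measure ℝ)) (((volume : Measure ℝ).prod (volume : Measure ℝ)).prod (volume : Measure ℝ)) :=
      Measure.measurePreserving_swap.prod (MeasurePreserving.id _)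
    exact h2.comp h1
  have e : fzKPhi fs = (fun y : ℝ × ℝ × ℝ => (((y.2.1, y.1), y.2.2) : RdWvPar.Mo)) ∘ Prod.map (fun u : ℝ => u * fs⁻¹) (id : ℝ × ℝ → ℝ × ℝ) := by
    funext y
    simp only [fzKPhi, Function.comp, Prod.map, id, div_eq_mul_inv]
  have hv : (volume : Measure (ℝ × ℝ × ℝ)) = (volume : Measure ℝ).prod (volume : Measure (ℝ × ℝ)) := rfl
  rw [e, ← Measure.map_map he.measurable (by fun_prop), hv, ← Measure.map_prod_map _ _ (by fun_prop) measurable_id,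
    Real.map_volume_mul_right (inv_ne_zero hfs.ne'), Measure.map_id, Measure.prod_smul_left, Measure.map_smul, ← hv, he.map_eq, inv_inv, abs_of_pos hfs]

theorem fz_kr_phi_meas (fs : ℝ) : Measurable (fzKPhi fs) := by
  unfold fzKPhi
  fun_prop

/-- (R1) LEAF L-256-FZ-KR-MAP.  transfer of null sets: `ae_of_ae_map`, `fz_kr_map`, `Measure.ae_smul_measure`, then `Measure.ae_ae_of_ae_prod`.  ~15 l. -/
theorem fz_kr_map_ae {fs : ℝ} (hfs : 0 < fs) {p : RdWvPar.Mo → Prop} (hp : ∀ᵐ q, p q) : ∀ᵐ u : ℝ, ∀ᵐ z : ℝ × ℝ, p ((z.1, u / fs), z.2) := by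
  have h1 : ∀ᵐ q ∂(Measure.map (fzKPhi fs) (volume : Measure (ℝ × ℝ × ℝ))), p q := by
    rw [fz_kr_map hfs]
    exact Measure.ae_smul_measure hp _
  have h2 : ∀ᵐ y : ℝ × ℝ × ℝ, p (fzKPhi fs y) := ae_of_ae_map (fz_kr_phi_meas fs).aemeasurable h1
  exact Measure.ae_ae_of_ae_prod h2

/-- (R1) LEAF L-256-FZ-KR-MAP.  the change of variables: `integrable_map_measure`, `integral_map`, `fz_kr_map`, `Integrable.smul_measure`, `integral_smul_measure`.  ~25 l. -/
theorem fz_kr_map_int {fs : ℝ} (hfs : 0 < fs) (f : RdWvPar.Mo → ℂ) (hf : Integrable f) :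
    Integrable (fun y : ℝ × ℝ × ℝ => f (fzKPhi fs y)) ∧ ∫ y : ℝ × ℝ × ℝ, f (fzKPhi fs y) = (fs : ℂ) * ∫ q, f q := by
  have h1 : Integrable f (Measure.map (fzKPhi fs) (volume : Measure (ℝ × ℝ × ℝ))) := by
    rw [fz_kr_map hfs]
    exact hf.smul_measure ENNReal.ofReal_ne_top
  refine ⟨(integrable_map_measure h1.aestronglyMeasurable (fz_kr_phi_meas fs).aemeasurable).1 h1, ?_⟩
  rw [← integral_map (fz_kr_phi_meas fs).aemeasurable h1.aestronglyMeasurable, fz_kr_map hfs, integral_smul_measure, ENNReal.toReal_ofReal hfs.le]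
  rfl

theorem fz_kr_b_meas : Measurable fzB := by
  unfold fzB fzB0
  have h1 : Continuous fun t : ℝ => Real.smoothTransition (2 - t ^ 2) :=
    Real.smoothTransition.continuous.comp (continuous_const.sub (continuous_id.pow 2))
  exact (h1.div_const _).measurable

theorem fz_kr_b_le (t : ℝ) : |fzB t| ≤ 1 / Real.sqrt (∫ t', fzB0 t' ^ 2) := by
  unfold fzB
  rw [abs_div, abs_of_nonneg (Real.sqrt_nonneg _)]
  refine div_le_div_of_nonneg_right ?_ (Real.sqrt_nonneg _)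
  unfold fzB0
  rw [abs_of_nonneg (Real.smoothTransition.nonneg _)]
  exact Real.smoothTransition.le_one _

/-- (R2) LEAF L-256-FZ-KR-PK.  `fzB` is measurable (`Real.smoothTransition.continuous`, division by a constant); `unfold FzP.wk; fun_prop` after that.  ~25 l. -/
theorem fz_kr_wk_meas (P : FzP) : Measurable fun z : FzOm × ℝ × ℝ => P.wk z.1 z.2 := by
  unfold FzP.wk
  have hb := fz_kr_b_meas
  have h1 : Measurable fun z : FzOm × ℝ × ℝ => fzB ((z.2.1 / (2 * z.2.2) - z.1.1) / P.tX) := hb.comp (by fun_prop)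
  have h2 : Measurable fun z : FzOm × ℝ × ℝ => fzB ((2 * P.H * z.2.2 - z.1.2.1) / P.tS) := hb.comp (by fun_prop)
  have h3 : Measurable fun z : FzOm × ℝ × ℝ => P.cW * fzB ((z.2.1 / (2 * z.2.2) - z.1.1) / P.tX) * fzB ((2 * P.H * z.2.2 - z.1.2.1) / P.tS) :=
    (measurable_const.mul h1).mul h2
  have h4 : Measurable fun z : FzOm × ℝ × ℝ => Complex.exp (Complex.I * ((z.2.1 * z.1.2.2.1 - z.2.2 * z.1.2.2.2 : ℝ) : ℂ)) := by fun_prop
  exact (Complex.measurable_ofReal.comp h3).mul h4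

/-- (R2) LEAF L-256-FZ-KR-PK.  product of: a constant, `(measurable_const.indicator (fz_kr_band_meas a)).comp ..`, `(hy_pk_meas (fzHy P a) (fz_kr_hy_ok P h ha) T k).comp ..`, `(fz_kr_wk_meas P).comp ..`.  ~25 l. -/
theorem fz_kr_kp_meas (P : FzP) (h : P.Ok) {a : ℝ} (ha : 0 < a) (T : ℝ) (k : ℕ) :
    Measurable fun z : (FzOm × ℝ × ℝ) × RdWvPar.Mo => fzKpB P a T k z.1 z.2 := by
  unfold fzKpB FzP.pk
  have hB : MeasurableSet (fzBand a) := by
    unfold fzBand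
    have hm : Measurable fun ω : FzOm => ω.2.1 := by fun_prop
    exact (measurableSet_le measurable_const hm).inter (measurableSet_lt hm measurable_const)
  have h1 : Measurable fun z : (FzOm × ℝ × ℝ) × RdWvPar.Mo => (fzBand a).indicator (fun _ => (1 : ℂ)) z.1.1 :=
    (measurable_const.indicator hB).comp (by fun_prop)
  have h2 : Measurable fun z : (FzOm × ℝ × ℝ) × RdWvPar.Mo => (fzHy P a).pk T k z.1 (P.fs * z.2.1.2) :=
    (hy_pk_meas (fzHy P a) (fz_kr_hy_ok P h ha) T k).comp (f := fun z : (FzOm × ℝ × ℝ) × RdWvPar.Mo => (z.1, P.fs * z.2.1.2)) (by fun_prop)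
  have h3 : Measurable fun z : (FzOm × ℝ × ℝ) × RdWvPar.Mo => P.wk z.1.1 (z.2.1.1, z.2.2) :=
    (fz_kr_wk_meas P).comp (f := fun z : (FzOm × ℝ × ℝ) × RdWvPar.Mo => (z.1.1, z.2.1.1, z.2.2)) (by fun_prop)
  exact h1.mul ((measurable_const.mul h3).mul h2)

/-- (R2) LEAF L-256-FZ-KR-PK.  `‖pk_hyb‖ = (q²/π)^(1/4) exp(-..) ≤ |(q²/π)^(1/4)|` (`hy_pk_norm` of `Hyb/Ker.lean` through `hy_pk_fib`, or directly: `Complex.norm_exp_ofReal_mul_I`-type, `Real.exp_le_one`),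
`‖wk‖ ≤ |cW| b²` with `|fzB t| ≤ b := 1 / √(∫ fzB0²)` (`Real.smoothTransition.le_one`, `.nonneg`), indicator `≤ 1`.  ~60 l. -/
theorem fz_kr_kp_le (P : FzP) (a : ℝ) (k : ℕ) : ∃ C : ℝ, 0 ≤ C ∧ ∀ (T : ℝ) (x : FzOm × ℝ × ℝ) (q : RdWvPar.Mo), ‖fzKpB P a T k x q‖ ≤ C := by
  set b : ℝ := 1 / Real.sqrt (∫ t', fzB0 t' ^ 2) with hb
  have hb0 : 0 ≤ b := div_nonneg zero_le_one (Real.sqrt_nonneg _)
  set c : ℝ := (Real.sqrt ((fzHy P a).H / 2 ^ k) ^ 2 / Real.pi) ^ (1 / 4 : ℝ) with hc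
  have hc0 : 0 ≤ c := Real.rpow_nonneg (div_nonneg (sq_nonneg _) Real.pi_pos.le) _
  refine ⟨1 * (|P.fs| * (|P.cW| * b * b) * c), by positivity, fun T x q => ?_⟩
  unfold fzKpB FzP.pk
  rw [norm_mul, norm_mul, norm_mul, Complex.norm_real, Real.norm_eq_abs]
  have h1 : ‖(fzBand a).indicator (fun _ => (1 : ℂ)) x.1‖ ≤ 1 := by
    by_cases hx : x.1 ∈ fzBand a
    · rw [Set.indicator_of_mem hx, norm_one]
    · rw [Set.indicator_of_notMem hx, norm_zero]
      exact zero_le_one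
  have h2 : ‖(fzHy P a).pk T k x (P.fs * q.1.2)‖ ≤ c := by
    have e0 : ‖(fzHy P a).pk T k x (P.fs * q.1.2)‖ = ‖((fzHy P a).fib x.1).pk T k x.2 (P.fs * q.1.2)‖ := rfl
    rw [e0, hy_pk_norm]
    have e : ((fzHy P a).fib x.1).q k = Real.sqrt ((fzHy P a).H / 2 ^ k) := rfl
    rw [e]
    refine mul_le_of_le_one_right hc0 (Real.exp_le_one_iff.2 ?_)
    have : 0 ≤ Real.sqrt ((fzHy P a).H / 2 ^ k) ^ 2 * (P.fs * q.1.2 - ((fzHy P a).fib x.1).sg * x.2.2 / ((fzHy P a).fib x.1).H) ^ 2 / 2 := by positivity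
    linarith
  have h3 : ‖P.wk x.1 (q.1.1, q.2)‖ ≤ |P.cW| * b * b := by
    unfold FzP.wk
    rw [norm_mul, Complex.norm_exp_I_mul_ofReal, mul_one, Complex.norm_real, Real.norm_eq_abs, abs_mul, abs_mul]
    exact mul_le_mul (mul_le_mul_of_nonneg_left (fz_kr_b_le _) (abs_nonneg _)) (fz_kr_b_le _) (abs_nonneg _) (by positivity)
  exact mul_le_mul h1 (mul_le_mul (mul_le_mul_of_nonneg_left h3 (abs_nonneg _)) h2 (norm_nonneg _) (by positivity)) (by positivity) zero_le_one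

/-- (R3) LEAF L-256-FZ-KR-CUT.  `unfold fzCut; rw [dif_pos ((Lp.memLp V).indicator (hU.prod MeasurableSet.univ))]; exact MemLp.coeFn_toLp _`.  ~10 l. -/
theorem fz_kr_cut (U : Set FzOm) (hU : MeasurableSet U) (V : Lp ℂ 2 ((volume : Measure FzOm).prod (volume : Measure ℝ))) :
    (fzCut U V : FzOm × ℝ → ℂ) =ᵐ[(volume : Measure FzOm).prod (volume : Measure ℝ)] (U ×ˢ (Set.univ : Set ℝ)).indicator (V : FzOm × ℝ → ℂ) := by
  unfold fzCut
  rw [dif_pos ((Lp.memLp V).indicator (hU.prod MeasurableSet.univ))]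
  exact MemLp.coeFn_toLp _

/-- (R3) LEAF L-256-FZ-KR-CUT.  `L2.inner_def` on both sides, `integral_congr_ae`, `fz_kr_cut` for `V` and `V'`, cases on membership (`Set.indicator_of_mem`, `inner_zero_left/right`).  ~30 l. -/
theorem fz_kr_cut_symm (U : Set FzOm) (hU : MeasurableSet U) (V V' : Lp ℂ 2 ((volume : Measure FzOm).prod (volume : Measure ℝ))) :
    inner ℂ V (fzCut U V') = inner ℂ (fzCut U V) V' := by
  rw [L2.inner_def, L2.inner_def]
  refine integral_congr_ae ?_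
  filter_upwards [fz_kr_cut U hU V, fz_kr_cut U hU V'] with x h1 h2
  rw [h1, h2]
  by_cases hx : x ∈ U ×ˢ (Set.univ : Set ℝ)
  · rw [Set.indicator_of_mem hx, Set.indicator_of_mem hx]
  · rw [Set.indicator_of_notMem hx, Set.indicator_of_notMem hx, inner_zero_left, inner_zero_right]

/-- LEAF L-256-FZ-KR-OK.  (`measurableSet_le`, `measurableSet_lt`, `fun_prop`) -/
theorem fz_kr_band_meas (a : ℝ) : MeasurableSet (fzBand a) := by
  have h1 : MeasurableSet {ω : FzOm | a ≤ ω.2.1} := measurableSet_le measurable_const (by fun_prop)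
  have h2 : MeasurableSet {ω : FzOm | ω.2.1 < 2 * a} := measurableSet_lt (by fun_prop) measurable_const
  exact h1.inter h2

/-- (R4) LEAF L-256-FZ-KR-ROW.  **the rows of `A 1_s`.**   Write `G = indicatorConstLp 2 hs hμ 1`, `V = fzCut (fzBand a) (fzW P G)`.
(1) `fz_kr_an`: for `rw`-a.e. `x`: `fzAn V x = ∫ u, pk x u * V (x.1, u)`.
(2) for a.e. `ω`, a.e. `u`: `V (ω,u) = 1[ω ∈ band] * P.wf G (ω,u)`   (`fz_kr_cut`, `hW G`, `Measure.ae_ae_of_ae_prod`; lift to rows by `fz_kr_ae_fst`).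
(3) for EVERY `ω`, a.e. `u`: `P.wf G (ω,u) = ∫ z, P.wk ω z * s.indicator 1 ((z.1, u / fs), z.2)`   (`indicatorConstLp_coeFn`, `fz_kr_map_ae`, `integral_congr_ae`).
(4) with `f q := P.wk x.1 (q.1.1, q.2) * pk x (fs * q.1.2) * s.indicator 1 q` (integrable: bounded by `fz_kr_kp_le`-type bounds, measurable, `volume s < ∞`): `f (fzKPhi fs (u,z)) = pk x u * (wk ω z * 1_s(..))` (`mul_div_cancel₀`),
    `∫ u, ∫ z, f (fzKPhi fs (u,z)) = ∫ y, f (fzKPhi fs y) = fs * ∫ q, f q` (`integral_prod`, `fz_kr_map_int`), and `fs * 1[band] * ∫ q, f q = ∫ q in s, fzKpB x q` (`integral_indicator`, `integral_const_mul`).  ~170 l. -/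
theorem fz_kr_row (P : FzP) (h : P.Ok) {a : ℝ} (ha : 0 < a)
    (hW : ∀ G, (fzW P G : FzOm × ℝ → ℂ) =ᵐ[(volume : Measure FzOm).prod (volume : Measure ℝ)] P.wf G) (T : ℝ) (k : ℕ)
    (s : Set RdWvPar.Mo) (hs : MeasurableSet s) (hμ : volume s ≠ ∞) :
    (fzAn P a T k (fzCut (fzBand a) (fzW P (indicatorConstLp 2 hs hμ (1 : ℂ)))) : FzOm × ℝ × ℝ → ℂ)
      =ᵐ[(fzRm P a)] fun x => ∫ q in s, fzKpB P a T k x q := by
  have hfs := h.fs_pos
  obtain ⟨G, hG⟩ : ∃ G, G = indicatorConstLp 2 hs hμ (1 : ℂ) := ⟨_, rfl⟩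
  rw [← hG]
  obtain ⟨V, hV⟩ : ∃ V, V = fzCut (fzBand a) (fzW P G) := ⟨_, rfl⟩
  rw [← hV]
  have hB : ∀ᵐ ω : FzOm, ∀ᵐ u : ℝ, (V : FzOm × ℝ → ℂ) (ω, u) = (fzBand a).indicator (fun _ => (1 : ℂ)) ω * P.wf G (ω, u) := by
    refine Measure.ae_ae_of_ae_prod (μ := (volume : Measure FzOm)) (ν := (volume : Measure ℝ))
      (p := fun p : FzOm × ℝ => (V : FzOm × ℝ → ℂ) p = (fzBand a).indicator (fun _ => (1 : ℂ)) p.1 * P.wf G p) ?_
    filter_upwards [fz_kr_cut (fzBand a) (fz_kr_band_meas a) (fzW P G), hW G] with p h1 h2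
    rw [hV, h1]
    by_cases hp : p.1 ∈ fzBand a
    · rw [Set.indicator_of_mem (show p ∈ fzBand a ×ˢ (Set.univ : Set ℝ) from ⟨hp, trivial⟩), Set.indicator_of_mem hp, one_mul, h2]
    · rw [Set.indicator_of_notMem (fun hc : p ∈ fzBand a ×ˢ (Set.univ : Set ℝ) => hp hc.1), Set.indicator_of_notMem hp, zero_mul]
  have hC : ∀ ω : FzOm, ∀ᵐ u : ℝ, P.wf G (ω, u) = ∫ z : ℝ × ℝ, P.wk ω z * s.indicator (fun _ => (1 : ℂ)) ((z.1, u / P.fs), z.2) := by
    intro ω
    have h0 : ∀ᵐ q : RdWvPar.Mo, (G : RdWvPar.Mo → ℂ) q = s.indicator (fun _ => (1 : ℂ)) q := by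
      rw [hG]
      exact indicatorConstLp_coeFn
    filter_upwards [fz_kr_map_ae hfs h0] with u hu
    unfold FzP.wf
    refine integral_congr_ae ?_
    filter_upwards [hu] with z hz
    rw [hz]
  filter_upwards [fz_kr_an P h ha T k V, fz_kr_ae_fst P a hB] with x hx1 hx2
  rw [hx1]
  have e0 : ∫ u, (fzHy P a).pk T k x u * (V : FzOm × ℝ → ℂ) (x.1, u)
      = ∫ u, (fzHy P a).pk T k x u * ((fzBand a).indicator (fun _ => (1 : ℂ)) x.1 *
          ∫ z : ℝ × ℝ, P.wk x.1 z * s.indicator (fun _ => (1 : ℂ)) ((z.1, u / P.fs), z.2)) := by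
    refine integral_congr_ae ?_
    filter_upwards [hx2, hC x.1] with u h1 h2
    rw [h1, h2]
  rw [e0]
  by_cases hb : x.1 ∈ fzBand a
  · have hg_meas : Measurable fun q : RdWvPar.Mo => fzKpB P a T k x q :=
      (fz_kr_kp_meas P h ha T k).comp (f := fun q : RdWvPar.Mo => (x, q)) (by fun_prop)
    obtain ⟨C, -, hCb⟩ := fz_kr_kp_le P a k
    have hgi : IntegrableOn (fun q => fzKpB P a T k x q) s :=
      Measure.integrableOn_of_bounded hμ hg_meas.aestronglyMeasurable (Filter.Eventually.of_forall fun q => hCb T x q)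
    have hfi : Integrable (s.indicator fun q => fzKpB P a T k x q) := hgi.integrable_indicator hs
    obtain ⟨i1, i2⟩ := fz_kr_map_int hfs _ hfi
    rw [integral_indicator hs] at i2
    have e : ∀ (u : ℝ) (z : ℝ × ℝ), s.indicator (fun q => fzKpB P a T k x q) (fzKPhi P.fs (u, z))
        = (P.fs : ℂ) * ((fzHy P a).pk T k x u * (P.wk x.1 z * s.indicator (fun _ => (1 : ℂ)) ((z.1, u / P.fs), z.2))) := by
      intro u z
      have hq : fzKPhi P.fs (u, z) = ((z.1, u / P.fs), z.2) := rfl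
      rw [hq]
      by_cases hm : ((z.1, u / P.fs), z.2) ∈ s
      · rw [Set.indicator_of_mem hm, Set.indicator_of_mem hm]
        unfold fzKpB FzP.pk
        rw [Set.indicator_of_mem hb]
        simp only [mul_div_cancel₀ _ hfs.ne']
        ring
      · rw [Set.indicator_of_notMem hm, Set.indicator_of_notMem hm]
        ring
    have i3 := integral_prod (μ := (volume : Measure ℝ)) (ν := (volume : Measure (ℝ × ℝ))) _ i1
    have i4 : ∫ u : ℝ, ∫ z : ℝ × ℝ, s.indicator (fun q => fzKpB P a T k x q) (fzKPhi P.fs (u, z))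
        = (P.fs : ℂ) * ∫ u, (fzHy P a).pk T k x u * ∫ z : ℝ × ℝ, P.wk x.1 z * s.indicator (fun _ => (1 : ℂ)) ((z.1, u / P.fs), z.2) := by
      simp only [e]
      rw [← integral_const_mul]
      refine integral_congr_ae (Filter.Eventually.of_forall fun u => ?_)
      show ∫ z : ℝ × ℝ, (P.fs : ℂ) * ((fzHy P a).pk T k x u * (P.wk x.1 z * s.indicator (fun _ => (1 : ℂ)) ((z.1, u / P.fs), z.2))) = _
      rw [integral_const_mul, integral_const_mul]
    have hne : (P.fs : ℂ) ≠ 0 := by exact_mod_cast hfs.ne'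
    refine mul_left_cancel₀ hne ?_
    simp only [Set.indicator_of_mem hb, one_mul]
    rw [← i4, ← i2]
    exact i3.symm
  · have z1 : ∀ q, fzKpB P a T k x q = 0 := by
      intro q
      unfold fzKpB
      rw [Set.indicator_of_notMem hb, zero_mul]
    simp only [z1, Set.indicator_of_notMem hb, zero_mul, mul_zero, integral_zero]

/-- the integrand of the synthesis formula, on the product -/
theorem fz_kr_syn_int (P : FzP) (h : P.Ok) {a : ℝ} (ha : 0 < a) (T : ℝ) (k : ℕ) (F : Lp ℂ 2 (fzRm P a))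
    (hF : Integrable (F : FzOm × ℝ × ℝ → ℂ) (fzRm P a)) (ν : Measure RdWvPar.Mo) [IsFiniteMeasure ν] :
    Integrable (fun z : (FzOm × ℝ × ℝ) × RdWvPar.Mo => conj (fzKpB P a T k z.1 z.2) * (F : FzOm × ℝ × ℝ → ℂ) z.1) ((fzRm P a).prod ν) := by
  have hsf := fz_kr_rw_sf P h ha
  obtain ⟨C, -, hC⟩ := fz_kr_kp_le P a k
  refine (hF.comp_fst ν).bdd_mul (c := C) ?_ (Filter.Eventually.of_forall fun z => ?_)
  · exact (Complex.continuous_conj.measurable.comp (fz_kr_kp_meas P h ha T k)).aestronglyMeasurable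
  · rw [RCLike.norm_conj]
    exact hC T z.1 z.2

/-- (R5) **synthesis formula** for integrable `F`   (as `rt_k_syn`) -/
theorem fz_kr_syn (P : FzP) (h : P.Ok) {a : ℝ} (ha : 0 < a)
    (hW : ∀ G, (fzW P G : FzOm × ℝ → ℂ) =ᵐ[(volume : Measure FzOm).prod (volume : Measure ℝ)] P.wf G) (T : ℝ) (k : ℕ)
    (F : Lp ℂ 2 (fzRm P a)) (hF : Integrable (F : FzOm × ℝ × ℝ → ℂ) (fzRm P a)) :
    (ContinuousLinearMap.adjoint (fzW P) (fzCut (fzBand a) (ContinuousLinearMap.adjoint (fzAn P a T k) F)) : RdWvPar.Mo → ℂ)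
      =ᵐ[volume] fun q => ∫ x, conj (fzKpB P a T k x q) * (F : FzOm × ℝ × ℝ → ℂ) x ∂(fzRm P a) := by
  have hsf := fz_kr_rw_sf P h ha
  refine ae_eq_of_forall_setIntegral_eq_of_sigmaFinite (fun s _ hμ => rt_k_l2_intOn _ hμ) (fun s hs hμ => ?_) (fun s hs hμ => ?_)
  · have : IsFiniteMeasure ((volume : Measure RdWvPar.Mo).restrict s) := ⟨by rw [Measure.restrict_apply_univ]; exact hμ⟩
    exact (fz_kr_syn_int P h ha T k F hF (volume.restrict s)).integral_prod_right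
  · have : IsFiniteMeasure ((volume : Measure RdWvPar.Mo).restrict s) := ⟨by rw [Measure.restrict_apply_univ]; exact hμ⟩
    rw [← L2.inner_indicatorConstLp_one hs hμ.ne, ContinuousLinearMap.adjoint_inner_right, fz_kr_cut_symm _ (fz_kr_band_meas a),
      ContinuousLinearMap.adjoint_inner_right, L2.inner_def]
    have e1 : ∫ x, inner ℂ ((fzAn P a T k (fzCut (fzBand a) (fzW P (indicatorConstLp 2 hs hμ.ne (1 : ℂ)))) : FzOm × ℝ × ℝ → ℂ) x)
          ((F : FzOm × ℝ × ℝ → ℂ) x) ∂(fzRm P a)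
        = ∫ x, (∫ q in s, conj (fzKpB P a T k x q) * (F : FzOm × ℝ × ℝ → ℂ) x) ∂(fzRm P a) := by
      refine integral_congr_ae ?_
      filter_upwards [fz_kr_row P h ha hW T k s hs hμ.ne] with x hx
      rw [hx, RCLike.inner_apply, mul_comm, ← integral_conj, integral_mul_const]
    rw [e1]
    exact integral_integral_swap (f := fun x q => conj (fzKpB P a T k x q) * (F : FzOm × ℝ × ℝ → ℂ) x) (fz_kr_syn_int P h ha T k F hF (volume.restrict s))

/-- (R6) **kernel representation** for integrable `F`   (as `rt_k_rep`) -/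
theorem fz_kr_rep0 (P : FzP) (h : P.Ok) {a : ℝ} (ha : 0 < a)
    (hW : ∀ G, (fzW P G : FzOm × ℝ → ℂ) =ᵐ[(volume : Measure FzOm).prod (volume : Measure ℝ)] P.wf G) (T : ℝ) (k β : ℕ)
    (F : Lp ℂ 2 (fzRm P a)) (hF : Integrable (F : FzOm × ℝ × ℝ → ℂ) (fzRm P a)) :
    ((P.rd h).an T k β (ContinuousLinearMap.adjoint (fzW P) (fzCut (fzBand a) (ContinuousLinearMap.adjoint (fzAn P a T k) F))) : RdWvPar.Ph → ℂ)
      =ᵐ[(P.rd h).rw k] fun z => ∫ x, (∫ q, (P.rd h).pk T k β z q * conj (fzKpB P a T k x q)) * (F : FzOm × ℝ × ℝ → ℂ) x ∂(fzRm P a) := by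
  have hsf := fz_kr_rw_sf P h ha
  filter_upwards [rt_w1c_an (P.rd h) T k β
    (ContinuousLinearMap.adjoint (fzW P) (fzCut (fzBand a) (ContinuousLinearMap.adjoint (fzAn P a T k) F)))] with z hz
  rw [hz]
  unfold RdWvPar.row
  obtain ⟨R, hR⟩ := rt_w1_amp_supp (P.rd h).H_pos k β z.1
  set B : Set RdWvPar.Mo := Metric.closedBall 0 R with hBdef
  have hBfin : volume B < ∞ := (isCompact_closedBall (0 : RdWvPar.Mo) R).measure_lt_top
  have : IsFiniteMeasure ((volume : Measure RdWvPar.Mo).restrict B) := ⟨by rw [Measure.restrict_apply_univ]; exact hBfin⟩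
  have hz0 : ∀ q, q ∉ B → (P.rd h).pk T k β z q = 0 := by
    intro q hq
    by_contra hne
    apply hq
    have h1 : rtW1Amp (P.rd h).H k β z.1 q ≠ 0 := by
      intro h0
      apply hne
      rw [← norm_eq_zero, rt_k_pk_norm, h0, mul_zero]
    rw [hBdef, mem_closedBall_zero_iff]
    exact hR q h1
  have hpm : Measurable fun y : (FzOm × ℝ × ℝ) × RdWvPar.Mo => (P.rd h).pk T k β z y.2 :=
    (rt_k_pk_meas (P.rd h) T k β).comp (f := fun y : (FzOm × ℝ × ℝ) × RdWvPar.Mo => (z, y.2)) (by fun_prop)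
  have hint : Integrable (fun y : (FzOm × ℝ × ℝ) × RdWvPar.Mo => (P.rd h).pk T k β z y.2 * (conj (fzKpB P a T k y.1 y.2) * (F : FzOm × ℝ × ℝ → ℂ) y.1))
      ((fzRm P a).prod (volume.restrict B)) :=
    (fz_kr_syn_int P h ha T k F hF (volume.restrict B)).bdd_mul (c := (2 * Real.pi) ^ (-(3 / 2) : ℝ) * rtW1C) hpm.aestronglyMeasurable
      (Filter.Eventually.of_forall fun y => rt_k_pk_le (P.rd h) T k β z y.2)
  calc ∫ q, (P.rd h).pk T k β z q
        * (ContinuousLinearMap.adjoint (fzW P) (fzCut (fzBand a) (ContinuousLinearMap.adjoint (fzAn P a T k) F)) : RdWvPar.Mo → ℂ) q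
      = ∫ q, (P.rd h).pk T k β z q * ∫ x, conj (fzKpB P a T k x q) * (F : FzOm × ℝ × ℝ → ℂ) x ∂(fzRm P a) := by
        refine integral_congr_ae ?_
        filter_upwards [fz_kr_syn P h ha hW T k F hF] with q hq
        rw [hq]
    _ = ∫ q in B, (P.rd h).pk T k β z q * ∫ x, conj (fzKpB P a T k x q) * (F : FzOm × ℝ × ℝ → ℂ) x ∂(fzRm P a) :=
        (setIntegral_eq_integral_of_forall_compl_eq_zero fun q hq => by rw [hz0 q hq, zero_mul]).symm
    _ = ∫ q in B, (∫ x, (P.rd h).pk T k β z q * (conj (fzKpB P a T k x q) * (F : FzOm × ℝ × ℝ → ℂ) x) ∂(fzRm P a)) := by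
        refine integral_congr_ae (Filter.Eventually.of_forall fun q => ?_)
        exact (integral_const_mul _ _).symm
    _ = ∫ x, (∫ q in B, (P.rd h).pk T k β z q * (conj (fzKpB P a T k x q) * (F : FzOm × ℝ × ℝ → ℂ) x)) ∂(fzRm P a) :=
        (integral_integral_swap (f := fun x q => (P.rd h).pk T k β z q * (conj (fzKpB P a T k x q) * (F : FzOm × ℝ × ℝ → ℂ) x)) hint).symm
    _ = ∫ x, (∫ q, (P.rd h).pk T k β z q * conj (fzKpB P a T k x q)) * (F : FzOm × ℝ × ℝ → ℂ) x ∂(fzRm P a) := by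
        refine integral_congr_ae (Filter.Eventually.of_forall fun x => ?_)
        show (∫ q in B, (P.rd h).pk T k β z q * (conj (fzKpB P a T k x q) * (F : FzOm × ℝ × ℝ → ℂ) x))
          = (∫ q, (P.rd h).pk T k β z q * conj (fzKpB P a T k x q)) * (F : FzOm × ℝ × ℝ → ℂ) x
        rw [← integral_mul_const, setIntegral_eq_integral_of_forall_compl_eq_zero fun q hq => by rw [hz0 q hq, zero_mul]]
        simp only [mul_assoc]

/-- (R6) **EXIT**: the same with the objects of `Fz/Defs.lean` -/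
theorem fz_kr_rep (P : FzP) (h : P.Ok) {a : ℝ} (ha : 0 < a)
    (hW : ∀ G, (fzW P G : FzOm × ℝ → ℂ) =ᵐ[(volume : Measure FzOm).prod (volume : Measure ℝ)] P.wf G) (T : ℝ) (k β : ℕ)
    (F : Lp ℂ 2 (fzHy P a).rw) (hF : Integrable (F : FzOm × ℝ × ℝ → ℂ) (fzHy P a).rw) :
    (fzC0 P h a T k β F : RdWvPar.Ph → ℂ)
      =ᵐ[(P.rd h).rw k] fun z => ∫ x, (∫ q, (P.rd h).pk T k β z q * conj (fzKpB P a T k x q)) * (F : FzOm × ℝ × ℝ → ℂ) x ∂(fzHy P a).rw :=
  fz_kr_rep0 P h ha hW T k β F hF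

/-- the kernel of `Fz/KDefs.lean` is the integral against the packet with the band -/
theorem fz_kr_K (P : FzP) (h : P.Ok) (a T : ℝ) (k β : ℕ) (x : RdWvPar.Ph) (z : FzRw) :
    fzK P h a T k β x z = ∫ q, (P.rd h).pk T k β x q * conj (fzKpB P a T k z q) := by
  unfold fzK fzKpB
  by_cases hz : z.1 ∈ fzBand a
  · rw [if_pos hz]
    simp only [Set.indicator_of_mem hz, one_mul]
  · rw [if_neg hz]
    simp only [Set.indicator_of_notMem hz, zero_mul, map_zero, mul_zero, integral_zero]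

/-- **EXIT = `fz_k_rep` of `Fz/KContract.lean`**, with the a.e. formula of `W` as a hypothesis -/
theorem fz_kr_rep_c (P : FzP) (h : P.Ok) (a T : ℝ) (k β : ℕ) (ha : 0 < a)
    (hW : ∀ G, (fzW P G : FzOm × ℝ → ℂ) =ᵐ[(volume : Measure FzOm).prod (volume : Measure ℝ)] P.wf G)
    (F : Lp ℂ 2 (fzHy P a).rw) (hF : Integrable (F : FzRw → ℂ) (fzHy P a).rw) :
    (fzC0 P h a T k β F : RdWvPar.Ph → ℂ) =ᵐ[(P.rd h).rw k] fun x => ∫ z, fzK P h a T k β x z * (F : FzRw → ℂ) z ∂(fzHy P a).rw := by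
  have e : (fun x => ∫ z, fzK P h a T k β x z * (F : FzRw → ℂ) z ∂(fzHy P a).rw)
      = fun x => ∫ z, (∫ q, (P.rd h).pk T k β x q * conj (fzKpB P a T k z q)) * (F : FzRw → ℂ) z ∂(fzHy P a).rw := by
    funext x
    refine integral_congr_ae (Filter.Eventually.of_forall fun z => ?_)
    exact congrArg (· * (F : FzRw → ℂ) z) (fz_kr_K P h a T k β x z)
  rw [e]
  exact fz_kr_rep P h ha hW T k β F hF

end Claimed.Agent.R256
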