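import Claimed.Agent.R256.Fz.KDefs

/-!
# Row 256 (LS paper), folder Fz = WAVE FREEZE, unit FZ-K, file KSc : THE SCALING IDENTITY OF THE CROSS KERNEL          (sub-architect helper250, architect helper295; prefix `fz_ks_`, def `fzKSub`)

Definitions, notation and the list of identities: header of `Fz/KDefs.lean`.      Model: `rt_k_cov_i`, `rt_k_pk_mul`, `rt_k_scale` (`Rt/Ker.lean`).      EXIT: `fz_ks_scale` = `fz_k_scale` of `Fz/KContract.lean` VERBATIM.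
NOTATION.   `x = (A, b, y)` round row, `z = (ω, D', N')`, `ω = (X0, s0, B0, Y0)`, `w = ((ζ₁, ζ₂), s)`, `σ = s0 + tS s`, `Q = rdQ H k`, `d = rdD H k`, `ℓ = rdLen k`;   `Q d = H`, `Q² = H ℓ`, `d² = H/ℓ`, `ℓ 2^k = 1`.
`fzKSub P k x z w = ((2ρ X0 + (tX/H) ζ₁, ζ₂/Q + s0 A₂/H), ρ)`, `ρ = σ/(2H)`.
STEPS.
 (S1) `fz_ks_cov`, `fz_ks_cov'`   affine substitution in `ℝ³`, no integrability hypothesis.
 (S2) `fz_ks_pk_mul`   the product of the two packets = real amplitude `*` `exp (I * phase)`.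
 (S3) `fz_ks_num` (numerology), `fz_ks_hy` (the hybrid data in the band), `fz_ks_psi`, `fz_ks_win`, `fz_ks_gau`, `fz_ks_phase`   the six identities at `q = fzKSub P k x z w`, `σ ≠ 0`.
 (S4) `fz_ks_pt`   pointwise identity of the integrands (`σ = 0`: `rdChi β 0 = 0` on both sides).
 (S5) `fz_ks_scale`.
ALL IDENTITIES WERE CHECKED NUMERICALLY (helper295, helper250: 2000 random samples).
-/

set_option autoImplicit false

namespace Claimed.Agent.R256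

open MeasureTheory
open scoped ENNReal ComplexConjugate

/-- the substitution `w = ((ζ₁, ζ₂), s) ↦ q = ((ξ₁, ξ₂), ρ)` -/
noncomputable def fzKSub (P : FzP) (k : ℕ) (x : RdWvPar.Ph) (z : FzRw) (w : (ℝ × ℝ) × ℝ) : RdWvPar.Mo :=
  ((2 * ((z.1.2.1 + P.tS * w.2) / (2 * P.H)) * z.1.1 + P.tX / P.H * w.1.1, w.1.2 / rdQ P.H k + z.1.2.1 * x.1.2 / P.H),
    (z.1.2.1 + P.tS * w.2) / (2 * P.H))

theorem fz_ks_eqns_cite : True := by
  have := @fzKSub.eq_1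
  trivial

/-- one-dimensional affine substitution, direct form -/
theorem fz_ks_cov_a1 (g : ℝ → ℝ≥0∞) {c : ℝ} (hc : 0 < c) (t : ℝ) : ∫⁻ y : ℝ, g (c * y + t) = ENNReal.ofReal c⁻¹ * ∫⁻ y, g y := by
  rw [← rt_k_cov1 g (inv_pos.2 hc) (-(t / c))]
  refine lintegral_congr fun y => ?_
  congr 1
  field_simp
  ring

/-- two-dimensional diagonal affine substitution -/
theorem fz_ks_cov_a2 (g : ℝ × ℝ → ℝ≥0∞) (hg : Measurable g) {c1 c2 : ℝ} (h1 : 0 < c1) (h2 : 0 < c2) (t1 t2 : ℝ) :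
    ∫⁻ x : ℝ × ℝ, g (c1 * x.1 + t1, c2 * x.2 + t2) = ENNReal.ofReal (c1 * c2)⁻¹ * ∫⁻ x, g x := by
  have hm : Measurable fun x : ℝ × ℝ => g (c1 * x.1 + t1, c2 * x.2 + t2) := by
    apply hg.comp
    fun_prop
  rw [Measure.volume_eq_prod, lintegral_prod _ hm.aemeasurable, lintegral_prod _ hg.aemeasurable]
  have hin : ∀ x : ℝ, ∫⁻ y : ℝ, g (c1 * x + t1, c2 * y + t2) = ENNReal.ofReal c2⁻¹ * ∫⁻ y : ℝ, g (c1 * x + t1, y) := fun x =>
    fz_ks_cov_a1 (fun y => g (c1 * x + t1, y)) h2 t2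
  simp only [hin]
  have hG : Measurable fun u : ℝ => ∫⁻ y : ℝ, g (u, y) := hg.lintegral_prod_right'
  have hG' : Measurable fun x : ℝ => ∫⁻ y : ℝ, g (c1 * x + t1, y) := hG.comp (f := fun x : ℝ => c1 * x + t1) (by fun_prop)
  rw [lintegral_const_mul _ hG', fz_ks_cov_a1 (fun u => ∫⁻ y : ℝ, g (u, y)) h1 t1, ← mul_assoc,
    ← ENNReal.ofReal_mul (inv_pos.2 h2).le, mul_inv, mul_comm c2⁻¹]

/-- the `lintegral` form of the substitution of `fz_ks_cov` -/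
theorem fz_ks_cov_l (g : (ℝ × ℝ) × ℝ → ℝ≥0∞) (hg : Measurable g) {c1 c2 c3 : ℝ} (h1 : 0 < c1) (h2 : 0 < c2) (h3 : 0 < c3) (X0 e2 r0 : ℝ) :
    ∫⁻ w : (ℝ × ℝ) × ℝ, g ((2 * (r0 + c3 * w.2) * X0 + c1 * w.1.1, c2 * w.1.2 + e2), r0 + c3 * w.2)
      = ENNReal.ofReal (c1 * c2 * c3)⁻¹ * ∫⁻ q, g q := by
  have hm : Measurable fun w : (ℝ × ℝ) × ℝ => g ((2 * (r0 + c3 * w.2) * X0 + c1 * w.1.1, c2 * w.1.2 + e2), r0 + c3 * w.2) := by
    apply hg.comp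
    fun_prop
  rw [Measure.volume_eq_prod, lintegral_prod_symm _ hm.aemeasurable, lintegral_prod_symm _ hg.aemeasurable]
  have hin : ∀ y : ℝ, ∫⁻ x : ℝ × ℝ, g ((2 * (r0 + c3 * y) * X0 + c1 * x.1, c2 * x.2 + e2), r0 + c3 * y)
      = ENNReal.ofReal (c1 * c2)⁻¹ * ∫⁻ x : ℝ × ℝ, g (x, r0 + c3 * y) := by
    intro y
    rw [← fz_ks_cov_a2 (fun x => g (x, r0 + c3 * y)) (hg.comp (by fun_prop)) h1 h2 (2 * (r0 + c3 * y) * X0) e2]
    refine lintegral_congr fun x => ?_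
    rw [add_comm (c1 * x.1)]
  simp only [hin]
  have hG : Measurable fun t : ℝ => ∫⁻ x : ℝ × ℝ, g (x, t) := hg.lintegral_prod_left'
  have hG' : Measurable fun y : ℝ => ∫⁻ x : ℝ × ℝ, g (x, r0 + c3 * y) := hG.comp (f := fun y : ℝ => r0 + c3 * y) (by fun_prop)
  rw [lintegral_const_mul _ hG']
  have e := fz_ks_cov_a1 (fun t => ∫⁻ x : ℝ × ℝ, g (x, t)) h3 r0
  simp only [add_comm _ r0] at e
  rw [e, ← mul_assoc, ← ENNReal.ofReal_mul (by positivity), ← mul_inv]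

/-- (S1) LEAF L-256-FZ-KS-COV.  **affine substitution in `ℝ³`** (triangular linear part), no integrability hypothesis.
PLAN (clone of `rt_k_cov_l2` + `rt_k_cov_i`, `Rt/Ker.lean`): the map `Φ w = ((2 (r0 + c3 w.2) X0 + c1 w.1.1, c2 w.1.2 + e2), r0 + c3 w.2)` is a `MeasurableEquiv` (inverse `q ↦ (((q.1.1 - 2 q.2 X0)/c1, (q.1.2 - e2)/c2), (q.2 - r0)/c3)`);
`Measure.map Φ volume = ofReal (c1 c2 c3)⁻¹ • volume`: `Measure.ext`, `lintegral_indicator_one`, Tonelli (`Measure.volume_eq_prod`, `lintegral_prod_symm`, `lintegral_prod`), one dimensional substitutions (`rt_k_cov1` with `c := c_i⁻¹`, or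
`lintegral_add_right_eq_self`, `Real.map_volume_mul_left`);   then `Φ.measurableEmbedding.integral_map`, `integral_smul_measure`.  ~130 l. -/
theorem fz_ks_cov (f : (ℝ × ℝ) × ℝ → ℂ) {c1 c2 c3 : ℝ} (h1 : 0 < c1) (h2 : 0 < c2) (h3 : 0 < c3) (X0 e2 r0 : ℝ) :
    ∫ q : (ℝ × ℝ) × ℝ, f q
      = ((c1 * c2 * c3 : ℝ) : ℂ) * ∫ w : (ℝ × ℝ) × ℝ, f ((2 * (r0 + c3 * w.2) * X0 + c1 * w.1.1, c2 * w.1.2 + e2), r0 + c3 * w.2) := by
  let Φ : (ℝ × ℝ) × ℝ ≃ᵐ (ℝ × ℝ) × ℝ :=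
    { toFun := fun w => ((2 * (r0 + c3 * w.2) * X0 + c1 * w.1.1, c2 * w.1.2 + e2), r0 + c3 * w.2)
      invFun := fun q => (((q.1.1 - 2 * q.2 * X0) / c1, (q.1.2 - e2) / c2), (q.2 - r0) / c3)
      left_inv := by
        intro w
        ext <;> simp <;> field_simp
      right_inv := by
        intro q
        ext <;> simp <;> field_simp <;> ring
      measurable_toFun := by
        show Measurable fun w : (ℝ × ℝ) × ℝ => ((2 * (r0 + c3 * w.2) * X0 + c1 * w.1.1, c2 * w.1.2 + e2), r0 + c3 * w.2)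
        fun_prop
      measurable_invFun := by
        show Measurable fun q : (ℝ × ℝ) × ℝ => (((q.1.1 - 2 * q.2 * X0) / c1, (q.1.2 - e2) / c2), (q.2 - r0) / c3)
        fun_prop }
  have hmap : Measure.map Φ (volume : Measure ((ℝ × ℝ) × ℝ)) = ENNReal.ofReal (c1 * c2 * c3)⁻¹ • volume := by
    refine Measure.ext fun s hs => ?_
    rw [Measure.map_apply Φ.measurable hs, Measure.smul_apply, smul_eq_mul, ← lintegral_indicator_one (Φ.measurable hs),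
      ← lintegral_indicator_one hs, ← fz_ks_cov_l (s.indicator 1) (measurable_one.indicator hs) h1 h2 h3 X0 e2 r0]
    rfl
  have e := Φ.measurableEmbedding.integral_map (μ := (volume : Measure ((ℝ × ℝ) × ℝ))) f
  rw [hmap, integral_smul_measure] at e
  have hpos : 0 < c1 * c2 * c3 := by positivity
  have e' : ∫ w : (ℝ × ℝ) × ℝ, f ((2 * (r0 + c3 * w.2) * X0 + c1 * w.1.1, c2 * w.1.2 + e2), r0 + c3 * w.2) = (c1 * c2 * c3)⁻¹ • ∫ q, f q := by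
    rw [← ENNReal.toReal_ofReal (inv_pos.2 hpos).le]
    exact e.symm
  rw [e', Complex.real_smul, ← mul_assoc, ← Complex.ofReal_mul, mul_inv_cancel₀ hpos.ne', Complex.ofReal_one, one_mul]

/-- numerology of the cut `k` -/
theorem fz_ks_num {H : ℝ} (hH : 0 < H) (k : ℕ) :
    0 < rdQ H k ∧ 0 < rdD H k ∧ rdD H k = H / rdQ H k ∧ rdLen k = rdQ H k ^ 2 / H ∧ (2 : ℝ) ^ k = H / rdQ H k ^ 2 := by
  obtain ⟨hQ, hQ2⟩ := rt_k_q_pos hH k
  obtain ⟨hd, hd2⟩ := rt_k_d_pos hH k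
  have hl := rdLen_pos k
  have hQd : rdD H k = H / rdQ H k := by
    rw [eq_div_iff hQ.ne']
    have h1 : (rdD H k * rdQ H k) ^ 2 = H ^ 2 := by
      rw [mul_pow, hd2, hQ2]
      field_simp
    exact (pow_left_inj₀ (by positivity) hH.le (by norm_num)).1 h1
  refine ⟨hQ, hd, hQd, by rw [hQ2]; field_simp, ?_⟩
  rw [hQ2]
  unfold rdLen
  rw [inv_pow]
  field_simp

/-- (S1) the substitution of the kernel -/
theorem fz_ks_cov' (P : FzP) (h : P.Ok) (k : ℕ) (x : RdWvPar.Ph) (z : FzRw) (f : RdWvPar.Mo → ℂ) :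
    ∫ q, f q = ((P.tX * P.tS / (2 * P.H ^ 2 * rdQ P.H k) : ℝ) : ℂ) * ∫ w, f (fzKSub P k x z w) := by
  have hH := h.H_pos
  obtain ⟨hQ, -, -, -, -⟩ := fz_ks_num hH k
  rw [fz_ks_cov f (div_pos h.tX_pos hH) (inv_pos.2 hQ) (div_pos h.tS_pos (by positivity : 0 < 2 * P.H)) z.1.1 (z.1.2.1 * x.1.2 / P.H)
    (z.1.2.1 / (2 * P.H))]
  congr 1
  · congr 1
    field_simp
  · refine integral_congr_ae (Filter.Eventually.of_forall fun w => ?_)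
    show f _ = f _
    congr 1
    unfold fzKSub
    have e : z.1.2.1 / (2 * P.H) + P.tS / (2 * P.H) * w.2 = (z.1.2.1 + P.tS * w.2) / (2 * P.H) := by ring
    rw [e, div_eq_inv_mul w.1.2]

/-- three unimodular factors with real amplitudes -/
theorem fz_ks_mul3 (r1 r0 r2 r3 t1 t2 t3 : ℝ) :
    ((r1 : ℂ) * Complex.exp (Complex.I * (t1 : ℂ)))
        * conj ((r0 : ℂ) * ((r2 : ℂ) * Complex.exp (Complex.I * (t2 : ℂ))) * ((r3 : ℂ) * Complex.exp (Complex.I * (t3 : ℂ))))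
      = ((r1 * r0 * r2 * r3 : ℝ) : ℂ) * Complex.exp (Complex.I * ((t1 - t2 - t3 : ℝ) : ℂ)) := by
  simp only [map_mul, Complex.conj_ofReal, ← Complex.exp_conj, Complex.conj_I]
  have e : Complex.exp (Complex.I * ((t1 - t2 - t3 : ℝ) : ℂ))
      = Complex.exp (Complex.I * (t1 : ℂ)) * Complex.exp (-Complex.I * (t2 : ℂ)) * Complex.exp (-Complex.I * (t3 : ℂ)) := by
    rw [← Complex.exp_add, ← Complex.exp_add]
    congr 1
    push_cast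
    ring
  rw [e]
  push_cast
  ring

/-- (S2) LEAF L-256-FZ-KS-MUL.  **the product of the two packets.**   `unfold RdWvPar.pk FzP.pk FzP.wk ChyPar.pk`; `map_mul`, `Complex.conj_ofReal`, `← Complex.exp_conj`, `Complex.conj_I`; the three exponentials are merged by `Complex.exp_add`
(as in `rt_k_pk_mul`); `push_cast; ring`.   (`(P.rd h).H = P.H` by `rfl`.)  ~50 l. -/
theorem fz_ks_pk_mul (P : FzP) (h : P.Ok) (a T : ℝ) (k β : ℕ) (x : RdWvPar.Ph) (z : FzRw) (q : RdWvPar.Mo) :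
    (P.rd h).pk T k β x q * conj (P.pk a T k z q)
      = (((2 * Real.pi) ^ (-(3 / 2) : ℝ) * P.fs * P.cW * ((fzHy P a).ql k ^ 2 / Real.pi) ^ (1 / 4 : ℝ)
          * (rdChi β (P.H * q.2) * fzB ((q.1.1 / (2 * q.2) - z.1.1) / P.tX) * fzB ((2 * P.H * q.2 - z.1.2.1) / P.tS)
            * rdPsi ((rdD P.H k)⁻¹ • ((2 * q.2)⁻¹ • q.1 - x.1))
            * Real.exp (-((fzHy P a).ql k ^ 2 * (P.fs * q.1.2 - (fzHy P a).sg z.1 * z.2.2 / (fzHy P a).H) ^ 2 / 2))) : ℝ) : ℂ)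
        * Complex.exp (Complex.I * (((rtIp q.1 x.2.1 - q.2 * x.2.2 - T * rtSq q.1 / (4 * q.2)) - (q.1.1 * z.1.2.2.1 - q.2 * z.1.2.2.2)
            - ((P.fs * q.1.2 - (fzHy P a).sg z.1 * z.2.2 / (fzHy P a).H) * z.2.1
              - T * (fzHy P a).H * (P.fs * q.1.2) ^ 2 / (2 * (fzHy P a).sg z.1)) : ℝ) : ℂ)) := by
  unfold RdWvPar.pk FzP.pk FzP.wk ChyPar.pk
  rw [fz_ks_mul3]
  congr 2
  show (2 * Real.pi) ^ (-(3 / 2) : ℝ) * rdChi β (P.H * q.2) * rdPsi ((rdD P.H k)⁻¹ • ((2 * q.2)⁻¹ • q.1 - x.1)) * _ * _ * _ = _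
  ring

/-- (S3) the hybrid data in the band -/
theorem fz_ks_hy (P : FzP) (h : P.Ok) {a : ℝ} (ha : 0 < a) (k : ℕ) {ω : FzOm} (hω : ω ∈ fzBand a) :
    (fzHy P a).sg ω = ω.2.1 / a ∧ (fzHy P a).H = P.H / P.fs ^ 2 / a ∧ (fzHy P a).ql k ^ 2 = P.H / P.fs ^ 2 / a / 2 ^ k := by
  have h1 : 1 ≤ ω.2.1 / a := (one_le_div ha).2 hω.1
  have h2 : ω.2.1 / a ≤ 2 := (div_le_iff₀ ha).2 hω.2.le
  refine ⟨?_, rfl, ?_⟩
  · show max 1 (min 2 (ω.2.1 / a)) = ω.2.1 / a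
    rw [min_eq_right h2, max_eq_right h1]
  · have hp : 0 ≤ P.H / P.fs ^ 2 / a / 2 ^ k := by
      have := h.H_pos; have := h.fs_pos
      positivity
    exact Real.sq_sqrt hp

/-- (S3) LEAF L-256-FZ-KS-ALG.  the argument of the angular bump.   `Prod.ext`; `fz_ks_num` (`rw` `rdD = H/Q`); `simp only [fzKSub, fzKpr, Prod.smul_fst, ..]`; `field_simp; ring`.  ~40 l. -/
theorem fz_ks_psi (P : FzP) (h : P.Ok) (T : ℝ) (k : ℕ) (x : RdWvPar.Ph) (z : FzRw) (w : (ℝ × ℝ) × ℝ) (hσ : z.1.2.1 + P.tS * w.2 ≠ 0) :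
    (rdD P.H k)⁻¹ • ((2 * (fzKSub P k x z w).2)⁻¹ • (fzKSub P k x z w).1 - x.1)
      = ((fzKpr P T k x z).lam * w.1.1 / ((fzKpr P T k x z).s0 + (fzKpr P T k x z).tS * w.2) - (fzKpr P T k x z).a1,
          (w.1.2 - (fzKpr P T k x z).mu * w.2) / ((fzKpr P T k x z).s0 + (fzKpr P T k x z).tS * w.2)) := by
  have hH := h.H_pos.ne'
  obtain ⟨hQ, hd, hQd, -, -⟩ := fz_ks_num h.H_pos k
  have hQ' := hQ.ne'
  simp only [fzKSub, fzKpr]
  rw [hQd]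
  set σ := z.1.2.1 + P.tS * w.2 with hσd
  set Q := rdQ P.H k
  ext
  · simp only [Prod.smul_fst, Prod.fst_sub, smul_eq_mul]
    field_simp
    ring
  · simp only [Prod.smul_snd, Prod.snd_sub, smul_eq_mul]
    rw [hσd]
    rw [hσd] at hσ
    field_simp
    ring

/-- (S3) LEAF L-256-FZ-KS-ALG.  the band cutoff and the two windows.  ~30 l. -/
theorem fz_ks_win (P : FzP) (h : P.Ok) (k : ℕ) (x : RdWvPar.Ph) (z : FzRw) (w : (ℝ × ℝ) × ℝ) (hσ : z.1.2.1 + P.tS * w.2 ≠ 0) :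
    P.H * (fzKSub P k x z w).2 = (z.1.2.1 + P.tS * w.2) / 2 ∧
    ((fzKSub P k x z w).1.1 / (2 * (fzKSub P k x z w).2) - z.1.1) / P.tX = w.1.1 / (z.1.2.1 + P.tS * w.2) ∧
    (2 * P.H * (fzKSub P k x z w).2 - z.1.2.1) / P.tS = w.2 := by
  have hH := h.H_pos.ne'
  have hX := h.tX_pos.ne'
  have hS := h.tS_pos.ne'
  simp only [fzKSub]
  set σ := z.1.2.1 + P.tS * w.2 with hσd
  refine ⟨by field_simp, by field_simp; ring, ?_⟩
  have e : 2 * P.H * (σ / (2 * P.H)) = σ := by field_simp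
  rw [e, hσd]
  field_simp
  ring

/-- (S3) LEAF L-256-FZ-KS-ALG.  the Gaussian.   `fz_ks_hy`, `fz_ks_num` (`2^k = H/Q²`, `d = H/Q`): `fs ξ₂ - sg N'/H_c = (fs/Q)(ζ₂ + a2)`, `q_c² (fs/Q)² = 1/a`.  ~40 l. -/
theorem fz_ks_gau (P : FzP) (h : P.Ok) {a : ℝ} (ha : 0 < a) (k : ℕ) (x : RdWvPar.Ph) (z : FzRw) (hz : z.1 ∈ fzBand a) (w : (ℝ × ℝ) × ℝ) :
    (fzHy P a).ql k ^ 2 * (P.fs * (fzKSub P k x z w).1.2 - (fzHy P a).sg z.1 * z.2.2 / (fzHy P a).H) ^ 2 / 2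
      = (w.1.2 + fzKa2 P k x z) ^ 2 / (2 * a) := by
  have hH := h.H_pos.ne'
  have hf := h.fs_pos.ne'
  have ha' := ha.ne'
  obtain ⟨hQ, hd, hQd, -, h2k⟩ := fz_ks_num h.H_pos k
  have hQ' := hQ.ne'
  obtain ⟨e1, e2, e3⟩ := fz_ks_hy P h ha k hz
  rw [e1, e2, e3, h2k]
  simp only [fzKSub, fzKa2]
  rw [hQd]
  set Q := rdQ P.H k
  field_simp
  ring

/-- base part of the phase identity -/
theorem fz_ks_phase_base (H tX T b1 y X0 B0 Y0 ζ1 σ : ℝ) (hH : H ≠ 0) (hσ : σ ≠ 0) :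
    (2 * (σ / (2 * H)) * X0 + tX / H * ζ1) * b1 - σ / (2 * H) * y - T * (2 * (σ / (2 * H)) * X0 + tX / H * ζ1) ^ 2 / (4 * (σ / (2 * H)))
        - ((2 * (σ / (2 * H)) * X0 + tX / H * ζ1) * B0 - σ / (2 * H) * Y0)
      = -(σ * ((y - Y0 - T * X0 ^ 2) - 2 * X0 * (b1 - B0 - T * X0)) / (2 * H)) + ζ1 * (tX * (b1 - B0 - T * X0) / H) - T * tX ^ 2 / H * ζ1 ^ 2 / (2 * σ) := by
  field_simp
  ring

/-- normal part of the phase identity -/
theorem fz_ks_phase_nor (H Q fs a tS T A2 b2 s0 D' N' ζ2 s : ℝ) (hH : H ≠ 0) (hQ : Q ≠ 0) (hfs : fs ≠ 0) (ha : a ≠ 0) (hs0 : s0 ≠ 0) (hσ : s0 + tS * s ≠ 0) :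
    (ζ2 / Q + s0 * A2 / H) * b2 - T * (ζ2 / Q + s0 * A2 / H) ^ 2 / (4 * ((s0 + tS * s) / (2 * H)))
        - ((fs * (ζ2 / Q + s0 * A2 / H) - s0 / a * N' / (H / fs ^ 2 / a)) * D' - T * (H / fs ^ 2 / a) * (fs * (ζ2 / Q + s0 * A2 / H)) ^ 2 / (2 * (s0 / a)))
      = s0 * A2 * (b2 - fs * D') / H + s0 * fs ^ 2 * N' * D' / H + ζ2 * ((b2 - fs * D') / Q)
        + s * (T * tS / (s0 * (Q ^ 2 / H)) * ζ2 ^ 2 + 2 * (T * tS * A2 / Q) * ζ2 + T * tS * s0 * A2 ^ 2 / H) / (2 * (s0 + tS * s)) := by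
  field_simp
  ring

/-- (S3) LEAF L-256-FZ-KS-PH.  **the phase.**   `fz_ks_hy`, `fz_ks_num` (`ℓ = Q²/H`); `unfold fzKth fzKX fzKY fzKDz fzKDb rtIp rtSq`; `simp only [fzKSub, fzKpr]`; `field_simp; ring` (`s0 > 0` from the band).
If `field_simp; ring` is too slow: split into the BASE part (terms with `ξ₁`, `ρ`: `ξ₁ (b₁ - B0) - ρ (y - Y0) - T ξ₁²/4ρ = -ρ Dz + (tX/H) ζ₁ Db - T (tX/H)² ζ₁²/(4ρ)`) and the NORMAL part
(`ξ₂ b₂ - (fs ξ₂ - s0 fs² N'/H) D' - T ξ₂²/4ρ + T H ξ₂²/(2 s0)`, `-1/(4ρ) + H/(2 s0) = H tS s/(2 s0 σ)`).  ~120 l. -/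
theorem fz_ks_phase (P : FzP) (h : P.Ok) {a : ℝ} (ha : 0 < a) (T : ℝ) (k : ℕ) (x : RdWvPar.Ph) (z : FzRw) (hz : z.1 ∈ fzBand a) (w : (ℝ × ℝ) × ℝ)
    (hσ : z.1.2.1 + P.tS * w.2 ≠ 0) :
    (rtIp (fzKSub P k x z w).1 x.2.1 - (fzKSub P k x z w).2 * x.2.2 - T * rtSq (fzKSub P k x z w).1 / (4 * (fzKSub P k x z w).2))
        - ((fzKSub P k x z w).1.1 * z.1.2.2.1 - (fzKSub P k x z w).2 * z.1.2.2.2)
        - ((P.fs * (fzKSub P k x z w).1.2 - (fzHy P a).sg z.1 * z.2.2 / (fzHy P a).H) * z.2.1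
          - T * (fzHy P a).H * (P.fs * (fzKSub P k x z w).1.2) ^ 2 / (2 * (fzHy P a).sg z.1))
      = fzKth P T x z + (rtIp w.1 (fzKX P T k x z) - w.2 * fzKY P T x z)
        + (-((fzKpr P T k x z).tau * w.1.1 ^ 2) + w.2 * ((fzKpr P T k x z).m3 * w.1.2 ^ 2 + 2 * (fzKpr P T k x z).m2 * w.1.2 + (fzKpr P T k x z).m1))
          / (2 * ((fzKpr P T k x z).s0 + (fzKpr P T k x z).tS * w.2)) := by
  have hH := h.H_pos.ne'
  have hf := h.fs_pos.ne'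
  have ha' := ha.ne'
  obtain ⟨hQ, -, -, hl, -⟩ := fz_ks_num h.H_pos k
  obtain ⟨e1, e2, -⟩ := fz_ks_hy P h ha k hz
  have hs0 : z.1.2.1 ≠ 0 := (lt_of_lt_of_le ha hz.1).ne'
  rw [e1, e2]
  simp only [fzKSub, fzKpr, fzKth, fzKX, fzKY, fzKDz, fzKDb, rtIp, rtSq]
  rw [hl]
  have B := fz_ks_phase_base P.H P.tX T x.2.1.1 x.2.2 z.1.1 z.1.2.2.1 z.1.2.2.2 w.1.1 (z.1.2.1 + P.tS * w.2) hH hσ
  have N := fz_ks_phase_nor P.H (rdQ P.H k) P.fs a P.tS T x.1.2 x.2.1.2 z.1.2.1 z.2.1 z.2.2 w.1.2 w.2 hH hQ.ne' hf ha' hs0 hσ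
  linear_combination B + N

/-- (S4) **pointwise identity of the integrands** -/
theorem fz_ks_pt (P : FzP) (h : P.Ok) {a : ℝ} (ha : 0 < a) (T : ℝ) (k β : ℕ) (x : RdWvPar.Ph) (z : FzRw) (hz : z.1 ∈ fzBand a) (w : (ℝ × ℝ) × ℝ) :
    (P.rd h).pk T k β x (fzKSub P k x z w) * conj (P.pk a T k z (fzKSub P k x z w))
      = (((2 * Real.pi) ^ (-(3 / 2) : ℝ) * P.fs * P.cW * ((fzHy P a).ql k ^ 2 / Real.pi) ^ (1 / 4 : ℝ) : ℝ) : ℂ)
        * Complex.exp (Complex.I * ((fzKth P T x z : ℝ) : ℂ))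
        * (Complex.exp (Complex.I * ((rtIp w.1 (fzKX P T k x z) - w.2 * fzKY P T x z : ℝ) : ℂ))
          * (fzKB β (fzKpr P T k x z) w * ((fzKG a (fzKa2 P k x z) w : ℝ) : ℂ))) := by
  rw [fz_ks_pk_mul]
  by_cases hσ : z.1.2.1 + P.tS * w.2 = 0
  · have e1 : P.H * (fzKSub P k x z w).2 = 0 := by
      show P.H * ((z.1.2.1 + P.tS * w.2) / (2 * P.H)) = 0
      rw [hσ]; simp
    have h0 : rdChi β 0 = 0 := by
      by_contra hne
      exact absurd (rd_chi_supp hne).1 (not_lt.2 (by positivity))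
    have e2 : fzKB β (fzKpr P T k x z) w = 0 := by
      unfold fzKB
      have : ((fzKpr P T k x z).s0 + (fzKpr P T k x z).tS * w.2) / 2 = 0 := by
        show (z.1.2.1 + P.tS * w.2) / 2 = 0
        rw [hσ]; simp
      rw [this, h0]
      simp
    rw [e1, h0, e2]
    simp
  · obtain ⟨w1, w2, w3⟩ := fz_ks_win P h k x z w hσ
    rw [w1, w2, w3, fz_ks_psi P h T k x z w hσ, fz_ks_gau P h ha k x z hz w, fz_ks_phase P h ha T k x z hz w hσ]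
    unfold fzKB fzKG
    rw [Complex.ofReal_add, Complex.ofReal_add, mul_add, mul_add, Complex.exp_add, Complex.exp_add]
    show _ = _ * _ * (_ * (((rdChi β ((z.1.2.1 + P.tS * w.2) / 2) * fzB (w.1.1 / (z.1.2.1 + P.tS * w.2)) * fzB w.2 * _ : ℝ) : ℂ) * _ * _))
    push_cast
    ring

/-- (S5) **EXIT = `fz_k_scale` of `Fz/KContract.lean`, verbatim** -/
theorem fz_ks_scale (P : FzP) (h : P.Ok) (a T : ℝ) (k β : ℕ) (x : RdWvPar.Ph) (z : FzRw) (ha : 0 < a) (hz : z.1 ∈ fzBand a) :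
    fzK P h a T k β x z = ((fzKN P a k : ℝ) : ℂ) * Complex.exp (Complex.I * ((fzKth P T x z : ℝ) : ℂ))
      * fzKI β a (fzKa2 P k x z) (fzKpr P T k x z) (fzKX P T k x z) (fzKY P T x z) := by
  unfold fzK
  rw [if_pos hz, fz_ks_cov' P h k x z]
  simp only [fz_ks_pt P h ha T k β x z hz]
  rw [integral_const_mul]
  unfold fzKI fzKN
  push_cast
  ring

end Claimed.Agent.R256
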