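-- KEEP
import Claimed.Agent.R256.Fz.KRep
import Claimed.Agent.R256.Fz.GeoReg
import Claimed.Agent.R256.Rt.Wv1Core

/-!
# Row 256 (LS paper), folder Fz = WAVE FREEZE, unit FZ-W, file WCore : `fzW P` IS THE FORMULA AND IS AN ISOMETRY          (architect helper185; chief helper207; prefix `fz_w_`, defs `fzWa`, `fzWf`)          CONTRACT FILE

Plan: report 951 (unit FZ-W).   Model: `Rt/Wv1Core.lean` (same scheme for the round analysis operator, SORRY-FREE: copy its tactics).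
`(W G)(ω, u) = ∫ wk ω z G((z₁, u/fs), z₂) dz`,   `ω = (X0, s0, B0, Y0)`,   `wk ω z = cW fzWa X0 s0 z e^{i(z₁ B0 - z₂ Y0)}`,   `fzWa X0 s0 z = fzB((z₁/2z₂ - X0)/tX) fzB((2H z₂ - s0)/tS)`.
ENERGY IDENTITY.   Fix `u` (a.e.: the slice `g = G((·, u/fs), ·)` is in `L²(ℝ²)`).   Fix `(X0, s0)`: `fzWa g ∈ L¹ ∩ L²`, Plancherel in `(B0, Y0)` gives `cW² (2π)² ∫ fzWa² |g|²` (`fz_w_fib`).
Tonelli in `(X0, s0, z)` and `∫∫ fzWa² dX0 ds0 = tX tS` give `∫ |W..|² dω = cW² (2π)² tX tS ∫ |g|²` (`fz_w_om`).      `∫ du ∫ |G((z₁,u/fs),z₂)|² dz = fs ∫ |G|²` (`fz_g4_fib`).      `cW² (2π)² tX tS fs = 1`.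
EXITS:  `fz_w_spec` (`fzW P G =ᵐ P.wf G`: the hypothesis `hW` of `Fz/KRep.lean`, `Fz/GeoReg.lean`),   `fz_wx_iso` (= `fz_w_iso` of `Fz/Seam.lean`).
Every `sorry` is a leaf `L-256-FZ-W-*` (name in the docstring): prove IN PLACE, statement verbatim, auxiliary lemmas directly above with the prefix `fz_w<letters>_`.
TOOLS ON MAIN (leaves of other units, cite them freely): `fz_g4_B` (bound, support, measurability of `fzB`), `fz_g4_fib` (Tonelli + scaling), `fz_kr_map_ae` (null sets), `fz_kr_wk_meas`.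
-/

set_option autoImplicit false

namespace Claimed.Agent.R256

open MeasureTheory
open scoped ENNReal

/-- the window amplitude -/
noncomputable def fzWa (P : FzP) (X0 s0 : ℝ) (z : ℝ × ℝ) : ℝ :=
  fzB ((z.1 / (2 * z.2) - X0) / P.tX) * fzB ((2 * P.H * z.2 - s0) / P.tS)

/-- the formula of `W` for functions -/
noncomputable def fzWf (P : FzP) (G : RdWvPar.Mo → ℂ) (x : FzOm × ℝ) : ℂ :=
  ∫ z : ℝ × ℝ, P.wk x.1 z * G ((z.1, x.2 / P.fs), z.2)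

theorem fz_w_eqns_cite : True := by
  have := @fzWa.eq_1
  have := @fzWf.eq_1
  trivial

theorem fz_w_wf_eq (P : FzP) (G : Lp ℂ 2 (volume : Measure RdWvPar.Mo)) : P.wf G = fzWf P (G : RdWvPar.Mo → ℂ) := rfl

/-! ## A. the bump -/

theorem fz_wa_B0_cont : Continuous fzB0 := by
  unfold fzB0
  exact Real.smoothTransition.continuous.comp (by fun_prop)

theorem fz_wa_B0_compact : HasCompactSupport fun t : ℝ => fzB0 t ^ 2 := by
  refine HasCompactSupport.intro (isCompact_closedBall (0 : ℝ) 2) fun x hx => ?_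
  by_contra h
  apply hx
  have h2 : x ^ 2 < 2 := by
    by_contra hx2
    push Not at hx2
    apply h
    unfold fzB0
    rw [Real.smoothTransition.zero_of_nonpos (by linarith)]
    norm_num
  rw [mem_closedBall_zero_iff, Real.norm_eq_abs]
  exact abs_le.2 (abs_le_of_sq_le_sq' (by nlinarith) (by norm_num))

theorem fz_wa_B0_int : Integrable fun t : ℝ => fzB0 t ^ 2 :=
  (fz_wa_B0_cont.pow 2).integrable_of_hasCompactSupport fz_wa_B0_compact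

theorem fz_wa_N_pos : 0 < ∫ t : ℝ, fzB0 t ^ 2 := by
  refine (fz_wa_B0_cont.pow 2).integral_pos_of_hasCompactSupport_nonneg_nonzero fz_wa_B0_compact (fun x => sq_nonneg _) (x := 0) ?_
  unfold fzB0
  rw [Real.smoothTransition.one_of_one_le (by norm_num)]
  norm_num

/-- LEAF `L-256-FZ-W-A`.   `fzB0` is continuous (`Real.smoothTransition.continuous`), `0 ≤ fzB0 ≤ 1`, `= 0` for `2 ≤ t²` (compact support), `fzB0 0 = 1` (`Real.smoothTransition.one_of_one_le`), so `I = ∫ fzB0² ∈ (0, ∞)`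
(`Continuous.integral_pos_of_hasCompactSupport_nonneg_nonzero` or `integral_pos_iff_support_of_nonneg`);   `fzB² = fzB0² / I` (`Real.sq_sqrt`);   `ofReal_integral_eq_lintegral_ofReal`.   Model: `rd_psi_norm` (`Base/RndCut.lean`). -/
theorem fz_w_B_int : ∫⁻ t : ℝ, ENNReal.ofReal (fzB t ^ 2) = 1 := by
  have h : ∀ t : ℝ, fzB t ^ 2 = fzB0 t ^ 2 / ∫ t' : ℝ, fzB0 t' ^ 2 := by
    intro t
    unfold fzB
    rw [div_pow, Real.sq_sqrt fz_wa_N_pos.le]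
  have hint : Integrable fun t : ℝ => fzB t ^ 2 := by
    simp only [h]
    exact fz_wa_B0_int.div_const _
  rw [← ofReal_integral_eq_lintegral_ofReal hint (Filter.Eventually.of_forall fun x => by positivity)]
  simp only [h]
  rw [integral_div, div_self fz_wa_N_pos.ne', ENNReal.ofReal_one]

/-- LEAF `L-256-FZ-W-A`.   Model: `rt_w1c_win` (`Rt/Wv1Core.lean`), dimension one: `Measure.measurePreserving_sub_left`, `Real.map_volume_mul_left` / `Measure.map_addHaar_smul`, `fz_w_B_int`. -/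
theorem fz_w_B_win {τ : ℝ} (hτ : 0 < τ) (c : ℝ) : ∫⁻ x : ℝ, ENNReal.ofReal (fzB ((c - x) / τ) ^ 2) = ENNReal.ofReal τ := by
  have hcont : Continuous fzB := by
    unfold fzB
    exact fz_wa_B0_cont.div_const _
  have hm : Measurable fun x : ℝ => ENNReal.ofReal (fzB x ^ 2) :=
    ENNReal.measurable_ofReal.comp ((hcont.pow 2).measurable)
  have hc' : τ⁻¹ ≠ 0 := (inv_pos.2 hτ).ne'
  have h1 : ∫⁻ x : ℝ, ENNReal.ofReal (fzB ((c - x) / τ) ^ 2) = ∫⁻ x : ℝ, ENNReal.ofReal (fzB (x / τ) ^ 2) :=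
    (Measure.measurePreserving_sub_left (volume : Measure ℝ) c).lintegral_comp (f := fun x : ℝ => ENNReal.ofReal (fzB (x / τ) ^ 2))
      (hm.comp (measurable_id.div_const τ))
  have h2 : ∫⁻ x : ℝ, ENNReal.ofReal (fzB (x / τ) ^ 2)
      = ∫⁻ x, ENNReal.ofReal (fzB x ^ 2) ∂(Measure.map (τ⁻¹ • ·) (volume : Measure ℝ)) := by
    rw [lintegral_map hm (measurable_const_smul τ⁻¹)]
    refine lintegral_congr fun x => ?_
    rw [smul_eq_mul, div_eq_inv_mul]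
  have hfr : Module.finrank ℝ ℝ = 1 := by simp
  rw [h1, h2, Measure.map_addHaar_smul _ hc', lintegral_smul_measure, fz_w_B_int, hfr, smul_eq_mul, mul_one, pow_one, inv_inv,
    abs_of_pos hτ]

/-! ## B. Plancherel on `ℝ × ℝ` -/

open Claimed.Agent.R255.BR in
open scoped FourierTransform InnerProductSpace in
/-- helper of `fz_w_planch`: the Fourier integral on `ℝ × ℝ` -/
theorem fz_wb_four (g : ℝ × ℝ → ℂ) (y : ℝ × ℝ) :
    ∫ z : ℝ × ℝ, Complex.exp (Complex.I * ((z.1 * y.1 - z.2 * y.2 : ℝ) : ℂ)) * g z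
      = 𝓕⁻ (fun v : E2 => g (rtW1cV.symm v)) ((2 * Real.pi)⁻¹ • rtW1cV (y.1, -y.2)) := by
  rw [fourierInv_ee, ← rt_w1c_V_mp.integral_comp rtW1cV.measurableEmbedding]
  refine integral_congr_ae (Filter.Eventually.of_forall fun q => ?_)
  simp only [MeasurableEquiv.symm_apply_apply]
  have hin : ⟪rtW1cV q, rtW1cV (y.1, -y.2)⟫_ℝ = q.1 * y.1 - q.2 * y.2 := by
    obtain ⟨a0, a1⟩ := rt_w1c_V_apply q
    obtain ⟨b0, b1⟩ := rt_w1c_V_apply (y.1, -y.2)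
    simp only [PiLp.inner_apply, Fin.sum_univ_two, a0, a1, b0, b1, RCLike.inner_apply, conj_trivial]
    ring
  rw [inner_smul_right, hin, rt_w1c_exp_ee]

/-- LEAF `L-256-FZ-W-B`.   **Plancherel on `ℝ × ℝ`**, pairing `z₁ y₁ - z₂ y₂`, no `2π` in the phase.   Model: `rt_w1c_planch` + `rt_w1c_four` (`Rt/Wv1Core.lean`) with `rtW1cV : ℝ × ℝ ≃ᵐ E2` (`rt_w1c_V_mp`, `rt_w1c_V_apply`) in place of `rtW1cK`;
`ls_plancherel_inv` on `E2`; reflection `(y₁, y₂) ↦ (y₁, -y₂)`; dilation by `(2π)⁻¹` in dimension 2. -/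
theorem fz_w_planch {φ : ℝ × ℝ → ℂ} (h1 : Integrable φ) (h2 : MemLp φ 2 volume) :
    ∫⁻ y : ℝ × ℝ, ‖∫ z : ℝ × ℝ, Complex.exp (Complex.I * ((z.1 * y.1 - z.2 * y.2 : ℝ) : ℂ)) * φ z‖ₑ ^ 2
      = ENNReal.ofReal ((2 * Real.pi) ^ 2) * ∫⁻ z, ‖φ z‖ₑ ^ 2 := by
  have hKs : MeasurePreserving rtW1cV.symm (volume : Measure Claimed.Agent.R255.BR.E2) (volume : Measure (ℝ × ℝ)) := rt_w1c_V_mp.symm
  have g1 : Integrable (fun v : Claimed.Agent.R255.BR.E2 => φ (rtW1cV.symm v)) := hKs.integrable_comp_of_integrable h1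
  have g2 : MemLp (fun v : Claimed.Agent.R255.BR.E2 => φ (rtW1cV.symm v)) 2 volume := h2.comp_measurePreserving hKs
  obtain ⟨p1, p2⟩ := ls_plancherel_inv g1 g2
  obtain ⟨Ψ, hΨ⟩ : ∃ Ψ : Claimed.Agent.R255.BR.E2 → ℝ≥0∞, Ψ = fun w => ‖FourierTransformInv.fourierInv (fun v : Claimed.Agent.R255.BR.E2 => φ (rtW1cV.symm v)) w‖ₑ ^ 2 := ⟨_, rfl⟩
  have hc : ((2 * Real.pi)⁻¹ : ℝ) ≠ 0 := by positivity
  have hrefl : MeasurePreserving (fun X : ℝ × ℝ => (X.1, -X.2)) volume volume :=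
    (MeasurePreserving.id (volume : Measure ℝ)).prod (Measure.measurePreserving_neg (volume : Measure ℝ))
  have hemb : MeasurableEmbedding (fun X : ℝ × ℝ => (X.1, -X.2)) :=
    ((MeasurableEquiv.refl ℝ).prodCongr (MeasurableEquiv.neg ℝ)).measurableEmbedding
  have e1 : ∀ y : ℝ × ℝ, ‖∫ z : ℝ × ℝ, Complex.exp (Complex.I * ((z.1 * y.1 - z.2 * y.2 : ℝ) : ℂ)) * φ z‖ₑ ^ 2
      = (fun Y : ℝ × ℝ => Ψ ((2 * Real.pi)⁻¹ • rtW1cV Y)) (y.1, -y.2) := by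
    intro y
    rw [fz_wb_four, hΨ]
  have e2 : ∫⁻ w : Claimed.Agent.R255.BR.E2, Ψ ((2 * Real.pi)⁻¹ • w) = ENNReal.ofReal ((2 * Real.pi) ^ 2) * ∫⁻ w, Ψ w := by
    have := (Homeomorph.smulOfNeZero ((2 * Real.pi)⁻¹ : ℝ) hc).measurableEmbedding.lintegral_map (μ := (volume : Measure Claimed.Agent.R255.BR.E2)) Ψ
    simp only [Homeomorph.smulOfNeZero_apply] at this
    rw [← this, Measure.map_addHaar_smul _ hc, lintegral_smul_measure, finrank_euclideanSpace_fin, smul_eq_mul]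
    congr 2
    rw [inv_pow, inv_inv, abs_of_pos (by positivity)]
  rw [lintegral_congr e1, hrefl.lintegral_comp_emb hemb (fun Y : ℝ × ℝ => Ψ ((2 * Real.pi)⁻¹ • rtW1cV Y)),
    rt_w1c_V_mp.lintegral_comp_emb rtW1cV.measurableEmbedding (fun w : Claimed.Agent.R255.BR.E2 => Ψ ((2 * Real.pi)⁻¹ • w)), e2, hΨ, rt_w1c_lint_sq p1, p2,
    ← rt_w1c_lint_sq g2, hKs.lintegral_comp_emb rtW1cV.symm.measurableEmbedding (fun q => ‖φ q‖ₑ ^ 2)]

/-! ## C. the window -/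

/-- LEAF `L-256-FZ-W-C1`.   (`fz_g4_B.2.2`, `fun_prop` / `Measurable.mul`, `Measurable.div`) -/
theorem fz_w_a_meas (P : FzP) : Measurable fun w : (ℝ × ℝ) × (ℝ × ℝ) => fzWa P w.1.1 w.1.2 w.2 := by
  have hB : Measurable fzB := fz_g4_B.2.2
  unfold fzWa
  exact (hB.comp (by fun_prop)).mul (hB.comp (by fun_prop))

/-- LEAF `L-256-FZ-W-C1`.   (`fz_g4_B.1`: `C = Bm²`) -/
theorem fz_w_a_le (P : FzP) : ∃ C : ℝ, 0 ≤ C ∧ ∀ (X0 s0 : ℝ) (z : ℝ × ℝ), |fzWa P X0 s0 z| ≤ C := by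
  obtain ⟨⟨Bm, hBm0, hBm⟩, -, -⟩ := fz_g4_B
  refine ⟨Bm * Bm, mul_nonneg hBm0 hBm0, fun X0 s0 z => ?_⟩
  unfold fzWa
  rw [abs_mul]
  exact mul_le_mul (hBm _) (hBm _) (abs_nonneg _) hBm0

/-- LEAF `L-256-FZ-W-C1`.   `unfold FzP.wk fzWa; push_cast; ring` -/
theorem fz_w_wk_eq (P : FzP) (ω : FzOm) (z : ℝ × ℝ) :
    P.wk ω z = (P.cW : ℂ) * (Complex.exp (Complex.I * ((z.1 * ω.2.2.1 - z.2 * ω.2.2.2 : ℝ) : ℂ)) * ((fzWa P ω.1 ω.2.1 z : ℝ) : ℂ)) := by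
  unfold FzP.wk fzWa
  push_cast
  ring

/-- LEAF `L-256-FZ-W-C2`.   The window is bounded (`fz_w_a_le`) and vanishes a.e. off a bounded set: `fzWa ≠ 0` forces `|2H z₂ - s0| ≤ 2 tS`, so `|z₂| ≤ ρm := (|s0| + 2 tS)/(2H)`, and, if `z₂ ≠ 0`, `|z₁ - 2 z₂ X0| ≤ 4 tX |z₂|`, so `|z₁| ≤ 2 ρm (|X0| + 2 tX)`;
`{z₂ = 0}` is a null set (`Measure.prod_apply` / `(measure_zero ..)`: `volume {z : ℝ × ℝ | z.2 = 0} = 0`, e.g. as preimage of `{0}` under the quasi measure preserving `Prod.snd`).   So `|fzWa| ≤ C 1_K` a.e. with `K` a closed ball (finite volume): `MemLp.of_bound`-type on `volume.restrict K`,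
or `memLp_top`+`MemLp.indicator`..., as in `rt_w1c_mul_memLp`.   Same computation as `fz_g4_wk` (`Fz/GeoReg.lean`), but for ALL `(X0, s0)`. -/
theorem fz_w_a_memLp (P : FzP) (h : P.Ok) (X0 s0 : ℝ) : MemLp (fun z : ℝ × ℝ => ((fzWa P X0 s0 z : ℝ) : ℂ)) 2 volume := by
  obtain ⟨C, hC0, hC⟩ := fz_w_a_le P
  obtain ⟨-, hsupp, -⟩ := fz_g4_B
  have hH := h.H_pos
  have htX := h.tX_pos
  have htS := h.tS_pos
  obtain ⟨ρm, hρm⟩ : ∃ ρm : ℝ, ρm = (|s0| + 2 * P.tS) / (2 * P.H) := ⟨_, rfl⟩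
  obtain ⟨R1, hR1⟩ : ∃ R1 : ℝ, R1 = 2 * ρm * (|X0| + 2 * P.tX) := ⟨_, rfl⟩
  have hρm0 : 0 ≤ ρm := by rw [hρm]; positivity
  have hlt2 : ∀ t : ℝ, fzB t ≠ 0 → |t| < 2 := by
    intro t ht
    by_contra hcon
    push Not at hcon
    refine ht (hsupp t ?_)
    have : (2 : ℝ) ^ 2 ≤ |t| ^ 2 := pow_le_pow_left₀ (by norm_num) hcon 2
    rw [sq_abs] at this
    linarith
  obtain ⟨K, hK⟩ : ∃ K : Set (ℝ × ℝ), K = Set.Icc (-R1) R1 ×ˢ Set.Icc (-ρm) ρm := ⟨_, rfl⟩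
  have hKm : MeasurableSet K := by
    rw [hK]
    exact measurableSet_Icc.prod measurableSet_Icc
  have hKfin : volume K ≠ ∞ := by
    rw [hK]
    exact (isCompact_Icc.prod isCompact_Icc).measure_lt_top.ne
  have hg : MemLp (K.indicator fun _ => C) 2 (volume : Measure (ℝ × ℝ)) := memLp_indicator_const 2 hKm C (Or.inr hKfin)
  have hmeas : Measurable fun z : ℝ × ℝ => fzWa P X0 s0 z :=
    (fz_w_a_meas P).comp (f := fun z : ℝ × ℝ => ((X0, s0), z)) (by fun_prop)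
  refine hg.mono (Complex.measurable_ofReal.comp hmeas).aestronglyMeasurable ?_
  have hne0 : ∀ᵐ u : ℝ, u ≠ 0 := compl_mem_ae_iff.2 (measure_singleton 0)
  have hne : ∀ᵐ z : ℝ × ℝ, z.2 ≠ 0 :=
    (Measure.quasiMeasurePreserving_snd (μ := (volume : Measure ℝ)) (ν := (volume : Measure ℝ))).ae hne0
  filter_upwards [hne] with z hz
  rw [Complex.norm_real, Real.norm_eq_abs]
  by_cases hzK : z ∈ K
  · rw [Set.indicator_of_mem hzK, Real.norm_of_nonneg hC0]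
    exact hC _ _ _
  · rw [Set.indicator_of_notMem hzK, norm_zero]
    apply le_of_eq
    rw [abs_eq_zero]
    by_contra hw
    apply hzK
    unfold fzWa at hw
    have h1 := hlt2 _ (left_ne_zero_of_mul hw)
    have h2 := hlt2 _ (right_ne_zero_of_mul hw)
    rw [abs_div, abs_of_pos htX, div_lt_iff₀ htX] at h1
    rw [abs_div, abs_of_pos htS, div_lt_iff₀ htS] at h2
    have hz2 : |z.2| ≤ ρm := by
      rw [hρm, le_div_iff₀ (by positivity)]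
      have e : |z.2| * (2 * P.H) = |2 * P.H * z.2| := by
        rw [abs_mul, abs_of_pos (by positivity : 0 < 2 * P.H)]
        ring
      have := abs_sub_abs_le_abs_sub (2 * P.H * z.2) s0
      rw [e]
      linarith
    have hz1 : |z.1| ≤ R1 := by
      have hz' : |z.2| ≠ 0 := abs_ne_zero.2 hz
      have e : |z.1| = |z.1 / (2 * z.2)| * (2 * |z.2|) := by
        rw [abs_div, abs_mul, abs_two]
        field_simp
      have a1 := abs_sub_abs_le_abs_sub (z.1 / (2 * z.2)) X0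
      have a2 : |z.1 / (2 * z.2)| ≤ |X0| + 2 * P.tX := by linarith
      rw [e, hR1]
      calc |z.1 / (2 * z.2)| * (2 * |z.2|) ≤ (|X0| + 2 * P.tX) * (2 * ρm) :=
            mul_le_mul a2 (by linarith) (by positivity) (by positivity)
        _ = _ := by ring
    rw [hK]
    exact ⟨Set.mem_Icc.2 (abs_le.1 hz1), Set.mem_Icc.2 (abs_le.1 hz2)⟩

/-- LEAF `L-256-FZ-W-C3`.   `ofReal (a² b²) = ofReal a² * ofReal b²`; inner integral: `lintegral_const_mul`, `fz_w_B_win h.tS_pos (2 H z₂)`; outer: `lintegral_mul_const`, `fz_w_B_win h.tX_pos (z₁/(2 z₂))`; `ENNReal.ofReal_mul`.   Holds for EVERY `z`. -/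
theorem fz_w_a_int (P : FzP) (h : P.Ok) (z : ℝ × ℝ) :
    ∫⁻ X0 : ℝ, ∫⁻ s0 : ℝ, ENNReal.ofReal (fzWa P X0 s0 z ^ 2) = ENNReal.ofReal (P.tX * P.tS) := by
  have e : ∀ X0 s0 : ℝ, ENNReal.ofReal (fzWa P X0 s0 z ^ 2)
      = ENNReal.ofReal (fzB ((z.1 / (2 * z.2) - X0) / P.tX) ^ 2) * ENNReal.ofReal (fzB ((2 * P.H * z.2 - s0) / P.tS) ^ 2) := by
    intro X0 s0
    unfold fzWa
    rw [mul_pow, ENNReal.ofReal_mul (by positivity)]
  have e2 : ∀ X0 : ℝ, ∫⁻ s0 : ℝ, ENNReal.ofReal (fzWa P X0 s0 z ^ 2)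
      = ENNReal.ofReal (fzB ((z.1 / (2 * z.2) - X0) / P.tX) ^ 2) * ENNReal.ofReal P.tS := by
    intro X0
    rw [lintegral_congr (e X0), lintegral_const_mul' _ _ ENNReal.ofReal_ne_top, fz_w_B_win h.tS_pos]
  rw [lintegral_congr e2, lintegral_mul_const' _ _ ENNReal.ofReal_ne_top, fz_w_B_win h.tX_pos, ENNReal.ofReal_mul h.tX_pos.le]

/-! ## D. one fibre -/

/-- the square of the extended norm of a real number -/
theorem fz_wd_enorm_sq (a : ℝ) : ‖(a : ℂ)‖ₑ ^ 2 = ENNReal.ofReal (a ^ 2) := by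
  rw [← ofReal_norm, Complex.norm_real, Real.norm_eq_abs, ← ENNReal.ofReal_pow (abs_nonneg _), sq_abs]

/-- LEAF `L-256-FZ-W-D1`.   `φ = fzWa g`: integrable (`MemLp.integrable_mul` of `fz_w_a_memLp` and `hg`), in `L²` (bounded times `L²`: `MemLp.of_le_mul` / `MemLp.mono'` with `fz_w_a_le`, measurability `fz_w_a_meas`).   `fz_w_wk_eq`, `integral_const_mul`, `enorm_mul`, `mul_pow`, `lintegral_const_mul`,
`fz_w_planch`;   `‖(cW : ℂ)‖ₑ² = ofReal cW²`, `‖(a : ℂ) * w‖ₑ² = ofReal a² * ‖w‖ₑ²`. -/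
theorem fz_w_fib (P : FzP) (h : P.Ok) (g : ℝ × ℝ → ℂ) (hg : MemLp g 2 volume) (X0 s0 : ℝ) :
    ∫⁻ y : ℝ × ℝ, ‖∫ z : ℝ × ℝ, P.wk (X0, s0, y.1, y.2) z * g z‖ₑ ^ 2
      = ENNReal.ofReal (P.cW ^ 2 * (2 * Real.pi) ^ 2) * ∫⁻ z, ENNReal.ofReal (fzWa P X0 s0 z ^ 2) * ‖g z‖ₑ ^ 2 := by
  have ha := fz_w_a_memLp P h X0 s0
  obtain ⟨C, hC0, hC⟩ := fz_w_a_le P
  have h1 : Integrable (fun z : ℝ × ℝ => ((fzWa P X0 s0 z : ℝ) : ℂ) * g z) := ha.integrable_mul hg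
  have h2 : MemLp (fun z : ℝ × ℝ => ((fzWa P X0 s0 z : ℝ) : ℂ) * g z) 2 volume := by
    refine hg.of_le_mul (c := C) (ha.aestronglyMeasurable.mul hg.aestronglyMeasurable) (Filter.Eventually.of_forall fun z => ?_)
    rw [norm_mul, Complex.norm_real, Real.norm_eq_abs]
    exact mul_le_mul_of_nonneg_right (hC X0 s0 z) (norm_nonneg _)
  have hpl := fz_w_planch h1 h2
  have e1 : ∀ y : ℝ × ℝ, ‖∫ z : ℝ × ℝ, P.wk (X0, s0, y.1, y.2) z * g z‖ₑ ^ 2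
      = ENNReal.ofReal (P.cW ^ 2) * ‖∫ z : ℝ × ℝ, Complex.exp (Complex.I * ((z.1 * y.1 - z.2 * y.2 : ℝ) : ℂ))
          * (((fzWa P X0 s0 z : ℝ) : ℂ) * g z)‖ₑ ^ 2 := by
    intro y
    have e : ∀ z : ℝ × ℝ, P.wk (X0, s0, y.1, y.2) z * g z
        = (P.cW : ℂ) * (Complex.exp (Complex.I * ((z.1 * y.1 - z.2 * y.2 : ℝ) : ℂ)) * (((fzWa P X0 s0 z : ℝ) : ℂ) * g z)) := by
      intro z
      rw [fz_w_wk_eq]
      ring
    rw [integral_congr_ae (Filter.Eventually.of_forall e), integral_const_mul, enorm_mul, mul_pow, fz_wd_enorm_sq]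
  have e2 : ∀ z : ℝ × ℝ, ‖((fzWa P X0 s0 z : ℝ) : ℂ) * g z‖ₑ ^ 2 = ENNReal.ofReal (fzWa P X0 s0 z ^ 2) * ‖g z‖ₑ ^ 2 := by
    intro z
    rw [enorm_mul, mul_pow, fz_wd_enorm_sq]
  rw [lintegral_congr e1, lintegral_const_mul' _ _ ENNReal.ofReal_ne_top, hpl, lintegral_congr e2, ← mul_assoc,
    ← ENNReal.ofReal_mul (by positivity)]

/-- LEAF `L-256-FZ-W-D2`.   (`fz_kr_wk_meas`, `hg.comp_measurable`/`hg.comp_snd`, `StronglyMeasurable.integral_prod_right`) -/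
theorem fz_w_om_meas (P : FzP) (g : ℝ × ℝ → ℂ) (hg : StronglyMeasurable g) : StronglyMeasurable fun ω : FzOm => ∫ z : ℝ × ℝ, P.wk ω z * g z := by
  have h : StronglyMeasurable (fun p : FzOm × (ℝ × ℝ) => P.wk p.1 p.2 * g p.2) :=
    (fz_kr_wk_meas P).stronglyMeasurable.mul (hg.comp_measurable measurable_snd)
  exact h.integral_prod_right'

/-- LEAF `L-256-FZ-W-D3`.   `volume` on `FzOm = ℝ × ℝ × ℝ × ℝ` is the iterated product (`Measure.volume_eq_prod`): `lintegral_prod` twice (measurability: `fz_w_om_meas`) gives `∫⁻ X0, ∫⁻ s0, ∫⁻ y : ℝ × ℝ, ..`;   `fz_w_fib`;   `lintegral_const_mul`;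
Tonelli (`lintegral_lintegral_swap`, twice; measurability `fz_w_a_meas`, `hgs`) moves `∫⁻ z` outside;   `lintegral_mul_const`;   `fz_w_a_int`;   `ENNReal.ofReal_mul`. -/
theorem fz_w_om (P : FzP) (h : P.Ok) (g : ℝ × ℝ → ℂ) (hgs : StronglyMeasurable g) (hg : MemLp g 2 volume) :
    ∫⁻ ω : FzOm, ‖∫ z : ℝ × ℝ, P.wk ω z * g z‖ₑ ^ 2 = ENNReal.ofReal (P.cW ^ 2 * (2 * Real.pi) ^ 2 * (P.tX * P.tS)) * ∫⁻ z, ‖g z‖ₑ ^ 2 := by
  obtain ⟨F, hF⟩ : ∃ F : FzOm → ℝ≥0∞, F = fun ω => ‖∫ z : ℝ × ℝ, P.wk ω z * g z‖ₑ ^ 2 := ⟨_, rfl⟩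
  have hFm : Measurable F := by
    rw [hF]
    exact (fz_w_om_meas P g hgs).enorm.pow_const 2
  obtain ⟨a, ha⟩ : ∃ a : (ℝ × ℝ) × (ℝ × ℝ) → ℝ≥0∞, a = fun w => ENNReal.ofReal (fzWa P w.1.1 w.1.2 w.2 ^ 2) := ⟨_, rfl⟩
  have ham : Measurable a := by
    rw [ha]
    exact ENNReal.measurable_ofReal.comp ((fz_w_a_meas P).pow_const 2)
  obtain ⟨e, he⟩ : ∃ e : ℝ × ℝ → ℝ≥0∞, e = fun z => ‖g z‖ₑ ^ 2 := ⟨_, rfl⟩
  have hem : Measurable e := by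
    rw [he]
    exact hgs.enorm.pow_const 2
  have hΘ : Measurable fun w : (ℝ × ℝ) × (ℝ × ℝ) => a w * e w.2 := ham.mul (hem.comp measurable_snd)
  have hΨ : Measurable fun w : ℝ × ℝ => ∫⁻ z, a (w, z) * e z := hΘ.lintegral_prod_right'
  obtain ⟨K, hK⟩ : ∃ K : ℝ≥0∞, K = ENNReal.ofReal (P.cW ^ 2 * (2 * Real.pi) ^ 2) := ⟨_, rfl⟩
  have e1 : ∫⁻ ω : FzOm, F ω = ∫⁻ X0 : ℝ, ∫⁻ r : ℝ × ℝ × ℝ, F (X0, r) := lintegral_prod F hFm.aemeasurable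
  have e2 : ∀ X0 : ℝ, ∫⁻ r : ℝ × ℝ × ℝ, F (X0, r) = ∫⁻ s0 : ℝ, ∫⁻ y : ℝ × ℝ, F (X0, s0, y) := fun X0 =>
    lintegral_prod (fun r : ℝ × ℝ × ℝ => F (X0, r)) (hFm.comp measurable_prodMk_left).aemeasurable
  have e3 : ∀ X0 s0 : ℝ, ∫⁻ y : ℝ × ℝ, F (X0, s0, y) = K * ∫⁻ z, a ((X0, s0), z) * e z := by
    intro X0 s0
    rw [hF, ha, he, hK]
    exact fz_w_fib P h g hg X0 s0
  have e4 : ∫⁻ X0 : ℝ, ∫⁻ s0 : ℝ, K * ∫⁻ z, a ((X0, s0), z) * e z = ∫⁻ w : ℝ × ℝ, K * ∫⁻ z, a (w, z) * e z :=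
    (lintegral_prod (fun w : ℝ × ℝ => K * ∫⁻ z, a (w, z) * e z) (hΨ.const_mul K).aemeasurable).symm
  have e5 : ∫⁻ w : ℝ × ℝ, ∫⁻ z : ℝ × ℝ, a (w, z) * e z = ∫⁻ z : ℝ × ℝ, ∫⁻ w : ℝ × ℝ, a (w, z) * e z :=
    lintegral_lintegral_swap hΘ.aemeasurable
  have e6 : ∀ z : ℝ × ℝ, ∫⁻ w : ℝ × ℝ, a (w, z) * e z = ENNReal.ofReal (P.tX * P.tS) * e z := by
    intro z
    have hm : Measurable fun w : ℝ × ℝ => a (w, z) := ham.comp measurable_prodMk_right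
    rw [lintegral_mul_const _ hm]
    congr 1
    have : ∫⁻ w : ℝ × ℝ, a (w, z) = ∫⁻ X0 : ℝ, ∫⁻ s0 : ℝ, a ((X0, s0), z) := lintegral_prod (fun w : ℝ × ℝ => a (w, z)) hm.aemeasurable
    rw [this, ha]
    exact fz_w_a_int P h z
  have hc : 0 ≤ P.cW ^ 2 * (2 * Real.pi) ^ 2 := by positivity
  calc ∫⁻ ω : FzOm, ‖∫ z : ℝ × ℝ, P.wk ω z * g z‖ₑ ^ 2 = ∫⁻ ω : FzOm, F ω := by rw [hF]
    _ = ∫⁻ X0 : ℝ, ∫⁻ s0 : ℝ, K * ∫⁻ z, a ((X0, s0), z) * e z := by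
        rw [e1]
        refine lintegral_congr fun X0 => ?_
        rw [e2]
        exact lintegral_congr fun s0 => e3 X0 s0
    _ = K * ∫⁻ z : ℝ × ℝ, ∫⁻ w : ℝ × ℝ, a (w, z) * e z := by
        rw [e4, lintegral_const_mul _ hΨ, e5]
    _ = K * (ENNReal.ofReal (P.tX * P.tS) * ∫⁻ z, e z) := by
        rw [lintegral_congr e6, lintegral_const_mul _ hem]
    _ = ENNReal.ofReal (P.cW ^ 2 * (2 * Real.pi) ^ 2 * (P.tX * P.tS)) * ∫⁻ z, ‖g z‖ₑ ^ 2 := by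
        rw [hK, he, ← mul_assoc, ← ENNReal.ofReal_mul hc]

/-! ## E. slices, measurability, the energy identity -/

/-- LEAF `L-256-FZ-W-E1`.   `fz_g4_fib P.fs h.fs_pos (fun q => ‖G q‖ₑ ^ 2)` is finite (`hG.eLpNorm_lt_top`, `rt_w1c_eLp_sq`), so the inner integral is finite for a.e. `u` (`ae_lt_top`, measurability of the inner integral: `Measurable.lintegral_prod_right`);   the slice is strongly measurable (`hGs.comp_measurable`). -/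
theorem fz_w_sl_memLp (P : FzP) (h : P.Ok) (G : RdWvPar.Mo → ℂ) (hGs : StronglyMeasurable G) (hG : MemLp G 2 volume) :
    ∀ᵐ u : ℝ, MemLp (fun z : ℝ × ℝ => G ((z.1, u / P.fs), z.2)) 2 volume := by
  have hm : Measurable fun q : RdWvPar.Mo => ‖G q‖ₑ ^ 2 := (hGs.measurable.enorm).pow_const 2
  have hf := fz_g4_fib P.fs h.fs_pos (fun q => ‖G q‖ₑ ^ 2) hm
  have hfin : ∫⁻ q, ‖G q‖ₑ ^ 2 < ∞ := by
    rw [← rt_w1c_eLp_sq]
    exact ENNReal.pow_lt_top hG.eLpNorm_lt_top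
  have hne : ∫⁻ u : ℝ, ∫⁻ z : ℝ × ℝ, ‖G ((z.1, u / P.fs), z.2)‖ₑ ^ 2 ≠ ∞ := by
    rw [hf]
    exact (ENNReal.mul_lt_top ENNReal.ofReal_lt_top hfin).ne
  have hmi : Measurable fun u : ℝ => ∫⁻ z : ℝ × ℝ, ‖G ((z.1, u / P.fs), z.2)‖ₑ ^ 2 := by
    have h0 : Measurable (fun p : ℝ × (ℝ × ℝ) => ‖G ((p.2.1, p.1 / P.fs), p.2.2)‖ₑ ^ 2) := hm.comp (by fun_prop)
    exact h0.lintegral_prod_right'
  filter_upwards [ae_lt_top hmi hne] with u hu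
  refine ⟨(hGs.comp_measurable (by fun_prop)).aestronglyMeasurable, ?_⟩
  rw [← rt_w1c_eLp_sq] at hu
  by_contra hn
  rw [not_lt, top_le_iff] at hn
  rw [hn] at hu
  simp at hu

/-- LEAF `L-256-FZ-W-E2`.   (`fz_kr_wk_meas`, `hG.comp_measurable`, `StronglyMeasurable.integral_prod_right`) -/
theorem fz_w_f_meas (P : FzP) (G : RdWvPar.Mo → ℂ) (hG : StronglyMeasurable G) : StronglyMeasurable (fzWf P G) := by
  have h1 : Measurable fun p : (FzOm × ℝ) × (ℝ × ℝ) => P.wk p.1.1 p.2 :=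
    (fz_kr_wk_meas P).comp (f := fun p : (FzOm × ℝ) × (ℝ × ℝ) => (p.1.1, p.2)) (by fun_prop)
  have h : StronglyMeasurable (fun p : (FzOm × ℝ) × (ℝ × ℝ) => P.wk p.1.1 p.2 * G ((p.2.1, p.1.2 / P.fs), p.2.2)) :=
    h1.stronglyMeasurable.mul (hG.comp_measurable (by fun_prop))
  exact h.integral_prod_right'

/-- LEAF `L-256-FZ-W-E3`.   `cW = (√((2π)² tX tS fs))⁻¹`: `Real.sq_sqrt`, `field_simp`. -/
theorem fz_w_const (P : FzP) (h : P.Ok) : P.cW ^ 2 * (2 * Real.pi) ^ 2 * (P.tX * P.tS) * P.fs = 1 := by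
  have h1 := h.tX_pos
  have h2 := h.tS_pos
  have h3 := h.fs_pos
  have hp : 0 < (2 * Real.pi) ^ 2 * P.tX * P.tS * P.fs := by positivity
  unfold FzP.cW
  rw [inv_pow, Real.sq_sqrt hp.le]
  field_simp

/-- **the energy identity** (GLUE, helper185) -/
theorem fz_w_energy (P : FzP) (h : P.Ok) (G : RdWvPar.Mo → ℂ) (hGs : StronglyMeasurable G) (hG : MemLp G 2 volume) :
    ∫⁻ x, ‖fzWf P G x‖ₑ ^ 2 ∂((volume : Measure FzOm).prod (volume : Measure ℝ)) = ∫⁻ q, ‖G q‖ₑ ^ 2 := by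
  have hm : Measurable fun x : FzOm × ℝ => ‖fzWf P G x‖ₑ ^ 2 := ((fz_w_f_meas P G hGs).enorm).pow_const 2
  rw [lintegral_prod_symm _ hm.aemeasurable]
  have hsl : ∀ u : ℝ, StronglyMeasurable fun z : ℝ × ℝ => G ((z.1, u / P.fs), z.2) := fun u =>
    hGs.comp_measurable (by fun_prop)
  have e1 : ∀ᵐ u : ℝ, ∫⁻ ω : FzOm, ‖fzWf P G (ω, u)‖ₑ ^ 2
      = ENNReal.ofReal (P.cW ^ 2 * (2 * Real.pi) ^ 2 * (P.tX * P.tS)) * ∫⁻ z : ℝ × ℝ, ‖G ((z.1, u / P.fs), z.2)‖ₑ ^ 2 := by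
    filter_upwards [fz_w_sl_memLp P h G hGs hG] with u hu
    exact fz_w_om P h _ (hsl u) hu
  rw [lintegral_congr_ae e1]
  have hmG : Measurable fun q : RdWvPar.Mo => ‖G q‖ₑ ^ 2 := hGs.enorm.pow_const 2
  have hin : Measurable fun u : ℝ => ∫⁻ z : ℝ × ℝ, ‖G ((z.1, u / P.fs), z.2)‖ₑ ^ 2 := by
    have : Measurable fun w : ℝ × (ℝ × ℝ) => ‖G ((w.2.1, w.1 / P.fs), w.2.2)‖ₑ ^ 2 := hmG.comp (by fun_prop)
    exact this.lintegral_prod_right'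
  rw [lintegral_const_mul _ hin, fz_g4_fib P.fs h.fs_pos _ hmG, ← mul_assoc, ← ENNReal.ofReal_mul (by have := h.tX_pos; have := h.tS_pos; positivity),
    fz_w_const P h, ENNReal.ofReal_one, one_mul]

/-! ## F. linearity -/

/-- a property of almost every `u` holds almost everywhere on `FzOm × ℝ` -/
theorem fz_w_ae_snd {p : ℝ → Prop} (hp : ∀ᵐ u : ℝ, p u) : ∀ᵐ x ∂((volume : Measure FzOm).prod (volume : Measure ℝ)), p x.2 :=
  Measure.quasiMeasurePreserving_snd.ae hp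

/-- LEAF `L-256-FZ-W-F1`.   `fz_kr_map_ae h.fs_pos hGG` : for a.e. `u` the slices agree a.e.; `integral_congr_ae`; `fz_w_ae_snd`. -/
theorem fz_w_f_congr (P : FzP) (h : P.Ok) {G G' : RdWvPar.Mo → ℂ} (hGG : G =ᵐ[volume] G') :
    fzWf P G =ᵐ[(volume : Measure FzOm).prod (volume : Measure ℝ)] fzWf P G' := by
  have hGG' : ∀ᵐ q : RdWvPar.Mo, G q = G' q := hGG
  have h1 : ∀ᵐ u : ℝ, ∀ᵐ z : ℝ × ℝ, G ((z.1, u / P.fs), z.2) = G' ((z.1, u / P.fs), z.2) := fz_kr_map_ae h.fs_pos hGG'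
  filter_upwards [fz_w_ae_snd h1] with x hx
  show ∫ z : ℝ × ℝ, P.wk x.1 z * G ((z.1, x.2 / P.fs), z.2) = ∫ z : ℝ × ℝ, P.wk x.1 z * G' ((z.1, x.2 / P.fs), z.2)
  refine integral_congr_ae ?_
  filter_upwards [hx] with z hz
  rw [hz]

theorem fz_wf_pair_meas (ω : FzOm) : Measurable fun z : ℝ × ℝ => ((ω, z) : FzOm × ℝ × ℝ) := measurable_prodMk_left

theorem fz_wf_wk_meas (P : FzP) (ω : FzOm) : Measurable fun z : ℝ × ℝ => P.wk ω z := by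
  have h := (fz_kr_wk_meas P).comp (fz_wf_pair_meas ω)
  exact h

theorem fz_wf_wk_memLp (P : FzP) (h : P.Ok) (ω : FzOm) : MemLp (fun z : ℝ × ℝ => P.wk ω z) 2 volume := by
  refine MemLp.of_le_mul (c := |P.cW|) (fz_w_a_memLp P h ω.1 ω.2.1) (fz_wf_wk_meas P ω).aestronglyMeasurable (Filter.Eventually.of_forall fun z => ?_)
  rw [fz_w_wk_eq, norm_mul, norm_mul, Complex.norm_real, Real.norm_eq_abs, mul_comm Complex.I, Complex.norm_exp_ofReal_mul_I, one_mul]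

/-- LEAF `L-256-FZ-W-F2`.   For every `ω`: `z ↦ wk ω z` is in `L²` (`fz_w_wk_eq`, `fz_w_a_memLp`, unimodular factor: `MemLp.of_le_mul`/`memLp_congr_norm`, measurability `fz_kr_wk_meas`), so `wk ω · g` is integrable (`MemLp.integrable_mul`). -/
theorem fz_w_f_int (P : FzP) (h : P.Ok) (ω : FzOm) (g : ℝ × ℝ → ℂ) (hg : MemLp g 2 volume) : Integrable fun z : ℝ × ℝ => P.wk ω z * g z := by
  exact (fz_wf_wk_memLp P h ω).integrable_mul hg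

/-- LEAF `L-256-FZ-W-F3`.   For a.e. `u` both slices are in `L²` (`fz_w_sl_memLp`); `mul_add`, `integral_add` (`fz_w_f_int`); `fz_w_ae_snd`. -/
theorem fz_w_f_add (P : FzP) (h : P.Ok) (G G' : RdWvPar.Mo → ℂ) (hGs : StronglyMeasurable G) (hG : MemLp G 2 volume) (hGs' : StronglyMeasurable G') (hG' : MemLp G' 2 volume) :
    fzWf P (G + G') =ᵐ[(volume : Measure FzOm).prod (volume : Measure ℝ)] fzWf P G + fzWf P G' := by
  filter_upwards [fz_w_ae_snd (fz_w_sl_memLp P h G hGs hG), fz_w_ae_snd (fz_w_sl_memLp P h G' hGs' hG')] with x h1 h2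
  show ∫ z : ℝ × ℝ, P.wk x.1 z * (G ((z.1, x.2 / P.fs), z.2) + G' ((z.1, x.2 / P.fs), z.2))
    = (∫ z : ℝ × ℝ, P.wk x.1 z * G ((z.1, x.2 / P.fs), z.2)) + ∫ z : ℝ × ℝ, P.wk x.1 z * G' ((z.1, x.2 / P.fs), z.2)
  rw [← integral_add (fz_w_f_int P h x.1 _ h1) (fz_w_f_int P h x.1 _ h2)]
  refine integral_congr_ae (Filter.Eventually.of_forall fun z => ?_)
  show P.wk x.1 z * (G ((z.1, x.2 / P.fs), z.2) + G' ((z.1, x.2 / P.fs), z.2)) = _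
  rw [mul_add]

/-- LEAF `L-256-FZ-W-F3`.   (`integral_const_mul`, `mul_left_comm`) -/
theorem fz_w_f_smul (P : FzP) (c : ℂ) (G : RdWvPar.Mo → ℂ) : fzWf P (c • G) = c • fzWf P G := by
  funext x
  show ∫ z : ℝ × ℝ, P.wk x.1 z * (c * G ((z.1, x.2 / P.fs), z.2)) = c * ∫ z : ℝ × ℝ, P.wk x.1 z * G ((z.1, x.2 / P.fs), z.2)
  rw [← integral_const_mul]
  refine integral_congr_ae (Filter.Eventually.of_forall fun z => ?_)
  show P.wk x.1 z * (c * G ((z.1, x.2 / P.fs), z.2)) = c * (P.wk x.1 z * G ((z.1, x.2 / P.fs), z.2))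
  ring

/-! ## G. the operator -/

/-- LEAF `L-256-FZ-W-G1`.   GENERIC: a family of `L²` functions which is a.e. additive, a.e. homogeneous and norm preserving comes from a bounded operator.   `LinearMap.mkContinuous ⟨⟨fun G => (hm G).toLp _, ..⟩, ..⟩ 1 ..`;   equalities in `Lp` by `Lp.ext` + `MemLp.coeFn_toLp`, `Lp.coeFn_add`, `Lp.coeFn_smul`;
the norm: `Lp.norm_toLp`, `eLpNorm` from the `lintegral` of the square (`rt_w1c_eLp_sq`).   Model: `rt_w1c_exists`. -/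
theorem fz_w_mk {X Y : Type} [MeasurableSpace X] [MeasurableSpace Y] (μ : Measure X) (ν : Measure Y) (Φ : Lp ℂ 2 μ → Y → ℂ)
    (hm : ∀ G, AEStronglyMeasurable (Φ G) ν) (he : ∀ G, ∫⁻ y, ‖Φ G y‖ₑ ^ 2 ∂ν = ∫⁻ x, ‖(G : X → ℂ) x‖ₑ ^ 2 ∂μ)
    (ha : ∀ G G', Φ (G + G') =ᵐ[ν] Φ G + Φ G') (hs : ∀ (c : ℂ) G, Φ (c • G) =ᵐ[ν] c • Φ G) :
    ∃ L : Lp ℂ 2 μ →L[ℂ] Lp ℂ 2 ν, (∀ G, (L G : Y → ℂ) =ᵐ[ν] Φ G) ∧ ∀ G, ‖L G‖ = ‖G‖ := by
  have hsq : ∀ {Z : Type} [MeasurableSpace Z] (m : Measure Z) (f : Z → ℂ),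
      eLpNorm f 2 m = (∫⁻ z, ‖f z‖ₑ ^ 2 ∂m) ^ (1 / 2 : ℝ) := by
    intro Z _ m f
    rw [eLpNorm_eq_lintegral_rpow_enorm_toReal (by norm_num) (by norm_num)]
    simp
  have hn : ∀ G, eLpNorm (Φ G) 2 ν = eLpNorm (G : X → ℂ) 2 μ := fun G => by rw [hsq, hsq, he]
  have hL : ∀ G, MemLp (Φ G) 2 ν := fun G => ⟨hm G, by rw [hn]; exact (Lp.memLp G).2⟩
  let L0 : Lp ℂ 2 μ →ₗ[ℂ] Lp ℂ 2 ν :=
    { toFun := fun G => (hL G).toLp _
      map_add' := fun G G' => by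
        apply Lp.ext
        filter_upwards [(hL (G + G')).coeFn_toLp, (hL G).coeFn_toLp, (hL G').coeFn_toLp,
          Lp.coeFn_add ((hL G).toLp _) ((hL G').toLp _), ha G G'] with y h1 h2 h3 h4 h5
        rw [h1, h4, h5, Pi.add_apply, Pi.add_apply, h2, h3]
      map_smul' := fun c G => by
        apply Lp.ext
        filter_upwards [(hL (c • G)).coeFn_toLp, (hL G).coeFn_toLp,
          Lp.coeFn_smul c ((hL G).toLp _), hs c G] with y h1 h2 h4 h5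
        rw [h1, RingHom.id_apply, h4, h5, Pi.smul_apply, Pi.smul_apply, h2] }
  have hnorm : ∀ G, ‖L0 G‖ = ‖G‖ := fun G => by
    show ‖(hL G).toLp _‖ = ‖G‖
    rw [Lp.norm_toLp, hn, Lp.norm_def]
  exact ⟨L0.mkContinuous 1 (fun G => by rw [hnorm, one_mul]), fun G => (hL G).coeFn_toLp, hnorm⟩

/-- the formula defines an isometry (GLUE, helper185) -/
theorem fz_w_exists (P : FzP) (h : P.Ok) :
    ∃ L : Lp ℂ 2 (volume : Measure RdWvPar.Mo) →L[ℂ] Lp ℂ 2 ((volume : Measure FzOm).prod (volume : Measure ℝ)),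
      (∀ G, (L G : FzOm × ℝ → ℂ) =ᵐ[(volume : Measure FzOm).prod (volume : Measure ℝ)] P.wf G) ∧ ∀ G, ‖L G‖ = ‖G‖ := by
  refine fz_w_mk (volume : Measure RdWvPar.Mo) ((volume : Measure FzOm).prod (volume : Measure ℝ)) (fun G => P.wf G) ?_ ?_ ?_ ?_
  · intro G
    exact (fz_w_f_meas P _ (Lp.stronglyMeasurable G)).aestronglyMeasurable
  · intro G
    exact fz_w_energy P h _ (Lp.stronglyMeasurable G) (Lp.memLp G)
  · intro G G'
    have e1 : fzWf P ((G + G' : Lp ℂ 2 (volume : Measure RdWvPar.Mo)) : RdWvPar.Mo → ℂ)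
        =ᵐ[(volume : Measure FzOm).prod (volume : Measure ℝ)] fzWf P ((G : RdWvPar.Mo → ℂ) + (G' : RdWvPar.Mo → ℂ)) :=
      fz_w_f_congr P h (Lp.coeFn_add G G')
    exact e1.trans (fz_w_f_add P h _ _ (Lp.stronglyMeasurable G) (Lp.memLp G) (Lp.stronglyMeasurable G') (Lp.memLp G'))
  · intro c G
    have e1 : fzWf P ((c • G : Lp ℂ 2 (volume : Measure RdWvPar.Mo)) : RdWvPar.Mo → ℂ)
        =ᵐ[(volume : Measure FzOm).prod (volume : Measure ℝ)] fzWf P (c • (G : RdWvPar.Mo → ℂ)) :=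
      fz_w_f_congr P h (Lp.coeFn_smul c G)
    refine e1.trans ?_
    rw [fz_w_f_smul]
    rfl

/-- **EXIT**: `fzW P` is the formula -/
theorem fz_w_spec (P : FzP) (h : P.Ok) (G : Lp ℂ 2 (volume : Measure RdWvPar.Mo)) :
    (fzW P G : FzOm × ℝ → ℂ) =ᵐ[(volume : Measure FzOm).prod (volume : Measure ℝ)] P.wf G := by
  have hex : ∃ L : Lp ℂ 2 (volume : Measure RdWvPar.Mo) →L[ℂ] Lp ℂ 2 ((volume : Measure FzOm).prod (volume : Measure ℝ)),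
      ∀ G, (L G : FzOm × ℝ → ℂ) =ᵐ[(volume : Measure FzOm).prod (volume : Measure ℝ)] P.wf G := by
    obtain ⟨L, hL, -⟩ := fz_w_exists P h
    exact ⟨L, hL⟩
  unfold fzW
  rw [dif_pos hex]
  exact hex.choose_spec G

/-- **EXIT** (= `fz_w_iso` of `Fz/Seam.lean`) -/
theorem fz_wx_iso (P : FzP) (h : P.Ok) (G : Lp ℂ 2 (volume : Measure RdWvPar.Mo)) : ‖fzW P G‖ = ‖G‖ := by
  obtain ⟨L, hL, hn⟩ := fz_w_exists P h
  have e : fzW P G = L G := Lp.ext ((fz_w_spec P h G).trans (hL G).symm)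
  rw [e, hn]

end Claimed.Agent.R256
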