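-- KEEP
import Claimed.Agent.R256.Fz.KDefs
import Claimed.Agent.R256.Fz.KAmp
import Claimed.Agent.R256.Fz.KDec
import Claimed.Agent.R256.Fz.KSc
import Claimed.Agent.R256.Fz.KRep
import Claimed.Agent.R256.Fz.WCore

/-!
# Row 256 (LS paper), folder Fz = WAVE FREEZE, unit FZ-K, file KContract : THE EXITS OF THE UNIT          (architect helper295; chief helper207; prefix `fz_k_`)          CONTRACT FILE

Definitions and the substitution: header of `Fz/KDefs.lean`.      EXITS for FZ-OFF (helper256): `fz_k_maj` (PROVED here from the three seams), `fz_k_rep`.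
SEAMS (each one = a post with its own sub-architect; statements FROZEN, changes only through helper295):
* `fz_k_scale`   (helper250, files `Fz/KSc*.lean`)      kernel `=` normalisation `*` unimodular constant `*` model integral.      Clone of `rt_k_pk_mul`, `rt_k_cov_i`, `rt_k_scale` (`Rt/Ker.lean`).
* `fz_k_rep`     (helper250, files `Fz/KRep*.lean`)     `fzC0 F = ∫ fzK · z F z d rw` for integrable `F`.      Clone of `rt_k_syn`, `rt_k_rep`; uses the exits of FZ-W (helper12) and `hy_an_row` (`Hyb/Inst.lean`).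
* `fz_k_zero`, `fz_k_decay`   (helper30, files `Fz/KDec*.lean`)      support and uniform decay of the model integral, POLYNOMIAL decay in the non compact parameter `a2`.      Clone of `rt_k_b_supp`, `rt_k_b_smooth`, `rt_k_I_eq`, `rt_k_decay_one`, `rt_k_decay`.
-/

set_option autoImplicit false

namespace Claimed.Agent.R256

open MeasureTheory
open scoped ENNReal ComplexConjugate

/-- SEAM `BP-256-FZ-K-SC` (helper250).  **the scaling identity.**
PLAN.  (1) product of the packets: `pk_round x q * conj (P.pk a T k z q) = (real amplitude) * exp (I * phase)` (`Complex.exp_conj`, `Complex.exp_add`; in the band `sg = max 1 (min 2 (s0/a)) = s0/a`).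
(2) change of variables `q = ((2ρ X0 + (tX/H) ζ₁, ζ₂/q_ℓ + s0 A₂/H), ρ)`, `ρ = (s0 + tS s)/(2H)`: a measurable equivalence which scales the volume by `(tX/H)(1/q_ℓ)(tS/2H)` (no integrability needed: clone `rt_k_cov_l2`, `rt_k_cov_i`:
    Tonelli, first the affine substitutions in `ξ₁, ξ₂` at fixed `ρ`, then the affine substitution in `ρ`).
(3) POINTWISE identity of the integrands (list in the header of `KDefs.lean`; checked numerically).   Case `s0 + tS s ≤ 0`: `rdChi β (H ρ) = 0` on both sides (`rd_chi_supp`).   Otherwise `field_simp; ring` with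
    `rdQ H k * rdD H k = H`, `rdQ H k ^ 2 = H * rdLen k`, `rdD H k ^ 2 = H / rdLen k`, `(fzHy P a).ql k ^ 2 = H/(fs² a) / 2^k`, `rdLen k = (2⁻¹)^k`.      EST 450 l. -/
theorem fz_k_scale (P : FzP) (h : P.Ok) (a T : ℝ) (k β : ℕ) (x : RdWvPar.Ph) (z : FzRw) (ha : 0 < a) (hz : z.1 ∈ fzBand a) :
    fzK P h a T k β x z = ((fzKN P a k : ℝ) : ℂ) * Complex.exp (Complex.I * ((fzKth P T x z : ℝ) : ℂ))
      * fzKI β a (fzKa2 P k x z) (fzKpr P T k x z) (fzKX P T k x z) (fzKY P T x z) :=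
  fz_ks_scale P h a T k β x z ha hz

/-- SEAM `BP-256-FZ-K-REP` (helper250).  **the kernel formula** for integrable row functions.
PLAN.  `J := An_hyb(T,k) ∘ fzCut (fzBand a) ∘ fzW P`.   (1) ROW FORMULA: `(J G)(z) = 1[ω ∈ band] ∫ P.pk a T k z q * G q dq` a.e. (`hy_an_row`, `fz_cut` spec, `fz_w_spec`, Fubini: `q ↦ P.pk a T k z q` is in `L²(Mo)`: bounded, compact support in `(ξ₁, ρ)`, Gaussian in `ξ₂`).
(2) `fzC0 F = An_round (J^* F)` (adjoint of a composition; `fzCut` is self adjoint).   (3) SYNTHESIS: `J^* F = ∫ conj (P.pk a T k z ·) 1[band] F z d rw` a.e. for integrable `F` (as `rt_k_syn`: test against indicators of sets of finite measure).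
(4) `rt_w1c_an` + Fubini (as `rt_k_rep`: the round packet has compact support in `q`).      EST 700 l. -/
theorem fz_k_rep (P : FzP) (h : P.Ok) (a T : ℝ) (k β : ℕ) (ha : 0 < a) (F : Lp ℂ 2 (fzHy P a).rw) (hF : Integrable (F : FzRw → ℂ) (fzHy P a).rw) :
    (fzC0 P h a T k β F : RdWvPar.Ph → ℂ) =ᵐ[(P.rd h).rw k] fun x => ∫ z, fzK P h a T k β x z * (F : FzRw → ℂ) z ∂(fzHy P a).rw :=
  fz_kr_rep_c P h a T k β ha (fz_w_spec P h) F hF

/-- SEAM `BP-256-FZ-K-DEC` (helper30).  the amplitude vanishes for `|a1| > 3`      (`|lam ζ₁/σ - a1| < √2` by `rd_psi_supp`, `|ζ₁/σ| < √2` by the support of `fzB`, `lam ≤ 1`).      EST 80 l. -/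
theorem fz_k_zero (β : ℕ) (a a2 : ℝ) (π : FzKp) (h0 : 0 ≤ π.lam) (h1 : π.lam ≤ 1) (h3 : 3 < |π.a1|) (X : ℝ × ℝ) (Y : ℝ) : fzKI β a a2 π X Y = 0 :=
  fz_k_zero' β a a2 π h0 h1 h3 X Y

/-- SEAM `BP-256-FZ-K-DEC` (helper30).  **uniform decay of the model integral.**
PLAN.  `fzKB β π w` is jointly smooth in `(w, π)` (nine real parameters; guard `rdChi β (σ/2)`, as `rt_k_b_smooth`), supported in a fixed compact set of `w` for `π.Ok a` (`σ/2 < 2^(β+5)`, `s² < 2`, `|ζ₁| < √2 σ`, `|ζ₂ - mu s| < √2 σ`), `|a1| ≤ 3` or zero.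
NON COMPACT PARAMETER `a2`: EITHER a version of `ls_unif_decay2` with a smooth multiplier `g` whose derivatives of order `≤ L` are `≤ c` on `KW` (proof of `ls_ud_M`, `ls_ud_pow` + `norm_iteratedFDeriv_mul_le`; conclusion `≤ C c`)
 and `(1 + |a2|)^N |∂^j exp(-(t + a2)²/(2a))| ≤ C` for `|t| ≤ c0` (`Polynomial.deriv_gaussian_eq_hermite_mul_gaussian`),
OR (plan 951) Gaussian = superposition of characters + Peetre for the decay in `(X, Y)`, the trivial bound for the decay in `a2`, geometric mean (apply both with `2N`).      Sum over `β ≤ bm` as in `rt_k_decay`.      EST 900 l. -/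
theorem fz_k_decay (bm N : ℕ) (a : ℝ) (ha : 0 < a) : ∃ C : ℝ, 0 ≤ C ∧ ∀ β : ℕ, β ≤ bm → ∀ (a2 : ℝ) (π : FzKp), π.Ok a → ∀ (X : ℝ × ℝ) (Y : ℝ),
    ‖fzKI β a a2 π X Y‖ ≤ C * (((1 + |a2|) ^ N)⁻¹ * rtKW N (X, Y)) :=
  fz_kd_main bm N a ha

/-- the parameters of a pair of rows lie in the compact family -/
theorem fz_k_par_ok (P : FzP) (h : P.Ok) (a T : ℝ) (k : ℕ) (x : RdWvPar.Ph) (z : FzRw) (ha : 0 < a) (hz : z.1 ∈ fzBand a)
    (hr : FzKReg P a T k x.1.2) : (fzKpr P T k x z).Ok a := by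
  have hH := h.H_pos
  have hl := rdLen_pos k
  obtain ⟨hq, hq2⟩ := rt_k_q_pos hH k
  obtain ⟨hd, hd2⟩ := rt_k_d_pos hH k
  have hs0 : 0 < z.1.2.1 := lt_of_lt_of_le ha hz.1
  have hTS : 0 ≤ T * P.tS := mul_nonneg hr.T0 h.tS_pos.le
  have hm1 : 0 ≤ T * P.tS * z.1.2.1 * x.1.2 ^ 2 / P.H ∧ T * P.tS * z.1.2.1 * x.1.2 ^ 2 / P.H ≤ 1 := by
    refine ⟨by positivity, ?_⟩
    rw [div_le_one hH]
    have h1 : T * P.tS * z.1.2.1 * x.1.2 ^ 2 = z.1.2.1 * (T * P.tS * x.1.2 ^ 2) := by ring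
    rw [h1]
    have h2 : 0 ≤ T * P.tS * x.1.2 ^ 2 := by positivity
    calc z.1.2.1 * (T * P.tS * x.1.2 ^ 2) ≤ 2 * a * (T * P.tS * x.1.2 ^ 2) := mul_le_mul_of_nonneg_right hz.2.le h2
      _ ≤ P.H := hr.fr1
  have hm3 : 0 ≤ T * P.tS / (z.1.2.1 * rdLen k) ∧ T * P.tS / (z.1.2.1 * rdLen k) ≤ 1 := by
    refine ⟨by positivity, ?_⟩
    rw [div_le_one (by positivity)]
    exact hr.fr3.trans (mul_le_mul_of_nonneg_right hz.1 hl.le)
  refine ⟨by simp only [fzKpr]; exact div_nonneg h.tX_pos.le hd.le, by simp only [fzKpr]; exact (div_le_one hd).2 hr.tX_d,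
    by simp only [fzKpr]; exact div_nonneg (mul_nonneg hr.T0 (sq_nonneg _)) hH.le, by simp only [fzKpr]; exact (div_le_one hH).2 hr.disp,
    hz.1, hz.2.le, h.tS_pos.le, hr.tS1, ?_, ?_, ?_, ?_⟩
  · simp only [fzKpr]
    rw [abs_of_nonneg hm1.1]
    exact hm1.2
  · simp only [fzKpr]
    have e : (T * P.tS * x.1.2 / rdQ P.H k) ^ 2 = (T * P.tS * z.1.2.1 * x.1.2 ^ 2 / P.H) * (T * P.tS / (z.1.2.1 * rdLen k)) := by
      rw [div_pow, hq2]
      field_simp
    have h1 : (T * P.tS * x.1.2 / rdQ P.H k) ^ 2 ≤ 1 ^ 2 := by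
      rw [e, one_pow]
      exact mul_le_one₀ hm1.2 hm3.1 hm3.2
    exact abs_le_of_sq_le_sq h1 (by norm_num)
  · simp only [fzKpr]
    rw [abs_of_nonneg hm3.1]
    exact hm3.2
  · simp only [fzKpr]
    rw [abs_div, abs_mul, abs_of_pos h.tS_pos, abs_of_pos hd]
    exact (div_le_one hd).2 hr.mu

theorem fz_k_N_nonneg (P : FzP) (h : P.Ok) (a : ℝ) (k : ℕ) : 0 ≤ fzKN P a k := by
  have hH := h.H_pos
  obtain ⟨hq, -⟩ := rt_k_q_pos hH k
  have h1 := h.fs_pos
  have h2 := h.tX_pos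
  have h3 := h.tS_pos
  have hc : 0 ≤ P.cW := by
    unfold FzP.cW
    positivity
  unfold fzKN
  positivity

/-- **EXIT: the majorant of the cross kernel.**      The constant depends only on the bound `bm` of the generations, the order `N` and the band `a`. -/
theorem fz_k_maj (bm N : ℕ) (a : ℝ) (ha : 0 < a) : ∃ C : ℝ, 0 ≤ C ∧ ∀ (P : FzP) (h : P.Ok) (T : ℝ) (k β : ℕ) (x : RdWvPar.Ph) (z : FzRw), β ≤ bm →
    FzKReg P a T k x.1.2 → ‖fzK P h a T k β x z‖ ≤ C * fzKM P a T k N x z := by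
  obtain ⟨C, hC, hdec⟩ := fz_k_decay bm N a ha
  refine ⟨C, hC, fun P h T k β x z hβ hr => ?_⟩
  by_cases hz : z.1 ∈ fzBand a
  · have hok := fz_k_par_ok P h a T k x z ha hz hr
    have hN := fz_k_N_nonneg P h a k
    rw [fz_k_scale P h a T k β x z ha hz, norm_mul, norm_mul, Complex.norm_real, Real.norm_eq_abs, abs_of_nonneg hN, rt_w1c_norm_exp, mul_one]
    unfold fzKM
    by_cases h3 : |(x.1.1 - z.1.1) / rdD P.H k| ≤ 3
    · rw [if_pos ⟨h3, hz⟩]
      calc fzKN P a k * ‖fzKI β a (fzKa2 P k x z) (fzKpr P T k x z) (fzKX P T k x z) (fzKY P T x z)‖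
          ≤ fzKN P a k * (C * (((1 + |fzKa2 P k x z|) ^ N)⁻¹ * rtKW N (fzKX P T k x z, fzKY P T x z))) :=
            mul_le_mul_of_nonneg_left (hdec β hβ _ _ hok _ _) hN
        _ = _ := by ring
    · rw [if_neg fun hc => h3 hc.1, fz_k_zero β a _ _ hok.lam0 hok.lam1 (not_le.1 h3), norm_zero, mul_zero, mul_zero]
  · unfold fzK fzKM
    rw [if_neg hz, if_neg fun hc => hz hc.2, norm_zero, mul_zero]

end Claimed.Agent.R256
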