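-- KEEP
import Claimed.Agent.R256.Fz.Defs

/-!
# Row 256 (LS paper), folder Fz, unit FZ-OFF (07 l.1108-1166 "Off-diagonal bounds"), file OffDefs : VOCABULARY          (architect helper256; chief helper207; prefix `fz_off_`, defs `fzD*`, `fzO*`, `FzSc`)          DEFINITIONS ONLY

Round row `z = (A, b, y)`, flat coordinates `(X, B, Y, N, D) = (A₁, b₁, y, A₂/fs, b₂/fs)`.      Hybrid row `z' = (ω, D', N')`, `ω = (X0, s0, B0, Y0)`; instantaneous coordinates at the time `T`: `(X0, B0 + T X0, Y0 + T X0², N', D')`.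
* THE FIVE MISMATCHES   `fzDx = X0 - A₁`,   `fzDb = b₁ - B0 - T X0`,   `fzDz = (y - Y0 - T X0²) - 2 X0 Db` (tilt corrected),   `fzDd = D - D'`,   `fzDn = N' - N`.
* `FzSc`       five positive scales `eX, eB, eY, eD, eN`.      THE SCALES OF THE CROSS KERNEL (majorant `fzKM` of `Fz/KDefs.lean`, helper295): `fzSc P a k` : `eX = 3 d_ℓ`, `eB = H/tX`, `eY = 2H/tS`, `eD = q_ℓ/fs = √(Hf ℓ)`, `eN = d_ℓ/(a fs)`.
* `fzOw N t`   the weight `(1 + |t|)^-N`.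
* `fzOM fs a T σ N z z'`   THE PRODUCT MAJORANT   `1[|Dx| ≤ eX] 1[ω ∈ band a] w_N(Db/eB) w_N(Dz/eY) w_N(Dd/eD) w_N(Dn/eN)`   (no normalisation).
* `fzOFar fs a T σ Λ z z'`   one of the mismatches exceeds `Λ ×` its scale (`1 ×` for `Dx`), or `ω ∉ band a`.
* `fzOV P a k σ`   the product of the two Schur sums of `fzOM .. 2`  (`∫ w_2 ≤ π`).
ENTRY OF THE UNIT = exits `fz_k_maj`, `fz_k_rep` of FZ-K (`Fz/KContract.lean`).      `fzKN² · fzOV (fzSc) ≤ 144 π⁷ fs q_c 2^k / (tX tS)` (`Fz/Off.lean`): NO negative power of `H` or `fs` survives once `tX = √H δ^S`, `tS = Hf δ^S`.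
-/

set_option autoImplicit false

namespace Claimed.Agent.R256

open MeasureTheory
open scoped ENNReal

/-- hybrid rows `(ω, D', N')` -/
abbrev FzHr : Type := FzOm × ℝ × ℝ

/-- `X0 - A₁` -/
def fzDx (z : RdWvPar.Ph) (z' : FzHr) : ℝ := z'.1.1 - z.1.1

/-- `b₁ - B0 - T X0` -/
def fzDb (T : ℝ) (z : RdWvPar.Ph) (z' : FzHr) : ℝ := z.2.1.1 - z'.1.2.2.1 - T * z'.1.1

/-- `(y - Y0 - T X0²) - 2 X0 Db` -/
def fzDz (T : ℝ) (z : RdWvPar.Ph) (z' : FzHr) : ℝ := (z.2.2 - z'.1.2.2.2 - T * z'.1.1 ^ 2) - 2 * z'.1.1 * fzDb T z z'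

/-- `D - D'` -/
noncomputable def fzDd (fs : ℝ) (z : RdWvPar.Ph) (z' : FzHr) : ℝ := z.2.1.2 / fs - z'.2.1

/-- `N' - N` -/
noncomputable def fzDn (fs : ℝ) (z : RdWvPar.Ph) (z' : FzHr) : ℝ := z'.2.2 - z.1.2 / fs

/-- five scales -/
structure FzSc where
  eX : ℝ
  eB : ℝ
  eY : ℝ
  eD : ℝ
  eN : ℝ

/-- all scales are positive -/
structure FzSc.Ok (σ : FzSc) : Prop where
  eX_pos : 0 < σ.eX
  eB_pos : 0 < σ.eB
  eY_pos : 0 < σ.eY
  eD_pos : 0 < σ.eD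
  eN_pos : 0 < σ.eN

/-- the scales of the cross kernel -/
noncomputable def fzSc (P : FzP) (a : ℝ) (k : ℕ) : FzSc :=
  ⟨3 * rdD P.H k, P.H / P.tX, 2 * P.H / P.tS, rdQ P.H k / P.fs, rdD P.H k / (a * P.fs)⟩

/-- the weight `(1 + |t|)^-N` -/
noncomputable def fzOw (N : ℕ) (t : ℝ) : ℝ := ((1 + |t|) ^ N)⁻¹

/-- the product majorant -/
noncomputable def fzOM (fs a T : ℝ) (σ : FzSc) (N : ℕ) (z : RdWvPar.Ph) (z' : FzHr) : ℝ :=
  open Classical in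
  if |fzDx z z'| ≤ σ.eX ∧ z'.1 ∈ fzBand a then
    fzOw N (fzDb T z z' / σ.eB) * fzOw N (fzDz T z z' / σ.eY) * fzOw N (fzDd fs z z' / σ.eD) * fzOw N (fzDn fs z z' / σ.eN)
  else 0

/-- off the correspondence at the enlargement `Λ` -/
def fzOFar (fs a T : ℝ) (σ : FzSc) (Λ : ℝ) (z : RdWvPar.Ph) (z' : FzHr) : Prop :=
  σ.eX < |fzDx z z'| ∨ z'.1 ∉ fzBand a ∨ Λ * σ.eB < |fzDb T z z'| ∨ Λ * σ.eY < |fzDz T z z'| ∨ Λ * σ.eD < |fzDd fs z z'| ∨ Λ * σ.eN < |fzDn fs z z'|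

/-- bound of the Schur sum of `fzOM .. 2` over the hybrid rows -/
noncomputable def fzOV1 (P : FzP) (a : ℝ) (σ : FzSc) : ℝ :=
  a / (Real.pi * P.Hf) * (2 * σ.eX * a) * (Real.pi ^ 4 * (σ.eB * σ.eY * σ.eD * σ.eN))

/-- bound of the Schur sum of `fzOM .. 2` over the round rows -/
noncomputable def fzOV2 (P : FzP) (k : ℕ) (σ : FzSc) : ℝ :=
  rdLen k / P.H * (2 * σ.eX) * (Real.pi ^ 4 * (σ.eB * σ.eY * (P.fs * σ.eD) * (P.fs * σ.eN)))

/-- the product of the two Schur sums -/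
noncomputable def fzOV (P : FzP) (a : ℝ) (k : ℕ) (σ : FzSc) : ℝ := fzOV1 P a σ * fzOV2 P k σ

theorem fz_off_eqns_cite : True := by
  have := @fzDx.eq_1
  have := @fzDb.eq_1
  have := @fzDz.eq_1
  have := @fzDd.eq_1
  have := @fzDn.eq_1
  have := @fzSc.eq_1
  have := @fzOw.eq_1
  have := @fzOM.eq_1
  have := @fzOFar.eq_1
  have := @fzOV1.eq_1
  have := @fzOV2.eq_1
  have := @fzOV.eq_1
  trivial

end Claimed.Agent.R256
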