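-- KEEP
import Claimed.Agent.R256.Fz.OffDefs
import Claimed.Agent.R256.Rt.Ker
import Claimed.Agent.R256.Rt.XaContract

/-!
# Row 256 (LS paper), folder Fz, unit FZ-OFF, file OffCore : SCHUR SUMS OF THE PRODUCT MAJORANT AND THE ABSTRACT OFF-DIAGONAL BOUND          (helper256; prefix `fz_off_`)          SORRY-FREE

* `fz_off_ext`, `fz_off_gen`   PAPER FREE: a kernel domination on `S × S'`, known for integrable `F` carried by `S'`, extends to `L²`; with the two Schur sums `A`, `B`:  `∫_S ‖O F‖² ≤ A B ‖F‖²`.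
* `fzCutL`, `fzC0L`            the cut and the cross operator as continuous linear maps (`fz_off_c0L_apply : fzC0L .. F = fzC0 .. F`, `rfl`).
* `fz_off_w_*`                 the weight `(1+|t|)^-N`: `∫ w_2 ≤ π`, affine substitutions, gain `w_{N+2} ≤ Λ^-N w_2` for `|t| > Λ`.
* `fz_off_M_gain`              `fzOFar .. Λ z z' → fzOM (N+2) ≤ Λ^-N fzOM 2`.
* `fz_off_sum1`, `fz_off_sum2` the Schur sums of `fzOM .. 2` over the hybrid rows (`≤ fzOV1`) and over the round rows (`≤ fzOV2`), ANY positive scales.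
* `fz_off_abs_l`, `fz_off_abs` **ABSTRACT EXIT**: any kernel `Kf` of `fzC0` with `‖Kf‖ ≤ Bn fzOM (N+2)` on `S`;  `S × S'` off the correspondence at `Λ`;  `F = 0` off `S'`:   `∫_S ‖fzC0 F‖² ≤ (Bn Λ^-N)² fzOV ‖F‖²`.
-/

set_option autoImplicit false

namespace Claimed.Agent.R256

open MeasureTheory
open scoped ENNReal

/-- extension of a kernel domination on `S × S'` from integrable functions to `L²` -/
theorem fz_off_ext {Z Z' : Type} [MeasurableSpace Z] [MeasurableSpace Z'] {ζ : Measure Z} {ζ' : Measure Z'} [SigmaFinite ζ']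
    (O : Lp ℂ 2 ζ' →L[ℂ] Lp ℂ 2 ζ) (M : Z → Z' → ℝ≥0∞) (S : Set Z) (S' : Set Z')
    (h : ∀ F : Lp ℂ 2 ζ', Integrable (F : Z' → ℂ) ζ' → (∀ᵐ z' ∂ζ', z' ∉ S' → (F : Z' → ℂ) z' = 0) →
      ∀ᵐ z ∂ζ, z ∈ S → ‖(O F : Z → ℂ) z‖ₑ ≤ ∫⁻ z', M z z' * ‖(F : Z' → ℂ) z'‖ₑ ∂ζ')
    (F : Lp ℂ 2 ζ') (hF0 : ∀ᵐ z' ∂ζ', z' ∉ S' → (F : Z' → ℂ) z' = 0) :
    ∀ᵐ z ∂ζ, z ∈ S → ‖(O F : Z → ℂ) z‖ₑ ≤ ∫⁻ z', M z z' * ‖(F : Z' → ℂ) z'‖ₑ ∂ζ' := by
  have hF : MemLp (F : Z' → ℂ) 2 ζ' := Lp.memLp F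
  set Fn : ℕ → Lp ℂ 2 ζ' := fun n => (hF.indicator (measurableSet_spanningSets ζ' n)).toLp _ with hFn
  have hae : ∀ n, (Fn n : Z' → ℂ) =ᵐ[ζ'] (spanningSets ζ' n).indicator (F : Z' → ℂ) := fun n =>
    (hF.indicator (measurableSet_spanningSets ζ' n)).coeFn_toLp
  have hint : ∀ n, Integrable (Fn n : Z' → ℂ) ζ' := by
    intro n
    rw [integrable_congr (hae n), integrable_indicator_iff (measurableSet_spanningSets ζ' n)]
    have : IsFiniteMeasure (ζ'.restrict (spanningSets ζ' n)) :=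
      ⟨by rw [Measure.restrict_apply_univ]; exact measure_spanningSets_lt_top ζ' n⟩
    exact (hF.restrict _).integrable (by norm_num)
  have hsup : ∀ n, ∀ᵐ z' ∂ζ', z' ∉ S' → (Fn n : Z' → ℂ) z' = 0 := by
    intro n
    filter_upwards [hae n, hF0] with z' h1 h2 h3
    rw [h1]
    by_cases hm : z' ∈ spanningSets ζ' n
    · rw [Set.indicator_of_mem hm, h2 h3]
    · rw [Set.indicator_of_notMem hm]
  have hle : ∀ n z, ∫⁻ z', M z z' * ‖(Fn n : Z' → ℂ) z'‖ₑ ∂ζ' ≤ ∫⁻ z', M z z' * ‖(F : Z' → ℂ) z'‖ₑ ∂ζ' := by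
    intro n z
    refine lintegral_mono_ae ?_
    filter_upwards [hae n] with z' hz
    rw [hz]
    by_cases hm : z' ∈ spanningSets ζ' n
    · simp [hm]
    · simp [hm]
  have hlim : Filter.Tendsto (fun n => O (Fn n)) Filter.atTop (nhds (O F)) := (O.continuous.tendsto F).comp (rt_xa_ext_trunc F)
  obtain ⟨ns, -, hns⟩ := (tendstoInMeasure_of_tendsto_Lp hlim).exists_seq_tendsto_ae
  have hall : ∀ᵐ z ∂ζ, ∀ n, z ∈ S → ‖(O (Fn n) : Z → ℂ) z‖ₑ ≤ ∫⁻ z', M z z' * ‖(Fn n : Z' → ℂ) z'‖ₑ ∂ζ' :=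
    ae_all_iff.2 fun n => h (Fn n) (hint n) (hsup n)
  filter_upwards [hns, hall] with z h1 h2 hz
  refine le_of_tendsto (continuous_enorm.tendsto _ |>.comp h1) (Filter.Eventually.of_forall fun i => ?_)
  exact (h2 (ns i) hz).trans (hle _ _)

/-- **generic off-diagonal bound**: kernel domination on `S × S'` for integrable functions + Schur sums -/
theorem fz_off_gen {Z Z' : Type} [MeasurableSpace Z] [MeasurableSpace Z'] {ζ : Measure Z} {ζ' : Measure Z'} [SFinite ζ] [SigmaFinite ζ']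
    (O : Lp ℂ 2 ζ' →L[ℂ] Lp ℂ 2 ζ) (M : Z → Z' → ℝ≥0∞) (hM : Measurable (Function.uncurry M)) (A B : ℝ≥0∞)
    (hA : ∀ z, ∫⁻ z', M z z' ∂ζ' ≤ A) (hB : ∀ z', ∫⁻ z, M z z' ∂ζ ≤ B) (S : Set Z) (S' : Set Z') (hS : MeasurableSet S)
    (h : ∀ F : Lp ℂ 2 ζ', Integrable (F : Z' → ℂ) ζ' → (∀ᵐ z' ∂ζ', z' ∉ S' → (F : Z' → ℂ) z' = 0) →
      ∀ᵐ z ∂ζ, z ∈ S → ‖(O F : Z → ℂ) z‖ₑ ≤ ∫⁻ z', M z z' * ‖(F : Z' → ℂ) z'‖ₑ ∂ζ')
    (F : Lp ℂ 2 ζ') (hF0 : ∀ᵐ z' ∂ζ', z' ∉ S' → (F : Z' → ℂ) z' = 0) :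
    ∫⁻ z in S, ‖(O F : Z → ℂ) z‖ₑ ^ 2 ∂ζ ≤ A * B * ∫⁻ z', ‖(F : Z' → ℂ) z'‖ₑ ^ 2 ∂ζ' := by
  have h1 := fz_off_ext O M S S' h F hF0
  have hsch := rt_k_schur ζ ζ' M hM A B hA hB (fun z' => ‖(F : Z' → ℂ) z'‖ₑ) (Lp.stronglyMeasurable F).enorm.aemeasurable
  calc ∫⁻ z in S, ‖(O F : Z → ℂ) z‖ₑ ^ 2 ∂ζ ≤ ∫⁻ z in S, (∫⁻ z', M z z' * ‖(F : Z' → ℂ) z'‖ₑ ∂ζ') ^ 2 ∂ζ := by
        refine setLIntegral_mono_ae' hS ?_
        filter_upwards [h1] with z hz hzS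
        exact pow_le_pow_left₀ zero_le (hz hzS) 2
    _ ≤ ∫⁻ z, (∫⁻ z', M z z' * ‖(F : Z' → ℂ) z'‖ₑ ∂ζ') ^ 2 ∂ζ := setLIntegral_le_lintegral _ _
    _ ≤ _ := hsch

/-- the cut is the indicator -/
theorem fz_off_cut_coe {U : Set FzOm} (hU : MeasurableSet U) (V : Lp ℂ 2 ((volume : Measure FzOm).prod (volume : Measure ℝ))) :
    (fzCut U V : FzOm × ℝ → ℂ) =ᵐ[(volume : Measure FzOm).prod (volume : Measure ℝ)] (U ×ˢ (Set.univ : Set ℝ)).indicator (V : FzOm × ℝ → ℂ) := by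
  unfold fzCut
  rw [dif_pos ((Lp.memLp V).indicator (hU.prod MeasurableSet.univ))]
  exact MemLp.coeFn_toLp _

/-- the cut as a continuous linear map -/
noncomputable def fzCutL (U : Set FzOm) (hU : MeasurableSet U) :
    Lp ℂ 2 ((volume : Measure FzOm).prod (volume : Measure ℝ)) →L[ℂ] Lp ℂ 2 ((volume : Measure FzOm).prod (volume : Measure ℝ)) :=
  LinearMap.mkContinuous
    { toFun := fzCut U
      map_add' := by
        intro V V'
        apply Lp.ext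
        filter_upwards [fz_off_cut_coe hU (V + V'), fz_off_cut_coe hU V, fz_off_cut_coe hU V', Lp.coeFn_add V V',
          Lp.coeFn_add (fzCut U V) (fzCut U V')] with x h1 h2 h3 h4 h5
        rw [h1, h5, Pi.add_apply, h2, h3]
        by_cases hx : x ∈ U ×ˢ (Set.univ : Set ℝ)
        · simp only [Set.indicator_of_mem hx, h4, Pi.add_apply]
        · simp only [Set.indicator_of_notMem hx, add_zero]
      map_smul' := by
        intro c V
        apply Lp.ext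
        filter_upwards [fz_off_cut_coe hU (c • V), fz_off_cut_coe hU V, Lp.coeFn_smul c V, Lp.coeFn_smul c (fzCut U V)] with x h1 h2 h3 h4
        rw [h1, RingHom.id_apply, h4, Pi.smul_apply, h2]
        by_cases hx : x ∈ U ×ˢ (Set.univ : Set ℝ)
        · simp only [Set.indicator_of_mem hx, h3, Pi.smul_apply]
        · simp only [Set.indicator_of_notMem hx, smul_zero] }
    1 (by
      intro V
      rw [one_mul]
      show ‖fzCut U V‖ ≤ ‖V‖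
      rw [Lp.norm_def, Lp.norm_def]
      refine ENNReal.toReal_mono (Lp.memLp V).2.ne ?_
      rw [eLpNorm_congr_ae (fz_off_cut_coe hU V)]
      exact eLpNorm_indicator_le _)

theorem fz_off_cutL_apply (U : Set FzOm) (hU : MeasurableSet U) (V : Lp ℂ 2 ((volume : Measure FzOm).prod (volume : Measure ℝ))) :
    fzCutL U hU V = fzCut U V := rfl

theorem fz_off_band_meas (a : ℝ) : MeasurableSet (fzBand a) := by
  have h1 : Measurable fun ω : FzOm => ω.2.1 := by fun_prop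
  exact (measurableSet_le measurable_const h1).inter (measurableSet_lt h1 measurable_const)

/-- the cross operator as a continuous linear map -/
noncomputable def fzC0L (P : FzP) (h : P.Ok) (a T : ℝ) (k β : ℕ) : Lp ℂ 2 (fzHy P a).rw →L[ℂ] Lp ℂ 2 ((P.rd h).rw k) :=
  ((P.rd h).an T k β).comp ((ContinuousLinearMap.adjoint (fzW P)).comp ((fzCutL (fzBand a) (fz_off_band_meas a)).comp
    (ContinuousLinearMap.adjoint ((fzHy P a).an T k))))

theorem fz_off_core_eqns_cite : True := by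
  have := @fzCutL.eq_1
  have := @fzC0L.eq_1
  trivial

theorem fz_off_c0L_apply (P : FzP) (h : P.Ok) (a T : ℝ) (k β : ℕ) (F : Lp ℂ 2 (fzHy P a).rw) : fzC0L P h a T k β F = fzC0 P h a T k β F := rfl

theorem fz_off_w_pos (N : ℕ) (t : ℝ) : 0 < fzOw N t := by
  unfold fzOw
  positivity

theorem fz_off_w_meas (N : ℕ) : Measurable (fzOw N) := by
  unfold fzOw
  fun_prop

theorem fz_off_w_even (N : ℕ) (t : ℝ) : fzOw N (-t) = fzOw N t := by
  unfold fzOw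
  rw [abs_neg]

/-- `∫ (1+|t|)^-2 ≤ π` -/
theorem fz_off_w_int : ∫⁻ t : ℝ, ENNReal.ofReal (fzOw 2 t) ≤ ENNReal.ofReal Real.pi := by
  have h1 : ∀ t : ℝ, fzOw 2 t ≤ (1 + t ^ 2)⁻¹ := by
    intro t
    unfold fzOw
    apply inv_anti₀ (by positivity)
    nlinarith [abs_nonneg t, sq_abs t]
  calc ∫⁻ t : ℝ, ENNReal.ofReal (fzOw 2 t) ≤ ∫⁻ t : ℝ, ENNReal.ofReal ((1 + t ^ 2)⁻¹) := lintegral_mono fun t => ENNReal.ofReal_le_ofReal (h1 t)
    _ = ENNReal.ofReal (∫ t : ℝ, (1 + t ^ 2)⁻¹) :=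
        (ofReal_integral_eq_lintegral_ofReal integrable_inv_one_add_sq (Filter.Eventually.of_forall fun t => by positivity)).symm
    _ = ENNReal.ofReal Real.pi := by rw [integral_univ_inv_one_add_sq]

/-- affine substitution, both orientations -/
theorem fz_off_w_cov {c : ℝ} (hc : 0 < c) (t0 : ℝ) :
    ∫⁻ y : ℝ, ENNReal.ofReal (fzOw 2 ((y - t0) / c)) ≤ ENNReal.ofReal (Real.pi * c) ∧
      ∫⁻ y : ℝ, ENNReal.ofReal (fzOw 2 ((t0 - y) / c)) ≤ ENNReal.ofReal (Real.pi * c) := by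
  have h1 : ∫⁻ y : ℝ, ENNReal.ofReal (fzOw 2 ((y - t0) / c)) ≤ ENNReal.ofReal (Real.pi * c) := by
    rw [rt_k_cov1 (fun y => ENNReal.ofReal (fzOw 2 y)) hc t0, mul_comm Real.pi, ENNReal.ofReal_mul hc.le]
    gcongr
    exact fz_off_w_int
  refine ⟨h1, le_trans (le_of_eq (lintegral_congr fun y => ?_)) h1⟩
  rw [← fz_off_w_even, ← neg_div, neg_sub]

theorem fz_off_w_le (N : ℕ) (t : ℝ) : fzOw (N + 2) t ≤ fzOw 2 t := by
  unfold fzOw
  apply inv_anti₀ (by positivity)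
  exact pow_le_pow_right₀ (by linarith [abs_nonneg t]) (by omega)

theorem fz_off_w_gain (N : ℕ) {Λ t : ℝ} (hΛ : 0 < Λ) (h : Λ < |t|) : fzOw (N + 2) t ≤ Λ ^ (-(N : ℝ)) * fzOw 2 t := by
  unfold fzOw
  rw [Real.rpow_neg hΛ.le, Real.rpow_natCast, ← mul_inv, pow_add]
  apply inv_anti₀ (by positivity)
  gcongr
  linarith

theorem fz_off_M_nonneg (fs a T : ℝ) (σ : FzSc) (N : ℕ) (z : RdWvPar.Ph) (z' : FzHr) : 0 ≤ fzOM fs a T σ N z z' := by
  unfold fzOM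
  split_ifs
  · have := fz_off_w_pos N
    exact (mul_pos (mul_pos (mul_pos (this _) (this _)) (this _)) (this _)).le
  · exact le_refl _

theorem fz_off_M_meas (fs a T : ℝ) (σ : FzSc) (N : ℕ) : Measurable fun p : RdWvPar.Ph × FzHr => fzOM fs a T σ N p.1 p.2 := by
  unfold fzOM
  have hw := fz_off_w_meas N
  refine Measurable.ite ?_ ?_ measurable_const
  · refine MeasurableSet.inter ?_ ?_
    · refine measurableSet_le (f := fun p : RdWvPar.Ph × FzHr => |fzDx p.1 p.2|) ?_ measurable_const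
      unfold fzDx
      fun_prop
    · exact (fz_off_band_meas a).preimage (f := fun p : RdWvPar.Ph × FzHr => p.2.1) (by fun_prop)
  · unfold fzDz fzDd fzDn fzDb
    fun_prop

theorem fz_off_four {x1 x2 x3 x4 y1 y2 y3 y4 c : ℝ} (h1 : 0 ≤ x1) (h2 : 0 ≤ x2) (h3 : 0 ≤ x3) (h4 : 0 ≤ x4)
    (l1 : x1 ≤ y1) (l2 : x2 ≤ y2) (l3 : x3 ≤ y3) (l4 : x4 ≤ y4) (hc : 0 ≤ c)
    (h : x1 ≤ c * y1 ∨ x2 ≤ c * y2 ∨ x3 ≤ c * y3 ∨ x4 ≤ c * y4) : x1 * x2 * x3 * x4 ≤ c * (y1 * y2 * y3 * y4) := by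
  have k1 := h1.trans l1
  have k2 := h2.trans l2
  have k3 := h3.trans l3
  have k4 := h4.trans l4
  rcases h with h | h | h | h
  · calc x1 * x2 * x3 * x4 ≤ (c * y1) * y2 * y3 * y4 := by gcongr
      _ = _ := by ring
  · calc x1 * x2 * x3 * x4 ≤ y1 * (c * y2) * y3 * y4 := by gcongr
      _ = _ := by ring
  · calc x1 * x2 * x3 * x4 ≤ y1 * y2 * (c * y3) * y4 := by gcongr
      _ = _ := by ring
  · calc x1 * x2 * x3 * x4 ≤ y1 * y2 * y3 * (c * y4) := by gcongr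
      _ = _ := by ring

/-- the gain off the correspondence -/
theorem fz_off_M_gain (fs a T : ℝ) (σ : FzSc) (hσ : σ.Ok) (N : ℕ) {Λ : ℝ} (hΛ : 0 < Λ) (z : RdWvPar.Ph) (z' : FzHr) (h : fzOFar fs a T σ Λ z z') :
    fzOM fs a T σ (N + 2) z z' ≤ Λ ^ (-(N : ℝ)) * fzOM fs a T σ 2 z z' := by
  have hL0 : 0 < Λ ^ (-(N : ℝ)) := by positivity
  unfold fzOM
  by_cases hc : |fzDx z z'| ≤ σ.eX ∧ z'.1 ∈ fzBand a
  · rw [if_pos hc, if_pos hc]
    have hp := fun t => (fz_off_w_pos (N + 2) t).le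
    have hl := fz_off_w_le N
    have key : ∀ {e t : ℝ}, 0 < e → Λ * e < |t| → fzOw (N + 2) (t / e) ≤ Λ ^ (-(N : ℝ)) * fzOw 2 (t / e) := by
      intro e t he ht
      apply fz_off_w_gain N hΛ
      rw [abs_div, abs_of_pos he, lt_div_iff₀ he]
      exact ht
    refine fz_off_four (hp _) (hp _) (hp _) (hp _) (hl _) (hl _) (hl _) (hl _) hL0.le ?_
    rcases h with h | h | h | h | h | h
    · exact absurd hc.1 (not_le.2 h)
    · exact absurd hc.2 h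
    · exact Or.inl (key hσ.eB_pos h)
    · exact Or.inr (Or.inl (key hσ.eY_pos h))
    · exact Or.inr (Or.inr (Or.inl (key hσ.eD_pos h)))
    · exact Or.inr (Or.inr (Or.inr (key hσ.eN_pos h)))
  · rw [if_neg hc, if_neg hc, mul_zero]

/-- iterated integral on `FzOm` -/
theorem fz_off_iter4 (G : FzOm → ℝ≥0∞) (hG : Measurable G) :
    ∫⁻ ω, G ω = ∫⁻ X0 : ℝ, ∫⁻ s0 : ℝ, ∫⁻ B0 : ℝ, ∫⁻ Y0 : ℝ, G (X0, s0, B0, Y0) := by
  rw [Measure.volume_eq_prod, lintegral_prod _ hG.aemeasurable]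
  refine lintegral_congr fun X0 => ?_
  have h1 : Measurable fun q : ℝ × ℝ × ℝ => G (X0, q) := hG.comp measurable_prodMk_left
  rw [Measure.volume_eq_prod, lintegral_prod _ h1.aemeasurable]
  refine lintegral_congr fun s0 => ?_
  have h2 : Measurable fun q : ℝ × ℝ => G (X0, s0, q) := h1.comp measurable_prodMk_left
  rw [Measure.volume_eq_prod, lintegral_prod _ h2.aemeasurable]

/-- the base part of the majorant as a function of `ω` -/
noncomputable def fzOG (a T : ℝ) (σ : FzSc) (z : RdWvPar.Ph) (ω : FzOm) : ℝ≥0∞ :=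
  (Set.Icc (z.1.1 - σ.eX) (z.1.1 + σ.eX)).indicator 1 ω.1 * (Set.Ico a (2 * a)).indicator 1 ω.2.1 *
    ENNReal.ofReal (fzOw 2 ((z.2.1.1 - T * ω.1 - ω.2.2.1) / σ.eB)) *
    ENNReal.ofReal (fzOw 2 ((z.2.2 - T * ω.1 ^ 2 - 2 * ω.1 * (z.2.1.1 - ω.2.2.1 - T * ω.1) - ω.2.2.2) / σ.eY))

theorem fz_off_G_eqns_cite : True := by
  have := @fzOG.eq_1
  trivial

theorem fz_off_G_meas (a T : ℝ) (σ : FzSc) (z : RdWvPar.Ph) : Measurable (fzOG a T σ z) := by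
  unfold fzOG
  have hw := fz_off_w_meas 2
  have h1 : Measurable ((Set.Icc (z.1.1 - σ.eX) (z.1.1 + σ.eX)).indicator (1 : ℝ → ℝ≥0∞)) := measurable_one.indicator measurableSet_Icc
  have h2 : Measurable ((Set.Ico a (2 * a)).indicator (1 : ℝ → ℝ≥0∞)) := measurable_one.indicator measurableSet_Ico
  fun_prop

/-- the `(D', N')` integral -/
theorem fz_off_sum1_in (fs a T : ℝ) (σ : FzSc) (hσ : σ.Ok) (z : RdWvPar.Ph) (ω : FzOm) :
    ∫⁻ r : ℝ × ℝ, ENNReal.ofReal (fzOM fs a T σ 2 z (ω, r)) ≤ fzOG a T σ z ω * (ENNReal.ofReal (Real.pi * σ.eD) * ENNReal.ofReal (Real.pi * σ.eN)) := by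
  unfold fzOM fzOG fzDx fzDz fzDb fzDd fzDn
  simp only
  by_cases hc : |ω.1 - z.1.1| ≤ σ.eX ∧ ω ∈ fzBand a
  · simp only [if_pos hc]
    have i1 : ω.1 ∈ Set.Icc (z.1.1 - σ.eX) (z.1.1 + σ.eX) := by
      have := abs_le.1 hc.1
      constructor <;> linarith [this.1, this.2]
    have i2 : ω.2.1 ∈ Set.Ico a (2 * a) := hc.2
    rw [Set.indicator_of_mem i1, Set.indicator_of_mem i2]
    simp only [Pi.one_apply, one_mul]
    have hp := fun t => (fz_off_w_pos 2 t).le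
    have e : ∀ r : ℝ × ℝ, ENNReal.ofReal (fzOw 2 ((z.2.1.1 - ω.2.2.1 - T * ω.1) / σ.eB) *
          fzOw 2 ((z.2.2 - ω.2.2.2 - T * ω.1 ^ 2 - 2 * ω.1 * (z.2.1.1 - ω.2.2.1 - T * ω.1)) / σ.eY) * fzOw 2 ((z.2.1.2 / fs - r.1) / σ.eD) *
          fzOw 2 ((r.2 - z.1.2 / fs) / σ.eN))
        = ENNReal.ofReal (fzOw 2 ((z.2.1.1 - T * ω.1 - ω.2.2.1) / σ.eB)) *
          ENNReal.ofReal (fzOw 2 ((z.2.2 - T * ω.1 ^ 2 - 2 * ω.1 * (z.2.1.1 - ω.2.2.1 - T * ω.1) - ω.2.2.2) / σ.eY)) *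
          (ENNReal.ofReal (fzOw 2 ((z.2.1.2 / fs - r.1) / σ.eD)) * ENNReal.ofReal (fzOw 2 ((r.2 - z.1.2 / fs) / σ.eN))) := by
      intro r
      rw [ENNReal.ofReal_mul (mul_nonneg (mul_nonneg (hp _) (hp _)) (hp _)), ENNReal.ofReal_mul (mul_nonneg (hp _) (hp _)), ENNReal.ofReal_mul (hp _), mul_assoc]
      congr 4 <;> ring
    simp only [e]
    have hw := fz_off_w_meas 2
    have m1 : Measurable fun x : ℝ => ENNReal.ofReal (fzOw 2 ((z.2.1.2 / fs - x) / σ.eD)) := by fun_prop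
    have m2 : Measurable fun x : ℝ => ENNReal.ofReal (fzOw 2 ((x - z.1.2 / fs) / σ.eN)) := by fun_prop
    have m3 : Measurable fun r : ℝ × ℝ => ENNReal.ofReal (fzOw 2 ((z.2.1.2 / fs - r.1) / σ.eD)) * ENNReal.ofReal (fzOw 2 ((r.2 - z.1.2 / fs) / σ.eN)) := by
      fun_prop
    rw [lintegral_const_mul _ m3, Measure.volume_eq_prod, lintegral_prod_mul m1.aemeasurable m2.aemeasurable]
    gcongr
    · exact (fz_off_w_cov hσ.eD_pos _).2
    · exact (fz_off_w_cov hσ.eN_pos _).1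
  · simp only [if_neg hc, ENNReal.ofReal_zero, lintegral_zero, zero_le]

/-- the integral of the base part -/
theorem fz_off_G_int (a T : ℝ) (σ : FzSc) (hσ : σ.Ok) (z : RdWvPar.Ph) :
    ∫⁻ ω, fzOG a T σ z ω ≤ ENNReal.ofReal (2 * σ.eX) * ENNReal.ofReal a * ENNReal.ofReal (Real.pi * σ.eB) * ENNReal.ofReal (Real.pi * σ.eY) := by
  rw [fz_off_iter4 _ (fz_off_G_meas a T σ z)]
  unfold fzOG
  simp only
  have hw := fz_off_w_meas 2
  have hY : ∀ X0 B0 : ℝ, ∫⁻ Y0 : ℝ, ENNReal.ofReal (fzOw 2 ((z.2.2 - T * X0 ^ 2 - 2 * X0 * (z.2.1.1 - B0 - T * X0) - Y0) / σ.eY)) ≤ ENNReal.ofReal (Real.pi * σ.eY) :=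
    fun X0 B0 => (fz_off_w_cov hσ.eY_pos _).2
  have hB : ∀ X0 : ℝ, ∫⁻ B0 : ℝ, ENNReal.ofReal (fzOw 2 ((z.2.1.1 - T * X0 - B0) / σ.eB)) ≤ ENNReal.ofReal (Real.pi * σ.eB) :=
    fun X0 => (fz_off_w_cov hσ.eB_pos _).2
  calc _ ≤ ∫⁻ X0 : ℝ, ∫⁻ s0 : ℝ, ∫⁻ B0 : ℝ, (Set.Icc (z.1.1 - σ.eX) (z.1.1 + σ.eX)).indicator 1 X0 * (Set.Ico a (2 * a)).indicator 1 s0 *
          ENNReal.ofReal (fzOw 2 ((z.2.1.1 - T * X0 - B0) / σ.eB)) * ENNReal.ofReal (Real.pi * σ.eY) := by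
        refine lintegral_mono fun X0 => lintegral_mono fun s0 => lintegral_mono fun B0 => ?_
        rw [lintegral_const_mul _ (by fun_prop)]
        gcongr
        exact hY X0 B0
    _ ≤ ∫⁻ X0 : ℝ, ∫⁻ s0 : ℝ, (Set.Icc (z.1.1 - σ.eX) (z.1.1 + σ.eX)).indicator 1 X0 * (Set.Ico a (2 * a)).indicator 1 s0 *
          ENNReal.ofReal (Real.pi * σ.eB) * ENNReal.ofReal (Real.pi * σ.eY) := by
        refine lintegral_mono fun X0 => lintegral_mono fun s0 => ?_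
        rw [lintegral_mul_const _ (by fun_prop), lintegral_const_mul _ (by fun_prop)]
        gcongr
        exact hB X0
    _ = _ := by
        have e1 : ∀ X0 : ℝ, ∫⁻ s0 : ℝ, (Set.Icc (z.1.1 - σ.eX) (z.1.1 + σ.eX)).indicator (1 : ℝ → ℝ≥0∞) X0 * (Set.Ico a (2 * a)).indicator 1 s0 *
            ENNReal.ofReal (Real.pi * σ.eB) * ENNReal.ofReal (Real.pi * σ.eY)
            = (Set.Icc (z.1.1 - σ.eX) (z.1.1 + σ.eX)).indicator 1 X0 * (ENNReal.ofReal a * ENNReal.ofReal (Real.pi * σ.eB) * ENNReal.ofReal (Real.pi * σ.eY)) := by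
          intro X0
          have h2 : Measurable ((Set.Ico a (2 * a)).indicator (1 : ℝ → ℝ≥0∞)) := measurable_one.indicator measurableSet_Ico
          rw [lintegral_mul_const _ (by fun_prop), lintegral_mul_const _ (by fun_prop), lintegral_const_mul _ h2, lintegral_indicator_one measurableSet_Ico,
            Real.volume_Ico]
          have : 2 * a - a = a := by ring
          rw [this]
          ring
        simp only [e1]
        have h1 : Measurable ((Set.Icc (z.1.1 - σ.eX) (z.1.1 + σ.eX)).indicator (1 : ℝ → ℝ≥0∞)) := measurable_one.indicator measurableSet_Icc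
        rw [lintegral_mul_const _ h1, lintegral_indicator_one measurableSet_Icc, Real.volume_Icc]
        have : z.1.1 + σ.eX - (z.1.1 - σ.eX) = 2 * σ.eX := by ring
        rw [this]
        ring

theorem fz_off_Hf_pos (P : FzP) (h : P.Ok) : 0 < P.Hf := by
  unfold FzP.Hf
  have := h.H_pos
  have := h.fs_pos
  positivity

/-- **Schur sum over the hybrid rows** -/
theorem fz_off_sum1 (P : FzP) (h : P.Ok) {a : ℝ} (ha : 0 < a) (T : ℝ) (σ : FzSc) (hσ : σ.Ok) (z : RdWvPar.Ph) :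
    ∫⁻ z', ENNReal.ofReal (fzOM P.fs a T σ 2 z z') ∂(fzHy P a).rw ≤ ENNReal.ofReal (fzOV1 P a σ) := by
  have hHf := fz_off_Hf_pos P h
  have hpi := Real.pi_pos
  have hm : Measurable fun z' : FzHr => ENNReal.ofReal (fzOM P.fs a T σ 2 z z') :=
    ((fz_off_M_meas P.fs a T σ 2).comp (f := fun z' : FzHr => (z, z')) (by fun_prop)).ennreal_ofReal
  have hd : Measurable fun x : FzHr => ENNReal.ofReal ((fzHy P a).sg x.1 / (2 * Real.pi * (fzHy P a).H)) := by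
    show Measurable fun x : FzHr => ENNReal.ofReal (max 1 (min 2 (x.1.2.1 / a)) / (2 * Real.pi * (P.Hf / a)))
    fun_prop
  have hdle : ∀ x : FzHr, ENNReal.ofReal ((fzHy P a).sg x.1 / (2 * Real.pi * (fzHy P a).H)) ≤ ENNReal.ofReal (a / (Real.pi * P.Hf)) := by
    intro x
    apply ENNReal.ofReal_le_ofReal
    show max 1 (min 2 (x.1.2.1 / a)) / (2 * Real.pi * (P.Hf / a)) ≤ a / (Real.pi * P.Hf)
    have h2 : max 1 (min 2 (x.1.2.1 / a)) ≤ 2 := max_le (by norm_num) (min_le_left _ _)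
    rw [div_le_div_iff₀ (by positivity) (by positivity)]
    have e : a * (2 * Real.pi * (P.Hf / a)) = 2 * (Real.pi * P.Hf) := by field_simp
    rw [e]
    exact mul_le_mul_of_nonneg_right h2 (by positivity)
  have e0 : ∫⁻ z', ENNReal.ofReal (fzOM P.fs a T σ 2 z z') ∂(fzHy P a).rw
      = ∫⁻ x : FzHr, ENNReal.ofReal ((fzHy P a).sg x.1 / (2 * Real.pi * (fzHy P a).H)) * ENNReal.ofReal (fzOM P.fs a T σ 2 z x)
          ∂((volume : Measure FzOm).prod (volume : Measure (ℝ × ℝ))) :=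
    lintegral_withDensity_eq_lintegral_mul _ hd hm
  rw [e0]
  calc _ ≤ ∫⁻ x : FzHr, ENNReal.ofReal (a / (Real.pi * P.Hf)) * ENNReal.ofReal (fzOM P.fs a T σ 2 z x) ∂((volume : Measure FzOm).prod (volume : Measure (ℝ × ℝ))) :=
        lintegral_mono fun x => mul_le_mul_left (hdle x) _
    _ = ENNReal.ofReal (a / (Real.pi * P.Hf)) * ∫⁻ ω : FzOm, ∫⁻ r : ℝ × ℝ, ENNReal.ofReal (fzOM P.fs a T σ 2 z (ω, r)) := by
        rw [lintegral_const_mul _ hm, lintegral_prod _ hm.aemeasurable]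
    _ ≤ ENNReal.ofReal (a / (Real.pi * P.Hf)) * ∫⁻ ω : FzOm, fzOG a T σ z ω * (ENNReal.ofReal (Real.pi * σ.eD) * ENNReal.ofReal (Real.pi * σ.eN)) := by
        gcongr with ω
        exact fz_off_sum1_in P.fs a T σ hσ z ω
    _ ≤ ENNReal.ofReal (a / (Real.pi * P.Hf)) * ((ENNReal.ofReal (2 * σ.eX) * ENNReal.ofReal a * ENNReal.ofReal (Real.pi * σ.eB) * ENNReal.ofReal (Real.pi * σ.eY)) *
          (ENNReal.ofReal (Real.pi * σ.eD) * ENNReal.ofReal (Real.pi * σ.eN))) := by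
        rw [lintegral_mul_const _ (fz_off_G_meas a T σ z)]
        gcongr
        exact fz_off_G_int a T σ hσ z
    _ = _ := by
        have := hσ.eX_pos
        have := hσ.eB_pos
        have := hσ.eY_pos
        have := hσ.eD_pos
        have := hσ.eN_pos
        rw [← ENNReal.ofReal_mul (by positivity), ← ENNReal.ofReal_mul (by positivity), ← ENNReal.ofReal_mul (by positivity), ← ENNReal.ofReal_mul (by positivity),
          ← ENNReal.ofReal_mul (by positivity), ← ENNReal.ofReal_mul (by positivity)]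
        congr 1
        unfold fzOV1
        ring

/-- iterated integral on the round rows -/
theorem fz_off_iter5 (G : RdWvPar.Ph → ℝ≥0∞) (hG : Measurable G) :
    ∫⁻ z, G z = ∫⁻ A1 : ℝ, ∫⁻ A2 : ℝ, ∫⁻ b1 : ℝ, ∫⁻ b2 : ℝ, ∫⁻ y : ℝ, G ((A1, A2), (b1, b2), y) := by
  rw [Measure.volume_eq_prod, lintegral_prod _ hG.aemeasurable, Measure.volume_eq_prod,
    lintegral_prod _ (hG.lintegral_prod_right' (ν := (volume : Measure ((ℝ × ℝ) × ℝ)))).aemeasurable]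
  refine lintegral_congr fun A1 => lintegral_congr fun A2 => ?_
  have h1 : Measurable fun q : (ℝ × ℝ) × ℝ => G ((A1, A2), q) := hG.comp measurable_prodMk_left
  rw [Measure.volume_eq_prod, lintegral_prod _ h1.aemeasurable, Measure.volume_eq_prod,
    lintegral_prod _ (h1.lintegral_prod_right' (ν := (volume : Measure ℝ))).aemeasurable]

/-- the majorant as a product, as a function of the round row -/
theorem fz_off_M_le {fs : ℝ} (hfs : 0 < fs) (a T : ℝ) (σ : FzSc) (z : RdWvPar.Ph) (z' : FzHr) :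
    ENNReal.ofReal (fzOM fs a T σ 2 z z') ≤
      (Set.Icc (z'.1.1 - σ.eX) (z'.1.1 + σ.eX)).indicator 1 z.1.1 * ENNReal.ofReal (fzOw 2 ((fs * z'.2.2 - z.1.2) / (fs * σ.eN))) *
        ENNReal.ofReal (fzOw 2 ((z.2.1.1 - (z'.1.2.2.1 + T * z'.1.1)) / σ.eB)) * ENNReal.ofReal (fzOw 2 ((z.2.1.2 - fs * z'.2.1) / (fs * σ.eD))) *
        ENNReal.ofReal (fzOw 2 ((z.2.2 - (z'.1.2.2.2 + T * z'.1.1 ^ 2 + 2 * z'.1.1 * (z.2.1.1 - z'.1.2.2.1 - T * z'.1.1))) / σ.eY)) := by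
  unfold fzOM fzDx fzDz fzDb fzDd fzDn
  by_cases hc : |z'.1.1 - z.1.1| ≤ σ.eX ∧ z'.1 ∈ fzBand a
  · rw [if_pos hc]
    have i1 : z.1.1 ∈ Set.Icc (z'.1.1 - σ.eX) (z'.1.1 + σ.eX) := by
      have := abs_le.1 hc.1
      constructor <;> linarith [this.1, this.2]
    rw [Set.indicator_of_mem i1]
    simp only [Pi.one_apply, one_mul]
    have hp := fun t => (fz_off_w_pos 2 t).le
    rw [ENNReal.ofReal_mul (mul_nonneg (mul_nonneg (hp _) (hp _)) (hp _)), ENNReal.ofReal_mul (mul_nonneg (hp _) (hp _)), ENNReal.ofReal_mul (hp _)]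
    refine le_of_eq ?_
    have e1 : (z.2.1.2 / fs - z'.2.1) / σ.eD = (z.2.1.2 - fs * z'.2.1) / (fs * σ.eD) := by
      field_simp
    have e2 : (z'.2.2 - z.1.2 / fs) / σ.eN = (fs * z'.2.2 - z.1.2) / (fs * σ.eN) := by
      field_simp
    have e3 : z.2.1.1 - z'.1.2.2.1 - T * z'.1.1 = z.2.1.1 - (z'.1.2.2.1 + T * z'.1.1) := by ring
    have e4 : z.2.2 - z'.1.2.2.2 - T * z'.1.1 ^ 2 - 2 * z'.1.1 * (z.2.1.1 - z'.1.2.2.1 - T * z'.1.1)
        = z.2.2 - (z'.1.2.2.2 + T * z'.1.1 ^ 2 + 2 * z'.1.1 * (z.2.1.1 - z'.1.2.2.1 - T * z'.1.1)) := by ring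
    rw [e1, e2, e4, e3]
    ring
  · rw [if_neg hc, ENNReal.ofReal_zero]
    exact zero_le

/-- **Schur sum over the round rows** -/
theorem fz_off_sum2 (P : FzP) (h : P.Ok) (a T : ℝ) (k : ℕ) (σ : FzSc) (hσ : σ.Ok) (z' : FzHr) :
    ∫⁻ z, ENNReal.ofReal (fzOM P.fs a T σ 2 z z') ∂((P.rd h).rw k) ≤ ENNReal.ofReal (fzOV2 P k σ) := by
  have hfs := h.fs_pos
  have hH := h.H_pos
  have hpi := Real.pi_pos
  have hl := rdLen_pos k
  have hX := hσ.eX_pos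
  have hB := hσ.eB_pos
  have hY := hσ.eY_pos
  have hD := hσ.eD_pos
  have hN := hσ.eN_pos
  have hw := fz_off_w_meas 2
  have hm : Measurable fun z : RdWvPar.Ph => ENNReal.ofReal (fzOM P.fs a T σ 2 z z') :=
    ((fz_off_M_meas P.fs a T σ 2).comp (f := fun z : RdWvPar.Ph => (z, z')) (by fun_prop)).ennreal_ofReal
  have h1 : Measurable ((Set.Icc (z'.1.1 - σ.eX) (z'.1.1 + σ.eX)).indicator (1 : ℝ → ℝ≥0∞)) := measurable_one.indicator measurableSet_Icc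
  show ∫⁻ z, ENNReal.ofReal (fzOM P.fs a T σ 2 z z') ∂(ENNReal.ofReal (rdLen k / P.H) • (volume : Measure RdWvPar.Ph)) ≤ _
  rw [lintegral_smul_measure, smul_eq_mul, fz_off_iter5 _ hm]
  have key : ∫⁻ A1 : ℝ, ∫⁻ A2 : ℝ, ∫⁻ b1 : ℝ, ∫⁻ b2 : ℝ, ∫⁻ y : ℝ, ENNReal.ofReal (fzOM P.fs a T σ 2 ((A1, A2), (b1, b2), y) z')
      ≤ ENNReal.ofReal (2 * σ.eX) * ENNReal.ofReal (Real.pi * (P.fs * σ.eN)) * ENNReal.ofReal (Real.pi * σ.eB) * ENNReal.ofReal (Real.pi * (P.fs * σ.eD)) *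
          ENNReal.ofReal (Real.pi * σ.eY) := by
    calc _ ≤ ∫⁻ A1 : ℝ, ∫⁻ A2 : ℝ, ∫⁻ b1 : ℝ, ∫⁻ b2 : ℝ, ∫⁻ y : ℝ,
            (Set.Icc (z'.1.1 - σ.eX) (z'.1.1 + σ.eX)).indicator 1 A1 * ENNReal.ofReal (fzOw 2 ((P.fs * z'.2.2 - A2) / (P.fs * σ.eN))) *
            ENNReal.ofReal (fzOw 2 ((b1 - (z'.1.2.2.1 + T * z'.1.1)) / σ.eB)) * ENNReal.ofReal (fzOw 2 ((b2 - P.fs * z'.2.1) / (P.fs * σ.eD))) *
            ENNReal.ofReal (fzOw 2 ((y - (z'.1.2.2.2 + T * z'.1.1 ^ 2 + 2 * z'.1.1 * (b1 - z'.1.2.2.1 - T * z'.1.1))) / σ.eY)) :=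
          lintegral_mono fun A1 => lintegral_mono fun A2 => lintegral_mono fun b1 => lintegral_mono fun b2 => lintegral_mono fun y =>
            fz_off_M_le hfs a T σ ((A1, A2), (b1, b2), y) z'
      _ ≤ ∫⁻ A1 : ℝ, ∫⁻ A2 : ℝ, ∫⁻ b1 : ℝ, ∫⁻ b2 : ℝ,
            (Set.Icc (z'.1.1 - σ.eX) (z'.1.1 + σ.eX)).indicator 1 A1 * ENNReal.ofReal (fzOw 2 ((P.fs * z'.2.2 - A2) / (P.fs * σ.eN))) *
            ENNReal.ofReal (fzOw 2 ((b1 - (z'.1.2.2.1 + T * z'.1.1)) / σ.eB)) * ENNReal.ofReal (fzOw 2 ((b2 - P.fs * z'.2.1) / (P.fs * σ.eD))) *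
            ENNReal.ofReal (Real.pi * σ.eY) := by
          refine lintegral_mono fun A1 => lintegral_mono fun A2 => lintegral_mono fun b1 => lintegral_mono fun b2 => ?_
          rw [lintegral_const_mul _ (by fun_prop)]
          gcongr
          exact (fz_off_w_cov hY _).1
      _ ≤ ∫⁻ A1 : ℝ, ∫⁻ A2 : ℝ, ∫⁻ b1 : ℝ,
            (Set.Icc (z'.1.1 - σ.eX) (z'.1.1 + σ.eX)).indicator 1 A1 * ENNReal.ofReal (fzOw 2 ((P.fs * z'.2.2 - A2) / (P.fs * σ.eN))) *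
            ENNReal.ofReal (fzOw 2 ((b1 - (z'.1.2.2.1 + T * z'.1.1)) / σ.eB)) * ENNReal.ofReal (Real.pi * (P.fs * σ.eD)) *
            ENNReal.ofReal (Real.pi * σ.eY) := by
          refine lintegral_mono fun A1 => lintegral_mono fun A2 => lintegral_mono fun b1 => ?_
          rw [lintegral_mul_const _ (by fun_prop), lintegral_const_mul _ (by fun_prop)]
          gcongr
          exact (fz_off_w_cov (mul_pos hfs hD) _).1
      _ ≤ ∫⁻ A1 : ℝ, ∫⁻ A2 : ℝ,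
            (Set.Icc (z'.1.1 - σ.eX) (z'.1.1 + σ.eX)).indicator 1 A1 * ENNReal.ofReal (fzOw 2 ((P.fs * z'.2.2 - A2) / (P.fs * σ.eN))) *
            ENNReal.ofReal (Real.pi * σ.eB) * ENNReal.ofReal (Real.pi * (P.fs * σ.eD)) * ENNReal.ofReal (Real.pi * σ.eY) := by
          refine lintegral_mono fun A1 => lintegral_mono fun A2 => ?_
          rw [lintegral_mul_const _ (by fun_prop), lintegral_mul_const _ (by fun_prop), lintegral_const_mul _ (by fun_prop)]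
          gcongr
          exact (fz_off_w_cov hB _).1
      _ ≤ ∫⁻ A1 : ℝ,
            (Set.Icc (z'.1.1 - σ.eX) (z'.1.1 + σ.eX)).indicator 1 A1 * ENNReal.ofReal (Real.pi * (P.fs * σ.eN)) *
            ENNReal.ofReal (Real.pi * σ.eB) * ENNReal.ofReal (Real.pi * (P.fs * σ.eD)) * ENNReal.ofReal (Real.pi * σ.eY) := by
          refine lintegral_mono fun A1 => ?_
          rw [lintegral_mul_const _ (by fun_prop), lintegral_mul_const _ (by fun_prop), lintegral_mul_const _ (by fun_prop), lintegral_const_mul _ (by fun_prop)]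
          gcongr
          exact (fz_off_w_cov (mul_pos hfs hN) _).2
      _ = _ := by
          rw [lintegral_mul_const _ (by fun_prop), lintegral_mul_const _ (by fun_prop), lintegral_mul_const _ (by fun_prop), lintegral_mul_const _ h1,
            lintegral_indicator_one measurableSet_Icc, Real.volume_Icc]
          have : z'.1.1 + σ.eX - (z'.1.1 - σ.eX) = 2 * σ.eX := by ring
          rw [this]
  refine (mul_le_mul_right key _).trans (le_of_eq ?_)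
  rw [← ENNReal.ofReal_mul (by positivity), ← ENNReal.ofReal_mul (by positivity), ← ENNReal.ofReal_mul (by positivity), ← ENNReal.ofReal_mul (by positivity),
    ← ENNReal.ofReal_mul (by positivity)]
  congr 1
  unfold fzOV2
  ring

theorem fz_off_rw_sf (P : FzP) (a : ℝ) : SigmaFinite (fzHy P a).rw := by
  unfold ChyPar.rw
  have : SigmaFinite ((fzHy P a).m.prod (volume : Measure (ℝ × ℝ))) :=
    inferInstanceAs (SigmaFinite ((volume : Measure FzOm).prod (volume : Measure (ℝ × ℝ))))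
  exact SigmaFinite.withDensity_ofReal _

/-- **ABSTRACT EXIT**, `lintegral` form -/
theorem fz_off_abs_l (P : FzP) (h : P.Ok) {a : ℝ} (ha : 0 < a) (T : ℝ) (k β : ℕ) (σ : FzSc) (hσ : σ.Ok) (N : ℕ) {Bn Λ : ℝ} (hBn : 0 ≤ Bn) (hΛ : 0 < Λ)
    (Kf : RdWvPar.Ph → FzHr → ℂ) (S : Set RdWvPar.Ph) (S' : Set FzHr) (hS : MeasurableSet S)
    (hrep : ∀ F : Lp ℂ 2 (fzHy P a).rw, Integrable (F : FzHr → ℂ) (fzHy P a).rw →
      (fzC0 P h a T k β F : RdWvPar.Ph → ℂ) =ᵐ[(P.rd h).rw k] fun z => ∫ z', Kf z z' * (F : FzHr → ℂ) z' ∂(fzHy P a).rw)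
    (hmaj : ∀ z ∈ S, ∀ z', ‖Kf z z'‖ ≤ Bn * fzOM P.fs a T σ (N + 2) z z')
    (hfar : ∀ z ∈ S, ∀ z' ∈ S', fzOFar P.fs a T σ Λ z z')
    (F : Lp ℂ 2 (fzHy P a).rw) (hF : ∀ᵐ z' ∂(fzHy P a).rw, z' ∉ S' → (F : FzHr → ℂ) z' = 0) :
    ∫⁻ z in S, ‖(fzC0 P h a T k β F : RdWvPar.Ph → ℂ) z‖ₑ ^ 2 ∂((P.rd h).rw k)
      ≤ ENNReal.ofReal ((Bn * Λ ^ (-(N : ℝ))) ^ 2 * fzOV P a k σ) * ∫⁻ z', ‖(F : FzHr → ℂ) z'‖ₑ ^ 2 ∂(fzHy P a).rw := by
  have hsf := fz_off_rw_sf P a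
  have hsf' := rt_k_rw_sf (P.rd h) k
  set c : ℝ := Bn * Λ ^ (-(N : ℝ)) with hc
  have hc0 : 0 ≤ c := by positivity
  set M : RdWvPar.Ph → FzHr → ℝ≥0∞ := fun z z' => ENNReal.ofReal c * ENNReal.ofReal (fzOM P.fs a T σ 2 z z') with hM
  have hMm : Measurable (Function.uncurry M) := (fz_off_M_meas P.fs a T σ 2).ennreal_ofReal.const_mul _
  have hm1 : ∀ z : RdWvPar.Ph, Measurable fun z' : FzHr => ENNReal.ofReal (fzOM P.fs a T σ 2 z z') := fun z =>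
    ((fz_off_M_meas P.fs a T σ 2).comp (f := fun z' : FzHr => (z, z')) (by fun_prop)).ennreal_ofReal
  have hm2 : ∀ z' : FzHr, Measurable fun z : RdWvPar.Ph => ENNReal.ofReal (fzOM P.fs a T σ 2 z z') := fun z' =>
    ((fz_off_M_meas P.fs a T σ 2).comp (f := fun z : RdWvPar.Ph => (z, z')) (by fun_prop)).ennreal_ofReal
  have hA : ∀ z, ∫⁻ z', M z z' ∂(fzHy P a).rw ≤ ENNReal.ofReal c * ENNReal.ofReal (fzOV1 P a σ) := by
    intro z
    exact (le_of_eq (lintegral_const_mul _ (hm1 z))).trans (mul_le_mul_right (fz_off_sum1 P h ha T σ hσ z) _)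
  have hB : ∀ z', ∫⁻ z, M z z' ∂((P.rd h).rw k) ≤ ENNReal.ofReal c * ENNReal.ofReal (fzOV2 P k σ) := by
    intro z'
    exact (le_of_eq (lintegral_const_mul _ (hm2 z'))).trans (mul_le_mul_right (fz_off_sum2 P h a T k σ hσ z') _)
  have hdom : ∀ G : Lp ℂ 2 (fzHy P a).rw, Integrable (G : FzHr → ℂ) (fzHy P a).rw → (∀ᵐ z' ∂(fzHy P a).rw, z' ∉ S' → (G : FzHr → ℂ) z' = 0) →
      ∀ᵐ z ∂((P.rd h).rw k), z ∈ S → ‖(fzC0L P h a T k β G : RdWvPar.Ph → ℂ) z‖ₑ ≤ ∫⁻ z', M z z' * ‖(G : FzHr → ℂ) z'‖ₑ ∂(fzHy P a).rw := by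
    intro G hG hG0
    filter_upwards [hrep G hG] with z hz hzS
    rw [fz_off_c0L_apply, hz]
    refine (enorm_integral_le_lintegral_enorm _).trans (lintegral_mono_ae ?_)
    filter_upwards [hG0] with z' hz'
    by_cases hzS' : z' ∈ S'
    · rw [enorm_mul]
      gcongr
      show ‖Kf z z'‖ₑ ≤ ENNReal.ofReal c * ENNReal.ofReal (fzOM P.fs a T σ 2 z z')
      rw [← ENNReal.ofReal_mul hc0, ← ofReal_norm]
      apply ENNReal.ofReal_le_ofReal
      refine (hmaj z hzS z').trans ?_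
      rw [hc, mul_assoc]
      exact mul_le_mul_of_nonneg_left (fz_off_M_gain P.fs a T σ hσ N hΛ z z' (hfar z hzS z' hzS')) hBn
    · rw [hz' hzS']
      simp
  have hgen := fz_off_gen (fzC0L P h a T k β) M hMm _ _ hA hB S S' hS hdom F hF
  rw [fz_off_c0L_apply] at hgen
  refine hgen.trans (le_of_eq ?_)
  congr 1
  have hV1 : 0 ≤ fzOV1 P a σ := by
    have := fz_off_Hf_pos P h
    have := hσ.eX_pos
    have := hσ.eB_pos
    have := hσ.eY_pos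
    have := hσ.eD_pos
    have := hσ.eN_pos
    have := Real.pi_pos
    unfold fzOV1
    positivity
  rw [← ENNReal.ofReal_mul hc0, ← ENNReal.ofReal_mul hc0, ← ENNReal.ofReal_mul (by positivity)]
  congr 1
  unfold fzOV
  ring

/-- **ABSTRACT EXIT**, real form -/
theorem fz_off_abs (P : FzP) (h : P.Ok) {a : ℝ} (ha : 0 < a) (T : ℝ) (k β : ℕ) (σ : FzSc) (hσ : σ.Ok) (N : ℕ) {Bn Λ : ℝ} (hBn : 0 ≤ Bn) (hΛ : 0 < Λ)
    (Kf : RdWvPar.Ph → FzHr → ℂ) (S : Set RdWvPar.Ph) (S' : Set FzHr) (hS : MeasurableSet S)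
    (hrep : ∀ F : Lp ℂ 2 (fzHy P a).rw, Integrable (F : FzHr → ℂ) (fzHy P a).rw →
      (fzC0 P h a T k β F : RdWvPar.Ph → ℂ) =ᵐ[(P.rd h).rw k] fun z => ∫ z', Kf z z' * (F : FzHr → ℂ) z' ∂(fzHy P a).rw)
    (hmaj : ∀ z ∈ S, ∀ z', ‖Kf z z'‖ ≤ Bn * fzOM P.fs a T σ (N + 2) z z')
    (hfar : ∀ z ∈ S, ∀ z' ∈ S', fzOFar P.fs a T σ Λ z z')
    (F : Lp ℂ 2 (fzHy P a).rw) (hF : ∀ᵐ z' ∂(fzHy P a).rw, z' ∉ S' → (F : FzHr → ℂ) z' = 0) :
    ∫ z in S, ‖(fzC0 P h a T k β F : RdWvPar.Ph → ℂ) z‖ ^ 2 ∂((P.rd h).rw k) ≤ (Bn * Λ ^ (-(N : ℝ))) ^ 2 * fzOV P a k σ * ‖F‖ ^ 2 := by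
  have h1 := fz_off_abs_l P h ha T k β σ hσ N hBn hΛ Kf S S' hS hrep hmaj hfar F hF
  have hV : 0 ≤ (Bn * Λ ^ (-(N : ℝ))) ^ 2 * fzOV P a k σ := by
    have := fz_off_Hf_pos P h
    have := hσ.eX_pos
    have := hσ.eB_pos
    have := hσ.eY_pos
    have := hσ.eD_pos
    have := hσ.eN_pos
    have := Real.pi_pos
    have := h.H_pos
    have := h.fs_pos
    have := rdLen_pos k
    unfold fzOV fzOV1 fzOV2
    positivity
  have e1 : ∫⁻ z', ‖(F : FzHr → ℂ) z'‖ₑ ^ 2 ∂(fzHy P a).rw = ENNReal.ofReal (‖F‖ ^ 2) := by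
    rw [rt_k_norm_sq F]
    exact rt_w1c_lint_sq (Lp.memLp F)
  have e2 : ∫⁻ z in S, ‖(fzC0 P h a T k β F : RdWvPar.Ph → ℂ) z‖ₑ ^ 2 ∂((P.rd h).rw k)
      = ENNReal.ofReal (∫ z in S, ‖(fzC0 P h a T k β F : RdWvPar.Ph → ℂ) z‖ ^ 2 ∂((P.rd h).rw k)) :=
    rt_w1c_lint_sq ((Lp.memLp (fzC0 P h a T k β F)).restrict S)
  rw [e1, e2, ← ENNReal.ofReal_mul hV] at h1
  exact (ENNReal.ofReal_le_ofReal_iff (by positivity)).1 h1

end Claimed.Agent.R256
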