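-- KEEP
import Claimed.Agent.R256.Fz.OffCore
import Claimed.Agent.R256.Fz.KContract
import Claimed.Agent.R256.Fz.MDefs

/-!
# Row 256 (LS paper), folder Fz, file Off : UNIT FZ-OFF, THE EXIT `fz_off_main`          (owner helper256; prefix `fz_off_`)

`fz_off_main` is VERBATIM the statement `fz_off` of `Fz/Seam.lean`.      Plan: report 951.
* `fz_off_KM_le`    the majorant `fzKM` of the cross kernel (helper295, `Fz/KContract.lean`) is `≤ fzKN * fzOM (fzSc P a k)`, the product majorant of `Fz/OffCore.lean`.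
* `fz_off_KN_vol`   normalisation times the two Schur sums: `fzKN^2 * fzOV ≤ 144 π^7 fs q_c / (ℓ tX tS)` (scale free up to a finite power of `δ⁻¹`).
* `fz_off_far`      geometry: rows which are not `cyNear` are off the correspondence by `Λ` in one of the five normalised differences.
* `fz_off_par`      PARAMETRIC EXIT for general windows (`Λ, l, eb, en, R` with five scale conditions).
* `fz_off_reg`, `fz_off_scales`, `fz_off_loss`, `fz_off_small`, `fz_off_fin`   the numerics for `tX = √H δ^S`, `tS = Hf δ^S`, `Λ = δ^(-g/2)`, `g = min g1 1`, `Zf = S1 + 2 S + 6`.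
-/

set_option autoImplicit false

namespace Claimed.Agent.R256

open MeasureTheory
open scoped ENNReal

theorem fz_off_sc_ok (P : FzP) (h : P.Ok) {a : ℝ} (ha : 0 < a) (k : ℕ) : (fzSc P a k).Ok := by
  have hH := h.H_pos
  have h1 := h.fs_pos
  have h2 := h.tX_pos
  have h3 := h.tS_pos
  obtain ⟨hq, -⟩ := rt_k_q_pos hH k
  obtain ⟨hd, -⟩ := rt_k_d_pos hH k
  refine ⟨?_, ?_, ?_, ?_, ?_⟩ <;> simp only [fzSc] <;> positivity

/-- the weight of `Rt/Ker.lean` is dominated by a product -/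
theorem fz_off_KW_le (M : ℕ) (P1 P2 P3 : ℝ) : rtKW (3 * M) ((P1, P2), P3) ≤ fzOw M P1 * fzOw M P2 * fzOw M P3 := by
  unfold rtKW fzOw
  rw [← mul_inv, ← mul_inv, ← mul_pow, ← mul_pow, pow_mul]
  apply inv_anti₀ (by positivity)
  apply pow_le_pow_left₀ (by positivity)
  set r := Real.sqrt (rtSq (P1, P2)) with hr
  have h1 : |P1| ≤ r := by
    apply Real.abs_le_sqrt
    unfold rtSq
    nlinarith [sq_nonneg P2]
  have h2 : |P2| ≤ r := by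
    apply Real.abs_le_sqrt
    unfold rtSq
    nlinarith [sq_nonneg P1]
  have h3 := abs_nonneg P3
  have h4 := abs_nonneg P1
  have h5 := abs_nonneg P2
  have g1 : 1 + |P1| ≤ 1 + r + |P3| := by linarith
  have g2 : 1 + |P2| ≤ 1 + r + |P3| := by linarith
  have g3 : 1 + |P3| ≤ 1 + r + |P3| := by linarith
  calc (1 + |P1|) * (1 + |P2|) * (1 + |P3|) ≤ (1 + r + |P3|) * (1 + r + |P3|) * (1 + r + |P3|) :=
        mul_le_mul (mul_le_mul g1 g2 (by linarith) (by linarith)) g3 (by linarith) (by positivity)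
    _ = _ := by ring

/-- **the majorant of FZ-K is dominated by the product majorant at the scales `fzSc`** -/
theorem fz_off_KM_le (P : FzP) (h : P.Ok) {a : ℝ} (ha : 0 < a) (T : ℝ) (k M : ℕ) (x : RdWvPar.Ph) (z : FzRw) :
    fzKM P a T k (3 * M) x z ≤ fzKN P a k * fzOM P.fs a T (fzSc P a k) M x z := by
  have hH := h.H_pos
  have h1 := h.fs_pos
  have h2 := h.tX_pos
  have h3 := h.tS_pos
  obtain ⟨hq, -⟩ := rt_k_q_pos hH k
  obtain ⟨hd, -⟩ := rt_k_d_pos hH k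
  have hN := fz_k_N_nonneg P h a k
  unfold fzKM fzOM
  by_cases hc : |(x.1.1 - z.1.1) / rdD P.H k| ≤ 3 ∧ z.1 ∈ fzBand a
  · have hc' : |fzDx x z| ≤ (fzSc P a k).eX ∧ z.1 ∈ fzBand a := by
      refine ⟨?_, hc.2⟩
      have := hc.1
      rw [abs_div, abs_of_pos hd, div_le_iff₀ hd] at this
      unfold fzDx
      simp only [fzSc]
      rw [abs_sub_comm]
      exact this
    rw [if_pos hc, if_pos hc', mul_assoc]
    apply mul_le_mul_of_nonneg_left _ hN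
    have e1 : fzDb T x z / (fzSc P a k).eB = (fzKX P T k x z).1 := by
      simp only [fzSc, fzKX, fzDb, fzKDb]
      field_simp
    have e2 : fzDd P.fs x z / (fzSc P a k).eD = (fzKX P T k x z).2 := by
      simp only [fzSc, fzKX, fzDd]
      field_simp
    have e3 : fzDz T x z / (fzSc P a k).eY = fzKY P T x z := by
      simp only [fzSc, fzKY, fzDz, fzKDz, fzDb, fzKDb]
      field_simp
    have e4 : |fzDn P.fs x z / (fzSc P a k).eN| ≤ |fzKa2 P k x z| := by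
      have e5 : fzDn P.fs x z / (fzSc P a k).eN = -(a * (x.1.2 - P.fs * z.2.2) / rdD P.H k) := by
        simp only [fzSc, fzDn]
        field_simp
        ring
      rw [e5, abs_neg]
      unfold fzKa2
      rw [abs_div, abs_div, abs_mul, abs_mul, abs_of_pos ha, abs_of_pos (lt_of_lt_of_le ha hc.2.1)]
      gcongr
      exact hc.2.1
    rw [e1, e2, e3]
    have k1 := fz_off_KW_le M (fzKX P T k x z).1 (fzKX P T k x z).2 (fzKY P T x z)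
    have k2 : ((1 + |fzKa2 P k x z|) ^ (3 * M))⁻¹ ≤ fzOw M (fzDn P.fs x z / (fzSc P a k).eN) := by
      unfold fzOw
      apply inv_anti₀ (by positivity)
      calc (1 + |fzDn P.fs x z / (fzSc P a k).eN|) ^ M ≤ (1 + |fzKa2 P k x z|) ^ M := by gcongr
        _ ≤ (1 + |fzKa2 P k x z|) ^ (3 * M) := pow_le_pow_right₀ (by linarith [abs_nonneg (fzKa2 P k x z)]) (by omega)
    have hp := fun t => (fz_off_w_pos M t).le
    calc ((1 + |fzKa2 P k x z|) ^ (3 * M))⁻¹ * rtKW (3 * M) (fzKX P T k x z, fzKY P T x z)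
        ≤ fzOw M (fzDn P.fs x z / (fzSc P a k).eN) * (fzOw M (fzKX P T k x z).1 * fzOw M (fzKX P T k x z).2 * fzOw M (fzKY P T x z)) := by
          apply mul_le_mul k2 k1 (rt_k_w_nonneg _ _) (hp _)
      _ = _ := by ring
  · rw [if_neg hc]
    exact mul_nonneg hN (by
      split_ifs
      · have hp := fun t => (fz_off_w_pos M t).le
        exact mul_nonneg (mul_nonneg (mul_nonneg (hp _) (hp _)) (hp _)) (hp _)
      · exact le_refl _)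

/-- the product of the Schur sums at the scales of the cross kernel -/
theorem fz_off_vol (P : FzP) (h : P.Ok) {a : ℝ} (ha : 0 < a) (k : ℕ) :
    fzOV P a k (fzSc P a k) = 144 * Real.pi ^ 7 * P.H ^ 4 * rdQ P.H k ^ 2 / (rdLen k * P.tX ^ 2 * P.tS ^ 2) := by
  have hH := h.H_pos
  have h1 := h.fs_pos
  have h2 := h.tX_pos
  have h3 := h.tS_pos
  have hl := rdLen_pos k
  have hpi := Real.pi_pos
  obtain ⟨hq, -⟩ := rt_k_q_pos hH k
  obtain ⟨hd, hd2⟩ := rt_k_d_pos hH k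
  have hd4 : rdD P.H k ^ 4 = P.H ^ 2 / rdLen k ^ 2 := by
    have : rdD P.H k ^ 4 = (rdD P.H k ^ 2) ^ 2 := by ring
    rw [this, hd2, div_pow]
  have e : fzOV P a k (fzSc P a k) = 144 * Real.pi ^ 7 * rdLen k * rdD P.H k ^ 4 * rdQ P.H k ^ 2 * P.H ^ 2 / (P.tX ^ 2 * P.tS ^ 2) := by
    unfold fzOV fzOV1 fzOV2 FzP.Hf
    simp only [fzSc]
    field_simp
    ring
  rw [e, hd4]
  field_simp

/-- the square of the normalisation of FZ-K -/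
theorem fz_off_KN_sq (P : FzP) (h : P.Ok) {a : ℝ} (ha : 0 < a) (k : ℕ) :
    fzKN P a k ^ 2 ≤ P.fs * (fzHy P a).ql k * P.tX * P.tS / (P.H ^ 4 * rdQ P.H k ^ 2) := by
  have hH := h.H_pos
  have h1 := h.fs_pos
  have h2 := h.tX_pos
  have h3 := h.tS_pos
  have hpi := Real.pi_pos
  have hpi1 : 1 ≤ Real.pi := by linarith [Real.pi_gt_three]
  obtain ⟨hq, -⟩ := rt_k_q_pos hH k
  have hqc : 0 ≤ (fzHy P a).ql k := Real.sqrt_nonneg _
  have a1 : ((2 * Real.pi) ^ (-(3 / 2) : ℝ)) ^ 2 ≤ 1 := by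
    apply pow_le_one₀ (by positivity)
    exact Real.rpow_le_one_of_one_le_of_nonpos (by linarith) (by norm_num)
  have a2 : P.cW ^ 2 ≤ (P.tX * P.tS * P.fs)⁻¹ := by
    unfold FzP.cW
    rw [inv_pow, Real.sq_sqrt (by positivity)]
    apply inv_anti₀ (by positivity)
    have : 1 ≤ (2 * Real.pi) ^ 2 := one_le_pow₀ (by linarith)
    calc P.tX * P.tS * P.fs = 1 * (P.tX * P.tS * P.fs) := (one_mul _).symm
      _ ≤ (2 * Real.pi) ^ 2 * (P.tX * P.tS * P.fs) := by gcongr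
      _ = _ := by ring
  have a3 : (((fzHy P a).ql k ^ 2 / Real.pi) ^ (1 / 4 : ℝ)) ^ 2 ≤ (fzHy P a).ql k := by
    rw [← Real.rpow_natCast, ← Real.rpow_mul (by positivity)]
    have e : (1 / 4 : ℝ) * ((2 : ℕ) : ℝ) = 1 / 2 := by norm_num
    rw [e, ← Real.sqrt_eq_rpow]
    calc Real.sqrt ((fzHy P a).ql k ^ 2 / Real.pi) ≤ Real.sqrt ((fzHy P a).ql k ^ 2) :=
          Real.sqrt_le_sqrt (div_le_self (by positivity) hpi1)
      _ = _ := Real.sqrt_sq hqc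
  have a4 : (P.tX * P.tS / (2 * P.H ^ 2 * rdQ P.H k)) ^ 2 ≤ P.tX ^ 2 * P.tS ^ 2 / (P.H ^ 4 * rdQ P.H k ^ 2) := by
    have e : (P.tX * P.tS / (2 * P.H ^ 2 * rdQ P.H k)) ^ 2 = P.tX ^ 2 * P.tS ^ 2 / (P.H ^ 4 * rdQ P.H k ^ 2) / 4 := by
      field_simp
      ring
    rw [e]
    exact div_le_self (by positivity) (by norm_num)
  unfold fzKN
  calc ((2 * Real.pi) ^ (-(3 / 2) : ℝ) * P.fs * P.cW * ((fzHy P a).ql k ^ 2 / Real.pi) ^ (1 / 4 : ℝ) * (P.tX * P.tS / (2 * P.H ^ 2 * rdQ P.H k))) ^ 2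
      = ((2 * Real.pi) ^ (-(3 / 2) : ℝ)) ^ 2 * P.fs ^ 2 * P.cW ^ 2 * (((fzHy P a).ql k ^ 2 / Real.pi) ^ (1 / 4 : ℝ)) ^ 2 *
          (P.tX * P.tS / (2 * P.H ^ 2 * rdQ P.H k)) ^ 2 := by ring
    _ ≤ 1 * P.fs ^ 2 * (P.tX * P.tS * P.fs)⁻¹ * (fzHy P a).ql k * (P.tX ^ 2 * P.tS ^ 2 / (P.H ^ 4 * rdQ P.H k ^ 2)) := by
        gcongr
    _ = _ := by
        field_simp

/-- `fzKN² · fzOV ≤ 144 π⁷ fs q_c / (ℓ tX tS)` -/
theorem fz_off_KN_vol (P : FzP) (h : P.Ok) {a : ℝ} (ha : 0 < a) (k : ℕ) :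
    fzKN P a k ^ 2 * fzOV P a k (fzSc P a k) ≤ 144 * Real.pi ^ 7 * (P.fs * (fzHy P a).ql k / (rdLen k * P.tX * P.tS)) := by
  have hH := h.H_pos
  have h1 := h.fs_pos
  have h2 := h.tX_pos
  have h3 := h.tS_pos
  have hl := rdLen_pos k
  have hpi := Real.pi_pos
  obtain ⟨hq, -⟩ := rt_k_q_pos hH k
  rw [fz_off_vol P h ha k]
  calc fzKN P a k ^ 2 * (144 * Real.pi ^ 7 * P.H ^ 4 * rdQ P.H k ^ 2 / (rdLen k * P.tX ^ 2 * P.tS ^ 2))
      ≤ (P.fs * (fzHy P a).ql k * P.tX * P.tS / (P.H ^ 4 * rdQ P.H k ^ 2)) * (144 * Real.pi ^ 7 * P.H ^ 4 * rdQ P.H k ^ 2 / (rdLen k * P.tX ^ 2 * P.tS ^ 2)) := by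
        gcongr
        exact fz_off_KN_sq P h ha k
    _ = _ := by
        field_simp

/-- **geometry**: rows which are not `cyNear` are off the correspondence -/
theorem fz_off_far (P : FzP) (a T : ℝ) (σ : FzSc) {Λ l eb en R : ℝ} (h1 : σ.eX ≤ eb) (h2 : Λ * σ.eB ≤ l * eb)
    (h3 : Λ * σ.eY + 2 * (R + eb) * (Λ * σ.eB) ≤ l * eb) (h4 : Λ * σ.eN ≤ en) (h5 : Λ * σ.eD ≤ l * en)
    (z : RdWvPar.Ph) (z' : FzHr) (hz : z ∈ fzIn P.fs R) (hn : ¬ cyNear l eb en (fzFl P.fs z) ((fzHy P a).co T z')) : fzOFar P.fs a T σ Λ z z' := by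
  by_contra hf
  unfold fzOFar at hf
  push Not at hf
  obtain ⟨f1, -, f3, f4, f5, f6⟩ := hf
  apply hn
  have hA : |z.1.1| ≤ R := hz.1
  have hX0 : |z'.1.1| ≤ R + eb := by
    have : z'.1.1 = z.1.1 + fzDx z z' := by unfold fzDx; ring
    rw [this]
    exact (abs_add_le _ _).trans (add_le_add hA (f1.trans h1))
  refine ⟨?_, ?_, ?_, ?_, ?_⟩
  · show |z'.1.1 - z.1.1| ≤ eb
    exact f1.trans h1
  · show |z'.1.2.2.1 + T * z'.1.1 - z.2.1.1| ≤ l * eb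
    have : z'.1.2.2.1 + T * z'.1.1 - z.2.1.1 = -fzDb T z z' := by unfold fzDb; ring
    rw [this, abs_neg]
    exact f3.trans h2
  · show |z'.1.2.2.2 + T * z'.1.1 ^ 2 - z.2.2| ≤ l * eb
    have : z'.1.2.2.2 + T * z'.1.1 ^ 2 - z.2.2 = -(fzDz T z z' + 2 * z'.1.1 * fzDb T z z') := by unfold fzDz; ring
    rw [this, abs_neg]
    refine le_trans ((abs_add_le _ _).trans (add_le_add f4 ?_)) h3
    rw [abs_mul, abs_mul, abs_of_pos (by norm_num : (0 : ℝ) < 2)]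
    have hR : 0 ≤ R + eb := (abs_nonneg _).trans hX0
    exact mul_le_mul (mul_le_mul_of_nonneg_left hX0 (by norm_num)) f3 (abs_nonneg _) (by positivity)
  · show |z'.2.2 - z.1.2 / P.fs| ≤ en
    exact f6.trans h4
  · show |z'.2.1 - z.2.1.2 / P.fs| ≤ l * en
    rw [abs_sub_comm]
    exact f5.trans h5

/-- **PARAMETRIC EXIT**: the off-diagonal bound for general window widths, in terms of `cyNear` -/
theorem fz_off_par (bm N : ℕ) (a : ℝ) (ha : 0 < a) : ∃ C : ℝ, 0 ≤ C ∧ ∀ (P : FzP) (h : P.Ok) (T : ℝ) (k β : ℕ), β ≤ bm →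
    ∀ (Λ l eb en R : ℝ), 0 < Λ → (fzSc P a k).eX ≤ eb → Λ * (fzSc P a k).eB ≤ l * eb →
      Λ * (fzSc P a k).eY + 2 * (R + eb) * (Λ * (fzSc P a k).eB) ≤ l * eb → Λ * (fzSc P a k).eN ≤ en → Λ * (fzSc P a k).eD ≤ l * en →
    ∀ (Sr : Set RdWvPar.Ph) (Sc : Set (FzOm × ℝ × ℝ)), MeasurableSet Sr → Sr ⊆ fzIn P.fs R → (∀ z ∈ Sr, FzKReg P a T k z.1.2) →
      (∀ z ∈ Sr, ∀ z' ∈ Sc, ¬ cyNear l eb en (fzFl P.fs z) ((fzHy P a).co T z')) →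
      ∀ F : Lp ℂ 2 (fzHy P a).rw, (∀ᵐ z' ∂(fzHy P a).rw, z' ∉ Sc → (F : FzOm × ℝ × ℝ → ℂ) z' = 0) →
        ∫ z in Sr, ‖(fzC0 P h a T k β F : RdWvPar.Ph → ℂ) z‖ ^ 2 ∂((P.rd h).rw k)
          ≤ (C * Λ ^ (-(N : ℝ))) ^ 2 * (144 * Real.pi ^ 7 * (P.fs * (fzHy P a).ql k / (rdLen k * P.tX * P.tS))) * ‖F‖ ^ 2 := by
  obtain ⟨C, hC, hmaj⟩ := fz_k_maj bm (3 * (N + 2)) a ha
  refine ⟨C, hC, ?_⟩
  intro P h T k β hβ Λ l eb en R hΛ c1 c2 c3 c4 c5 Sr Sc hSr hIn hreg hnear F hF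
  have hN := fz_k_N_nonneg P h a k
  have key := fz_off_abs P h ha T k β (fzSc P a k) (fz_off_sc_ok P h ha k) N (Bn := C * fzKN P a k) (Λ := Λ) (mul_nonneg hC hN) hΛ
    (fzK P h a T k β) Sr Sc hSr (fun G hG => fz_k_rep P h a T k β ha G hG)
    (fun z hz z' => by
      refine (hmaj P h T k β z z' hβ (hreg z hz)).trans ?_
      rw [mul_assoc]
      exact mul_le_mul_of_nonneg_left (fz_off_KM_le P h ha T k (N + 2) z z') hC)
    (fun z hz z' hz' => fz_off_far P a T (fzSc P a k) c1 c2 c3 c4 c5 z z' (hIn hz) (hnear z hz z' hz')) F hF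
  refine key.trans ?_
  apply mul_le_mul_of_nonneg_right _ (by positivity)
  have e : (C * fzKN P a k * Λ ^ (-(N : ℝ))) ^ 2 * fzOV P a k (fzSc P a k) = (C * Λ ^ (-(N : ℝ))) ^ 2 * (fzKN P a k ^ 2 * fzOV P a k (fzSc P a k)) := by ring
  rw [e]
  exact mul_le_mul_of_nonneg_left (fz_off_KN_vol P h ha k) (by positivity)

/-- `d_ℓ = fs dF`, `q_ℓ / fs = ℓ dF`, `dF = √(Hf 2^k)` -/
theorem fz_off_dF {H fs : ℝ} (hH : 0 < H) (hfs : 0 < fs) (k : ℕ) :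
    rdD H k = fs * Real.sqrt (H / fs ^ 2 * 2 ^ k) ∧ rdQ H k / fs = rdLen k * Real.sqrt (H / fs ^ 2 * 2 ^ k) := by
  have hl := rdLen_pos k
  have hl2 : rdLen k = (2 ^ k : ℝ)⁻¹ := by unfold rdLen; rw [inv_pow]
  constructor
  · unfold rdD
    rw [← Real.sqrt_sq hfs.le, ← Real.sqrt_mul (by positivity), Real.sqrt_sq hfs.le, hl2]
    congr 1
    field_simp
  · unfold rdQ
    rw [div_eq_iff hfs.ne', ← Real.sqrt_sq hl.le, ← Real.sqrt_mul (by positivity), ← Real.sqrt_sq hfs.le, ← Real.sqrt_mul (by positivity), Real.sqrt_sq hfs.le,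
      Real.sqrt_sq hl.le, hl2]
    congr 1
    field_simp

/-- the region of validity of the majorant of FZ-K for the adapted windows -/
theorem fz_off_reg {H fs S δ a T : ℝ} {k : ℕ} (hH : 0 < H) (hfs : 0 < fs) (hS : 0 < S) (hδ0 : 0 < δ) (hδ1 : δ ≤ 1) (ha : 0 < a) (hT0 : 0 ≤ T) (hT1 : T ≤ 1)
    (hHf : H / fs ^ 2 ≤ δ) (hl : δ ≤ rdLen k) (r1 : δ ^ S ≤ a) (r2 : 2 * a * δ ^ (S / 2) ≤ 1) {A2 : ℝ} (hA : |A2 / fs| ≤ δ ^ (-(S / 4))) :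
    FzKReg ⟨H, fs, Real.sqrt H * δ ^ S, H / fs ^ 2 * δ ^ S⟩ a T k A2 := by
  have hHf0 : 0 < H / fs ^ 2 := by positivity
  have hδS : δ ^ S ≤ 1 := Real.rpow_le_one hδ0.le hδ1 hS.le
  have hδS0 : 0 < δ ^ S := Real.rpow_pos_of_pos hδ0 S
  have hl0 := rdLen_pos k
  have hl1 : rdLen k ≤ 1 := by unfold rdLen; exact pow_le_one₀ (by norm_num) (by norm_num)
  have hsq : Real.sqrt H ^ 2 = H := Real.sq_sqrt hH.le
  have hsH : 0 < Real.sqrt H := Real.sqrt_pos.2 hH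
  have hHf1 : H / fs ^ 2 ≤ 1 := hHf.trans hδ1
  have hdge : Real.sqrt H ≤ rdD H k := by
    unfold rdD
    apply Real.sqrt_le_sqrt
    rw [le_div_iff₀ hl0]
    nlinarith
  have hA2 : |A2| ≤ fs * δ ^ (-(S / 4)) := by
    rw [abs_div, abs_of_pos hfs, div_le_iff₀ hfs] at hA
    linarith
  refine ⟨hT0, ?_, ?_, ?_, ?_, ?_, ?_⟩
  · show Real.sqrt H * δ ^ S ≤ rdD H k
    calc Real.sqrt H * δ ^ S ≤ Real.sqrt H * 1 := by gcongr
      _ = Real.sqrt H := mul_one _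
      _ ≤ _ := hdge
  · show T * (Real.sqrt H * δ ^ S) ^ 2 ≤ H
    rw [mul_pow, hsq]
    have : (δ ^ S) ^ 2 ≤ 1 := pow_le_one₀ hδS0.le hδS
    calc T * (H * (δ ^ S) ^ 2) ≤ 1 * (H * 1) := by gcongr
      _ = H := by ring
  · show H / fs ^ 2 * δ ^ S ≤ 1
    calc H / fs ^ 2 * δ ^ S ≤ 1 * 1 := by gcongr
      _ = 1 := one_mul _
  · show T * (H / fs ^ 2 * δ ^ S) ≤ a * rdLen k
    calc T * (H / fs ^ 2 * δ ^ S) ≤ 1 * (rdLen k * a) := by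
          gcongr
          exact hHf.trans hl
      _ = _ := by ring
  · show 2 * a * (T * (H / fs ^ 2 * δ ^ S) * A2 ^ 2) ≤ H
    have h1 : A2 ^ 2 ≤ fs ^ 2 * δ ^ (-(S / 2)) := by
      have e : δ ^ (-(S / 2)) = (δ ^ (-(S / 4))) ^ 2 := by
        rw [← Real.rpow_natCast, ← Real.rpow_mul hδ0.le]
        congr 1
        push_cast
        ring
      rw [e, ← mul_pow, ← sq_abs A2]
      exact pow_le_pow_left₀ (abs_nonneg _) hA2 2
    have e2 : δ ^ S * δ ^ (-(S / 2)) = δ ^ (S / 2) := by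
      rw [← Real.rpow_add hδ0]
      congr 1
      ring
    calc 2 * a * (T * (H / fs ^ 2 * δ ^ S) * A2 ^ 2) ≤ 2 * a * (1 * (H / fs ^ 2 * δ ^ S) * (fs ^ 2 * δ ^ (-(S / 2)))) := by gcongr
      _ = H * (2 * a * (δ ^ S * δ ^ (-(S / 2)))) := by field_simp
      _ = H * (2 * a * δ ^ (S / 2)) := by rw [e2]
      _ ≤ H * 1 := by gcongr
      _ = H := mul_one _
  · show H / fs ^ 2 * δ ^ S * |A2| ≤ rdD H k
    have e3 : δ ^ S * δ ^ (-(S / 4)) ≤ 1 := by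
      rw [← Real.rpow_add hδ0]
      exact Real.rpow_le_one hδ0.le hδ1 (by linarith)
    have h5 : H / fs ^ 2 * fs ≤ Real.sqrt H := by
      have e5 : Real.sqrt H = fs * Real.sqrt (H / fs ^ 2) := by
        rw [← Real.sqrt_sq hfs.le, ← Real.sqrt_mul (by positivity), Real.sqrt_sq hfs.le]
        congr 1
        field_simp
      have h6 : H / fs ^ 2 ≤ Real.sqrt (H / fs ^ 2) := by
        apply Real.le_sqrt_of_sq_le
        nlinarith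
      rw [e5, mul_comm]
      gcongr
    calc H / fs ^ 2 * δ ^ S * |A2| ≤ H / fs ^ 2 * δ ^ S * (fs * δ ^ (-(S / 4))) := by gcongr
      _ = H / fs ^ 2 * fs * (δ ^ S * δ ^ (-(S / 4))) := by ring
      _ ≤ H / fs ^ 2 * fs * 1 := by gcongr
      _ = H / fs ^ 2 * fs := mul_one _
      _ ≤ Real.sqrt H := h5
      _ ≤ _ := hdge

/-- the five scale conditions of `fz_off_par` for the adapted windows -/
theorem fz_off_scales {H fs S S1 g1 δ a : ℝ} {k : ℕ} (hH : 0 < H) (hfs : 0 < fs) (hS : 0 < S) (hS1 : 0 < S1) (hg1 : 0 < g1) (hδ0 : 0 < δ) (hδ2 : δ ≤ 1 / 2)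
    (ha : 0 < a) (hHf : H / fs ^ 2 ≤ δ) (hl : δ ≤ rdLen k) (hfsZ : fs ≤ δ ^ (S1 + 2 * S + g1 + 5)) (r3 : δ ^ (g1 / 2) ≤ a) :
    (fzSc ⟨H, fs, Real.sqrt H * δ ^ S, H / fs ^ 2 * δ ^ S⟩ a k).eX ≤ δ ^ S1 ∧
    δ ^ (-(g1 / 2)) * (fzSc ⟨H, fs, Real.sqrt H * δ ^ S, H / fs ^ 2 * δ ^ S⟩ a k).eB ≤ rdLen k * δ ^ S1 ∧
    δ ^ (-(g1 / 2)) * (fzSc ⟨H, fs, Real.sqrt H * δ ^ S, H / fs ^ 2 * δ ^ S⟩ a k).eY +
      2 * (δ ^ (-(S / 4)) + δ ^ S1) * (δ ^ (-(g1 / 2)) * (fzSc ⟨H, fs, Real.sqrt H * δ ^ S, H / fs ^ 2 * δ ^ S⟩ a k).eB) ≤ rdLen k * δ ^ S1 ∧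
    δ ^ (-(g1 / 2)) * (fzSc ⟨H, fs, Real.sqrt H * δ ^ S, H / fs ^ 2 * δ ^ S⟩ a k).eN ≤ max (δ ^ S1) (δ ^ (-g1) * Real.sqrt (H / fs ^ 2 * 2 ^ k)) ∧
    δ ^ (-(g1 / 2)) * (fzSc ⟨H, fs, Real.sqrt H * δ ^ S, H / fs ^ 2 * δ ^ S⟩ a k).eD ≤
      rdLen k * max (δ ^ S1) (δ ^ (-g1) * Real.sqrt (H / fs ^ 2 * 2 ^ k)) := by
  have hδ1 : δ ≤ 1 := by linarith
  have hl0 := rdLen_pos k
  have hl2 : rdLen k = (2 ^ k : ℝ)⁻¹ := by unfold rdLen; rw [inv_pow]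
  obtain ⟨e1, e2⟩ := fz_off_dF hH hfs k
  set dF := Real.sqrt (H / fs ^ 2 * 2 ^ k) with hdF
  have hdF0 : 0 ≤ dF := Real.sqrt_nonneg _
  have hdF1 : dF ≤ 1 := by
    rw [hdF, Real.sqrt_le_one]
    calc H / fs ^ 2 * 2 ^ k ≤ rdLen k * 2 ^ k := by
          gcongr
          exact hHf.trans hl
      _ = 1 := by rw [hl2]; field_simp
  have mono : ∀ {x y : ℝ}, x ≤ y → δ ^ y ≤ δ ^ x := fun hxy => Real.rpow_le_rpow_of_exponent_ge hδ0 hδ1 hxy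
  have pos : ∀ x : ℝ, 0 < δ ^ x := fun x => Real.rpow_pos_of_pos hδ0 x
  have hfs1 : fs ≤ 1 := hfsZ.trans (Real.rpow_le_one hδ0.le hδ1 (by linarith))
  have hsH : Real.sqrt H ≤ fs := by
    rw [← Real.sqrt_sq hfs.le]
    apply Real.sqrt_le_sqrt
    have : H / fs ^ 2 ≤ 1 := hHf.trans hδ1
    rwa [div_le_one (by positivity)] at this
  have hsH0 : 0 < Real.sqrt H := Real.sqrt_pos.2 hH
  have hinv : (δ ^ S)⁻¹ = δ ^ (-S) := (Real.rpow_neg hδ0.le S).symm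
  -- the basic small quantity
  set W := δ ^ (-(g1 / 2)) * (fs * δ ^ (-S)) with hW
  have hW0 : 0 < W := mul_pos (pos _) (mul_pos hfs (pos _))
  have hWle : W ≤ δ ^ (S1 + S + g1 / 2 + 5) := by
    calc W ≤ δ ^ (-(g1 / 2)) * (δ ^ (S1 + 2 * S + g1 + 5) * δ ^ (-S)) := by
          rw [hW]
          have := pos (-(g1 / 2))
          have := pos (-S)
          gcongr
      _ = _ := by
          rw [← Real.rpow_add hδ0, ← Real.rpow_add hδ0]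
          congr 1
          ring
  have hlb : δ ^ (1 + S1) ≤ rdLen k * δ ^ S1 := by
    rw [Real.rpow_add hδ0, Real.rpow_one]
    have := pos S1
    gcongr
  have hB : (fzSc ⟨H, fs, Real.sqrt H * δ ^ S, H / fs ^ 2 * δ ^ S⟩ a k).eB ≤ fs * δ ^ (-S) := by
    simp only [fzSc]
    have e : H / (Real.sqrt H * δ ^ S) = Real.sqrt H * δ ^ (-S) := by
      rw [← hinv]
      have := pos S
      have h2 : Real.sqrt H * Real.sqrt H = H := Real.mul_self_sqrt hH.le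
      field_simp
      nlinarith
    rw [e]
    have := pos (-S)
    gcongr
  have hB0 : 0 < (fzSc ⟨H, fs, Real.sqrt H * δ ^ S, H / fs ^ 2 * δ ^ S⟩ a k).eB := by
    simp only [fzSc]
    have := pos S
    positivity
  have hY : (fzSc ⟨H, fs, Real.sqrt H * δ ^ S, H / fs ^ 2 * δ ^ S⟩ a k).eY ≤ 2 * (fs * δ ^ (-S)) := by
    simp only [fzSc]
    have e : 2 * H / (H / fs ^ 2 * δ ^ S) = 2 * (fs * fs * δ ^ (-S)) := by
      rw [← hinv]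
      have := pos S
      field_simp
    rw [e]
    have := pos (-S)
    have : fs * fs ≤ fs * 1 := by gcongr
    nlinarith
  have hΛB : δ ^ (-(g1 / 2)) * (fzSc ⟨H, fs, Real.sqrt H * δ ^ S, H / fs ^ 2 * δ ^ S⟩ a k).eB ≤ W := by
    rw [hW]
    have := pos (-(g1 / 2))
    gcongr
  have hΛY : δ ^ (-(g1 / 2)) * (fzSc ⟨H, fs, Real.sqrt H * δ ^ S, H / fs ^ 2 * δ ^ S⟩ a k).eY ≤ 2 * W := by
    have := pos (-(g1 / 2))
    calc _ ≤ δ ^ (-(g1 / 2)) * (2 * (fs * δ ^ (-S))) := by gcongr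
      _ = 2 * W := by rw [hW]; ring
  refine ⟨?_, ?_, ?_, ?_, ?_⟩
  · simp only [fzSc]
    rw [e1]
    calc 3 * (fs * dF) ≤ 3 * (δ ^ (S1 + 2 * S + g1 + 5) * 1) := by gcongr
      _ ≤ 3 * (δ ^ (S1 + 2) * 1) := by
          have := mono (x := S1 + 2) (y := S1 + 2 * S + g1 + 5) (by linarith)
          linarith
      _ = δ ^ S1 * (3 * δ ^ 2) := by
          rw [Real.rpow_add hδ0]
          have : δ ^ (2 : ℝ) = δ ^ 2 := by rw [← Real.rpow_natCast]; norm_num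
          rw [this]
          ring
      _ ≤ δ ^ S1 * 1 := by
          have := pos S1
          gcongr
          nlinarith
      _ = _ := mul_one _
  · exact hΛB.trans (hWle.trans ((mono (by linarith)).trans hlb))
  · have hR1 : 1 ≤ δ ^ (-(S / 4)) := Real.one_le_rpow_of_pos_of_le_one_of_nonpos hδ0 hδ1 (by linarith)
    have hb1 : δ ^ S1 ≤ 1 := Real.rpow_le_one hδ0.le hδ1 hS1.le
    have hΛB0 : 0 ≤ δ ^ (-(g1 / 2)) * (fzSc ⟨H, fs, Real.sqrt H * δ ^ S, H / fs ^ 2 * δ ^ S⟩ a k).eB := (mul_pos (pos _) hB0).le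
    generalize δ ^ (-(g1 / 2)) * (fzSc ⟨H, fs, Real.sqrt H * δ ^ S, H / fs ^ 2 * δ ^ S⟩ a k).eB = uB at hΛB hΛB0 ⊢
    generalize δ ^ (-(g1 / 2)) * (fzSc ⟨H, fs, Real.sqrt H * δ ^ S, H / fs ^ 2 * δ ^ S⟩ a k).eY = uY at hΛY ⊢
    have hb0 := pos S1
    have s1 : uY + 2 * (δ ^ (-(S / 4)) + δ ^ S1) * uB ≤ 6 * (δ ^ (-(S / 4)) * W) := by
      have t1 : 2 * (δ ^ (-(S / 4)) + δ ^ S1) * uB ≤ 2 * (δ ^ (-(S / 4)) + δ ^ S1) * W := mul_le_mul_of_nonneg_left hΛB (by linarith)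
      have t2 : W ≤ δ ^ (-(S / 4)) * W := le_mul_of_one_le_left hW0.le hR1
      have t3 : δ ^ S1 * W ≤ δ ^ (-(S / 4)) * W := mul_le_mul_of_nonneg_right (hb1.trans hR1) hW0.le
      have t4 : 2 * (δ ^ (-(S / 4)) + δ ^ S1) * W = 2 * (δ ^ (-(S / 4)) * W) + 2 * (δ ^ S1 * W) := by ring
      linarith
    have s2 : δ ^ (-(S / 4)) * W ≤ δ ^ (S1 + 3 * S / 4 + g1 / 2 + 5) := by
      calc δ ^ (-(S / 4)) * W ≤ δ ^ (-(S / 4)) * δ ^ (S1 + S + g1 / 2 + 5) := mul_le_mul_of_nonneg_left hWle (pos _).le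
        _ = _ := by
          rw [← Real.rpow_add hδ0]
          congr 1
          ring
    have s3 : δ ^ (S1 + 3 * S / 4 + g1 / 2 + 5) ≤ δ ^ ((1 + S1) + 3) := mono (by linarith)
    have s4 : δ ^ ((1 + S1) + 3) = δ ^ (1 + S1) * δ ^ 3 := by
      rw [Real.rpow_add hδ0 (1 + S1)]
      have : δ ^ (3 : ℝ) = δ ^ 3 := by rw [← Real.rpow_natCast]; norm_num
      rw [this]
    have s5 : δ ^ 3 ≤ (1 / 2) ^ 3 := pow_le_pow_left₀ hδ0.le hδ2 3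
    have s6 := pos (1 + S1)
    have s5' : 6 * δ ^ 3 ≤ 1 := by
      norm_num at s5
      linarith
    have s7 : δ ^ (1 + S1) * (6 * δ ^ 3) ≤ δ ^ (1 + S1) * 1 := mul_le_mul_of_nonneg_left s5' s6.le
    have s8 : δ ^ (1 + S1) * (6 * δ ^ 3) = 6 * (δ ^ (1 + S1) * δ ^ 3) := by ring
    linarith
  · simp only [fzSc]
    rw [e1]
    refine le_trans ?_ (le_max_right _ _)
    have e : δ ^ (-(g1 / 2)) * (fs * dF / (a * fs)) = δ ^ (-(g1 / 2)) / a * dF := by field_simp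
    rw [e]
    gcongr
    rw [div_le_iff₀ ha]
    calc δ ^ (-(g1 / 2)) = δ ^ (-g1) * δ ^ (g1 / 2) := by
          rw [← Real.rpow_add hδ0]
          congr 1
          ring
      _ ≤ δ ^ (-g1) * a := by
          have := pos (-g1)
          gcongr
  · simp only [fzSc]
    rw [e2]
    calc δ ^ (-(g1 / 2)) * (rdLen k * dF) = rdLen k * (δ ^ (-(g1 / 2)) * dF) := by ring
      _ ≤ rdLen k * (δ ^ (-g1) * dF) :=
          mul_le_mul_of_nonneg_left (mul_le_mul_of_nonneg_right (mono (by linarith)) hdF0) hl0.le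
      _ ≤ _ := by
          gcongr
          exact le_max_right _ _

/-- the crude loss is a finite power of `δ⁻¹`, whatever `H`, `fs` -/
theorem fz_off_loss {H fs S δ a : ℝ} {k C : ℕ} (hH : 0 < H) (hfs : 0 < fs) (hδ0 : 0 < δ) (hδ1 : δ ≤ 1) (ha : 0 < a) (r6 : δ ≤ a)
    (hl : δ ≤ rdLen k) (hlo : δ ^ (C : ℝ) ≤ H / fs ^ 2) :
    fs * (fzHy ⟨H, fs, Real.sqrt H * δ ^ S, H / fs ^ 2 * δ ^ S⟩ a).ql k / (rdLen k * (Real.sqrt H * δ ^ S) * (H / fs ^ 2 * δ ^ S)) ≤ δ ^ (-(2 * S + C + 2)) := by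
  have hl0 := rdLen_pos k
  have hsH : 0 < Real.sqrt H := Real.sqrt_pos.2 hH
  have pos : ∀ x : ℝ, 0 < δ ^ x := fun x => Real.rpow_pos_of_pos hδ0 x
  have hHf0 : 0 < H / fs ^ 2 := by positivity
  have e1 : fs * (fzHy ⟨H, fs, Real.sqrt H * δ ^ S, H / fs ^ 2 * δ ^ S⟩ a).ql k = Real.sqrt H * Real.sqrt (1 / (a * 2 ^ k)) := by
    show fs * Real.sqrt (H / fs ^ 2 / a / 2 ^ k) = _
    rw [← Real.sqrt_mul hH.le, ← Real.sqrt_sq hfs.le, ← Real.sqrt_mul (by positivity), Real.sqrt_sq hfs.le]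
    congr 1
    field_simp
  have h1 : Real.sqrt (1 / (a * 2 ^ k)) ≤ δ⁻¹ := by
    have hd : (1 : ℝ) ≤ δ⁻¹ := (one_le_inv₀ hδ0).2 hδ1
    have h2 : 1 / (a * 2 ^ k) ≤ δ⁻¹ := by
      rw [one_div]
      apply inv_anti₀ hδ0
      calc δ ≤ a := r6
        _ = a * 1 := (mul_one a).symm
        _ ≤ a * 2 ^ k := by
            gcongr
            exact one_le_pow₀ (by norm_num)
    calc Real.sqrt (1 / (a * 2 ^ k)) ≤ Real.sqrt (δ⁻¹) := Real.sqrt_le_sqrt h2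
      _ ≤ δ⁻¹ := by
          rw [Real.sqrt_le_left (by positivity)]
          nlinarith
  rw [e1]
  have e2 : Real.sqrt H * Real.sqrt (1 / (a * 2 ^ k)) / (rdLen k * (Real.sqrt H * δ ^ S) * (H / fs ^ 2 * δ ^ S))
      = Real.sqrt (1 / (a * 2 ^ k)) * (rdLen k)⁻¹ * (H / fs ^ 2)⁻¹ * ((δ ^ S)⁻¹ * (δ ^ S)⁻¹) := by
    have := pos S
    field_simp
  rw [e2]
  have h3 : (rdLen k)⁻¹ ≤ δ⁻¹ := inv_anti₀ hδ0 hl
  have h4 : (H / fs ^ 2)⁻¹ ≤ (δ ^ (C : ℝ))⁻¹ := inv_anti₀ (pos _) hlo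
  calc Real.sqrt (1 / (a * 2 ^ k)) * (rdLen k)⁻¹ * (H / fs ^ 2)⁻¹ * ((δ ^ S)⁻¹ * (δ ^ S)⁻¹)
      ≤ δ⁻¹ * δ⁻¹ * (δ ^ (C : ℝ))⁻¹ * ((δ ^ S)⁻¹ * (δ ^ S)⁻¹) := by
        have := pos S
        gcongr
    _ = _ := by
        rw [← Real.rpow_neg hδ0.le, ← Real.rpow_neg hδ0.le, ← Real.rpow_neg_one, ← Real.rpow_add hδ0, ← Real.rpow_add hδ0, ← Real.rpow_add hδ0, ← Real.rpow_add hδ0]
        congr 1
        ring

/-- powers of `δ = 2^-n` are eventually small -/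
theorem fz_off_small (e c : ℝ) (he : 0 < e) (hc : 0 < c) : ∃ n0 : ℕ, ∀ n : ℕ, n0 ≤ n → ((2 : ℝ)⁻¹ ^ n) ^ e ≤ c := by
  have h1 : (0 : ℝ) < (2 : ℝ)⁻¹ ^ e := by positivity
  have h2 : (2 : ℝ)⁻¹ ^ e < 1 := Real.rpow_lt_one (by norm_num) (by norm_num) he
  obtain ⟨n0, hn0⟩ := exists_pow_lt_of_lt_one hc h2
  refine ⟨n0, fun n hn => ?_⟩
  have e1 : ((2 : ℝ)⁻¹ ^ n) ^ e = ((2 : ℝ)⁻¹ ^ e) ^ n := by
    rw [← Real.rpow_natCast, ← Real.rpow_mul (by norm_num), ← Real.rpow_natCast, ← Real.rpow_mul (by norm_num), mul_comm]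
  rw [e1]
  exact (pow_le_pow_of_le_one h1.le h2.le hn).trans hn0.le

/-- the bands are between `2^-(C+10)` and `2^(C+9)` -/
theorem fz_off_band_bd (C : ℕ) (j : Fin (2 * C + 20)) : (2 : ℝ)⁻¹ ^ (C + 10) ≤ fzA C j ∧ fzA C j ≤ 2 ^ (C + 9) := by
  unfold fzA
  constructor
  · rw [inv_pow, ← zpow_natCast, ← zpow_neg]
    apply zpow_le_zpow_right₀ (by norm_num)
    push_cast
    have : (0 : ℤ) ≤ ((j : ℕ) : ℤ) := Int.natCast_nonneg _
    linarith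
  · rw [← zpow_natCast]
    apply zpow_le_zpow_right₀ (by norm_num)
    push_cast
    have : ((j : ℕ) : ℤ) < 2 * (C : ℤ) + 20 := by exact_mod_cast j.2
    linarith

/-- **the numerics of the last step** -/
theorem fz_off_fin {δ g S K c : ℝ} {N C J : ℕ} (hδ0 : 0 < δ) (hδ1 : δ ≤ 1) (hN : (J : ℝ) + 2 * S + C + 3 ≤ g * N) (_hK : 0 ≤ K) (hc : 0 ≤ c)
    (hs : δ * (K ^ 2 * c + 1) ≤ 1) {L : ℝ} (hL : L ≤ δ ^ (-(2 * S + C + 2))) :
    (K * (δ ^ (-(g / 2))) ^ (-(N : ℝ))) ^ 2 * (c * L) ≤ δ ^ (J : ℝ) := by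
  have pos : ∀ x : ℝ, 0 < δ ^ x := fun x => Real.rpow_pos_of_pos hδ0 x
  have e1 : ((δ ^ (-(g / 2))) ^ (-(N : ℝ))) ^ 2 = δ ^ (g * N) := by
    rw [← Real.rpow_mul hδ0.le, ← Real.rpow_natCast, ← Real.rpow_mul hδ0.le]
    congr 1
    push_cast
    ring
  have e2 : (K * (δ ^ (-(g / 2))) ^ (-(N : ℝ))) ^ 2 = K ^ 2 * δ ^ (g * N) := by rw [mul_pow, e1]
  rw [e2]
  have h1 : δ ^ (g * N) ≤ δ ^ ((J : ℝ) + 2 * S + C + 3) := Real.rpow_le_rpow_of_exponent_ge hδ0 hδ1 hN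
  have h2 : δ ^ ((J : ℝ) + 2 * S + C + 3) * δ ^ (-(2 * S + C + 2)) = δ ^ (J : ℝ) * δ := by
    rw [← Real.rpow_add hδ0]
    conv_rhs => rw [← Real.rpow_add_one hδ0.ne']
    congr 1
    ring
  have hK2 : 0 ≤ K ^ 2 := sq_nonneg K
  calc K ^ 2 * δ ^ (g * N) * (c * L) ≤ K ^ 2 * δ ^ ((J : ℝ) + 2 * S + C + 3) * (c * δ ^ (-(2 * S + C + 2))) := by
        exact (mul_le_mul_of_nonneg_left (mul_le_mul_of_nonneg_left hL hc) (mul_nonneg hK2 (pos _).le)).trans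
          (mul_le_mul_of_nonneg_right (mul_le_mul_of_nonneg_left h1 hK2) (mul_nonneg hc (pos _).le))
    _ = δ ^ (J : ℝ) * (δ * (K ^ 2 * c)) := by
        calc _ = K ^ 2 * c * (δ ^ ((J : ℝ) + 2 * S + C + 3) * δ ^ (-(2 * S + C + 2))) := by ring
          _ = _ := by rw [h2]; ring
    _ ≤ δ ^ (J : ℝ) * 1 := by
        apply mul_le_mul_of_nonneg_left _ (pos _).le
        have : δ * (K ^ 2 * c + 1) = δ * (K ^ 2 * c) + δ := by ring
        linarith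
    _ = _ := mul_one _

/-- **OFF** (the statement `fz_off` of `Fz/Seam.lean`, verbatim) -/
theorem fz_off_main (S S1 : ℝ) (hS : 0 < S) (hS1 : 0 < S1) :
    ∃ Zf : ℝ, ∀ g1 : ℝ, 0 < g1 → ∀ C J : ℕ, ∃ n0 : ℕ, ∀ (H fs : ℝ) (n : ℕ) (h : (fzPn H fs S n).Ok) (j : Fin (2 * C + 20)) (T : ℝ) (k β : ℕ), n0 ≤ n → k ≤ n → β ≤ C →
      0 ≤ T → T ≤ 1 → ((2 : ℝ)⁻¹ ^ n) ^ (C : ℝ) ≤ H / fs ^ 2 → H / fs ^ 2 ≤ (2 : ℝ)⁻¹ ^ n → fs ≤ ((2 : ℝ)⁻¹ ^ n) ^ Zf →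
      ∀ (Sr : Set RdWvPar.Ph) (Sc : Set (FzOm × ℝ × ℝ)), MeasurableSet Sr → MeasurableSet Sc → Sr ⊆ fzIn fs (((2 : ℝ)⁻¹ ^ n) ^ (-(S / 4))) →
        (∀ z ∈ Sr, ∀ z' ∈ Sc, ¬ cyNear ((2 : ℝ)⁻¹ ^ k) (((2 : ℝ)⁻¹ ^ n) ^ S1)
          (max (((2 : ℝ)⁻¹ ^ n) ^ S1) (((2 : ℝ)⁻¹ ^ n) ^ (-g1) * Real.sqrt (H / fs ^ 2 * 2 ^ k))) (fzFl fs z) ((fzHy (fzPn H fs S n) (fzA C j)).co T z')) →
        ∀ F : Lp ℂ 2 (fzHy (fzPn H fs S n) (fzA C j)).rw, (∀ᵐ z' ∂(fzHy (fzPn H fs S n) (fzA C j)).rw, z' ∉ Sc → (F : FzOm × ℝ × ℝ → ℂ) z' = 0) →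
          ∫ z in Sr, ‖(fzC0 (fzPn H fs S n) h (fzA C j) T k β F : RdWvPar.Ph → ℂ) z‖ ^ 2 ∂(((fzPn H fs S n).rd h).rw k)
            ≤ ((2 : ℝ)⁻¹ ^ n) ^ (J : ℝ) * ‖F‖ ^ 2 := by
  refine ⟨S1 + 2 * S + 6, fun g1 hg1 C J => ?_⟩
  -- the effective gain exponent
  set g : ℝ := min g1 1 with hg
  have hg0 : 0 < g := lt_min hg1 one_pos
  have hg1' : g ≤ g1 := min_le_left _ _
  have hg2 : g ≤ 1 := min_le_right _ _
  -- the order
  obtain ⟨N, hN⟩ := exists_nat_ge (((J : ℝ) + 2 * S + C + 3) / g)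
  have hN' : (J : ℝ) + 2 * S + C + 3 ≤ g * N := by
    rw [div_le_iff₀ hg0] at hN
    linarith
  -- the constants of the bands
  have hA0 : ∀ j : Fin (2 * C + 20), 0 < fzA C j := fun j => lt_of_lt_of_le (by positivity) (fz_off_band_bd C j).1
  choose Cj hCj0 hCj using fun j : Fin (2 * C + 20) => fz_off_par C N (fzA C j) (hA0 j)
  set K : ℝ := ∑ j, Cj j with hK
  have hK0 : 0 ≤ K := Finset.sum_nonneg fun j _ => hCj0 j
  have hCK : ∀ j, Cj j ≤ K := fun j => Finset.single_le_sum (fun i _ => hCj0 i) (Finset.mem_univ j)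
  set c : ℝ := 144 * Real.pi ^ 7 with hc
  have hc0 : 0 ≤ c := by positivity
  set a0 : ℝ := (2 : ℝ)⁻¹ ^ (C + 10) with ha0
  have ha00 : 0 < a0 := by positivity
  -- thresholds
  obtain ⟨n1, hn1⟩ := fz_off_small S a0 hS ha00
  obtain ⟨n2, hn2⟩ := fz_off_small (S / 2) a0 (by linarith) ha00
  obtain ⟨n3, hn3⟩ := fz_off_small (g / 2) a0 (by linarith) ha00
  obtain ⟨n4, hn4⟩ := fz_off_small 1 a0 one_pos ha00
  obtain ⟨n5, hn5⟩ := fz_off_small 1 (K ^ 2 * c + 1)⁻¹ one_pos (by positivity)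
  refine ⟨max (max (max n1 n2) (max n3 n4)) (max n5 1), fun H fs n h j T k β hn hk hβ hT0 hT1 hlo hHf hfsZ Sr Sc hSr _ hin hnear F hF => ?_⟩
  have q1 : n1 ≤ n := le_trans (by simp) hn
  have q2 : n2 ≤ n := le_trans (by simp) hn
  have q3 : n3 ≤ n := le_trans (by simp) hn
  have q4 : n4 ≤ n := le_trans (by simp) hn
  have q5 : n5 ≤ n := le_trans (by simp) hn
  have q6 : 1 ≤ n := le_trans (by simp) hn
  have hH : 0 < H := h.H_pos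
  have hfs : 0 < fs := h.fs_pos
  have hlk : (2 : ℝ)⁻¹ ^ n ≤ rdLen k := pow_le_pow_of_le_one (by norm_num) (by norm_num) hk
  have hδ2 : (2 : ℝ)⁻¹ ^ n ≤ 1 / 2 := by
    calc (2 : ℝ)⁻¹ ^ n ≤ (2 : ℝ)⁻¹ ^ 1 := pow_le_pow_of_le_one (by norm_num) (by norm_num) q6
      _ = 1 / 2 := by norm_num
  have hδ0 : (0 : ℝ) < (2 : ℝ)⁻¹ ^ n := by positivity
  replace hn1 := hn1 n q1
  replace hn2 := hn2 n q2
  replace hn3 := hn3 n q3
  replace hn4 := hn4 n q4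
  replace hn5 := hn5 n q5
  rw [Real.rpow_one] at hn4 hn5
  obtain ⟨hal, hau⟩ := fz_off_band_bd C j
  have ha := hA0 j
  replace hCj := hCj j
  replace hCK := hCK j
  replace hCj0 := hCj0 j
  unfold fzPn at h hnear F hF ⊢
  generalize fzA C j = a at *
  generalize Cj j = C1 at *
  generalize (2 : ℝ)⁻¹ ^ n = δ at *
  have hδ1 : δ ≤ 1 := by linarith
  have pos : ∀ x : ℝ, 0 < δ ^ x := fun x => Real.rpow_pos_of_pos hδ0 x
  have mono : ∀ {x y : ℝ}, x ≤ y → δ ^ y ≤ δ ^ x := fun hxy => Real.rpow_le_rpow_of_exponent_ge hδ0 hδ1 hxy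
  have r1 : δ ^ S ≤ a := hn1.trans hal
  have r2 : 2 * a * δ ^ (S / 2) ≤ 1 := by
    calc 2 * a * δ ^ (S / 2) ≤ 2 * 2 ^ (C + 9) * (2 : ℝ)⁻¹ ^ (C + 10) :=
          mul_le_mul (mul_le_mul_of_nonneg_left hau (by norm_num)) hn2 (pos _).le (by positivity)
      _ = 1 := by
          rw [inv_pow, pow_succ (2 : ℝ) (C + 9)]
          field_simp
  have r3 : δ ^ (g / 2) ≤ a := hn3.trans hal
  have r6 : δ ≤ a := hn4.trans hal
  have hs : δ * (K ^ 2 * c + 1) ≤ 1 := by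
    have hp : 0 < K ^ 2 * c + 1 := by positivity
    calc δ * (K ^ 2 * c + 1) ≤ (K ^ 2 * c + 1)⁻¹ * (K ^ 2 * c + 1) := mul_le_mul_of_nonneg_right hn5 hp.le
      _ = 1 := inv_mul_cancel₀ hp.ne'
  have hfsZ' : fs ≤ δ ^ (S1 + 2 * S + g + 5) := hfsZ.trans (mono (by linarith))
  obtain ⟨c1, c2, c3, c4, c5⟩ := fz_off_scales (k := k) hH hfs hS hS1 hg0 hδ0 hδ2 ha hHf hlk hfsZ' r3
  have hen : max (δ ^ S1) (δ ^ (-g) * Real.sqrt (H / fs ^ 2 * 2 ^ k)) ≤ max (δ ^ S1) (δ ^ (-g1) * Real.sqrt (H / fs ^ 2 * 2 ^ k)) :=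
    max_le_max le_rfl (mul_le_mul_of_nonneg_right (mono (by linarith)) (Real.sqrt_nonneg _))
  have hreg : ∀ z ∈ Sr, FzKReg ⟨H, fs, Real.sqrt H * δ ^ S, H / fs ^ 2 * δ ^ S⟩ a T k z.1.2 := fun z hz =>
    fz_off_reg hH hfs hS hδ0 hδ1 ha hT0 hT1 hHf hlk r1 r2 (hin hz).2.2.2.1
  have main := hCj ⟨H, fs, Real.sqrt H * δ ^ S, H / fs ^ 2 * δ ^ S⟩ h T k β hβ (δ ^ (-(g / 2))) (rdLen k) (δ ^ S1)
    (max (δ ^ S1) (δ ^ (-g1) * Real.sqrt (H / fs ^ 2 * 2 ^ k))) (δ ^ (-(S / 4))) (pos _) c1 c2 c3 (c4.trans hen)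
    (c5.trans (mul_le_mul_of_nonneg_left hen (rdLen_pos k).le)) Sr Sc hSr hin hreg hnear F hF
  refine main.trans (mul_le_mul_of_nonneg_right ?_ (sq_nonneg _))
  have hloss := fz_off_loss (S := S) (k := k) (C := C) hH hfs hδ0 hδ1 ha r6 hlk hlo
  have hL0 : 0 ≤ fs * (fzHy ⟨H, fs, Real.sqrt H * δ ^ S, H / fs ^ 2 * δ ^ S⟩ a).ql k / (rdLen k * (Real.sqrt H * δ ^ S) * (H / fs ^ 2 * δ ^ S)) := by
    have hq : 0 ≤ (fzHy ⟨H, fs, Real.sqrt H * δ ^ S, H / fs ^ 2 * δ ^ S⟩ a).ql k := by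
      show 0 ≤ Real.sqrt _
      exact Real.sqrt_nonneg _
    have := pos S
    have := rdLen_pos k
    positivity
  refine le_trans ?_ (fz_off_fin (g := g) (S := S) (K := K) (c := c) (N := N) (C := C) (J := J) hδ0 hδ1 hN' hK0 hc0 hs hloss)
  apply mul_le_mul_of_nonneg_right _ (mul_nonneg hc0 hL0)
  apply pow_le_pow_left₀ (mul_nonneg hCj0 (Real.rpow_pos_of_pos (pos _) _).le)
  exact mul_le_mul_of_nonneg_right hCK (Real.rpow_pos_of_pos (pos _) _).le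

end Claimed.Agent.R256
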