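-- KEEP
import Claimed.Agent.R256.Fz.MDefs
import Claimed.Agent.R256.Hyb.Inst

/-!
# Row 256 (LS paper), folder Fz, unit FZ-W, file WCut : THE CUTS `fzCut U` AND THE HYBRID PARAMETER          (helper12; prefix `fz_wd_`)

* `fz_wd_cut_ae`      `fzCut U V = 1_{U × ℝ} V` a.e.            (= `fz_cut_ae` of `Fz/Seam`)
* `fz_wd_cut_add, _smul, _inter, _idem, _inner, _norm_le, _eq_self, _union`      `fzCut U` is the orthogonal projection `1_{U × ℝ}`
* `fz_wd_hy_ok`       `fzHy P a` is a good parameter            (= `fz_hy_ok`)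
* `fz_wd_cut_an`      the hybrid analysis is fibred over `ω`            (= `fz_cut_an`)
-/

set_option autoImplicit false

namespace Claimed.Agent.R256

open MeasureTheory
open scoped ENNReal InnerProductSpace

theorem fz_wd_cut_memLp (U : Set FzOm) (hU : MeasurableSet U) (V : Lp ℂ 2 ((volume : Measure FzOm).prod (volume : Measure ℝ))) :
    MemLp ((U ×ˢ (Set.univ : Set ℝ)).indicator (V : FzOm × ℝ → ℂ)) 2 ((volume : Measure FzOm).prod (volume : Measure ℝ)) :=
  (Lp.memLp V).indicator (hU.prod MeasurableSet.univ)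

/-- (= `fz_cut_ae`) -/
theorem fz_wd_cut_ae (U : Set FzOm) (hU : MeasurableSet U) (V : Lp ℂ 2 ((volume : Measure FzOm).prod (volume : Measure ℝ))) :
    (fzCut U V : FzOm × ℝ → ℂ) =ᵐ[(volume : Measure FzOm).prod (volume : Measure ℝ)] (U ×ˢ (Set.univ : Set ℝ)).indicator (V : FzOm × ℝ → ℂ) := by
  unfold fzCut
  rw [dif_pos (fz_wd_cut_memLp U hU V)]
  exact (fz_wd_cut_memLp U hU V).coeFn_toLp

theorem fz_wd_cut_add (U : Set FzOm) (hU : MeasurableSet U) (V V' : Lp ℂ 2 ((volume : Measure FzOm).prod (volume : Measure ℝ))) :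
    fzCut U (V + V') = fzCut U V + fzCut U V' := by
  refine Lp.ext ?_
  filter_upwards [fz_wd_cut_ae U hU (V + V'), fz_wd_cut_ae U hU V, fz_wd_cut_ae U hU V', Lp.coeFn_add V V',
    Lp.coeFn_add (fzCut U V) (fzCut U V')] with x h1 h2 h3 h4 h5
  rw [h1, h5, Pi.add_apply, h2, h3]
  by_cases hx : x ∈ U ×ˢ (Set.univ : Set ℝ)
  · rw [Set.indicator_of_mem hx, Set.indicator_of_mem hx, Set.indicator_of_mem hx, h4, Pi.add_apply]
  · rw [Set.indicator_of_notMem hx, Set.indicator_of_notMem hx, Set.indicator_of_notMem hx, add_zero]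

theorem fz_wd_cut_smul (U : Set FzOm) (hU : MeasurableSet U) (c : ℂ) (V : Lp ℂ 2 ((volume : Measure FzOm).prod (volume : Measure ℝ))) :
    fzCut U (c • V) = c • fzCut U V := by
  refine Lp.ext ?_
  filter_upwards [fz_wd_cut_ae U hU (c • V), fz_wd_cut_ae U hU V, Lp.coeFn_smul c V, Lp.coeFn_smul c (fzCut U V)] with x h1 h2 h4 h5
  rw [h1, h5, Pi.smul_apply, h2]
  by_cases hx : x ∈ U ×ˢ (Set.univ : Set ℝ)
  · rw [Set.indicator_of_mem hx, Set.indicator_of_mem hx, h4, Pi.smul_apply]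
  · rw [Set.indicator_of_notMem hx, Set.indicator_of_notMem hx, smul_zero]

theorem fz_wd_cut_inter (U U' : Set FzOm) (hU : MeasurableSet U) (hU' : MeasurableSet U') (V : Lp ℂ 2 ((volume : Measure FzOm).prod (volume : Measure ℝ))) :
    fzCut U (fzCut U' V) = fzCut (U ∩ U') V := by
  refine Lp.ext ?_
  filter_upwards [fz_wd_cut_ae U hU (fzCut U' V), fz_wd_cut_ae U' hU' V, fz_wd_cut_ae (U ∩ U') (hU.inter hU') V] with x h1 h2 h3
  rw [h1, h3]
  by_cases hx : x.1 ∈ U
  · rw [Set.indicator_of_mem (show x ∈ U ×ˢ (Set.univ : Set ℝ) from ⟨hx, trivial⟩), h2]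
    by_cases hx' : x.1 ∈ U'
    · rw [Set.indicator_of_mem (show x ∈ U' ×ˢ (Set.univ : Set ℝ) from ⟨hx', trivial⟩),
        Set.indicator_of_mem (show x ∈ (U ∩ U') ×ˢ (Set.univ : Set ℝ) from ⟨⟨hx, hx'⟩, trivial⟩)]
    · rw [Set.indicator_of_notMem (show x ∉ U' ×ˢ (Set.univ : Set ℝ) from fun hh => hx' hh.1),
        Set.indicator_of_notMem (show x ∉ (U ∩ U') ×ˢ (Set.univ : Set ℝ) from fun hh => hx' hh.1.2)]
  · rw [Set.indicator_of_notMem (show x ∉ U ×ˢ (Set.univ : Set ℝ) from fun hh => hx hh.1),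
      Set.indicator_of_notMem (show x ∉ (U ∩ U') ×ˢ (Set.univ : Set ℝ) from fun hh => hx hh.1.1)]

theorem fz_wd_cut_idem (U : Set FzOm) (hU : MeasurableSet U) (V : Lp ℂ 2 ((volume : Measure FzOm).prod (volume : Measure ℝ))) :
    fzCut U (fzCut U V) = fzCut U V := by
  rw [fz_wd_cut_inter U U hU hU, Set.inter_self]

theorem fz_wd_cut_inner (U : Set FzOm) (hU : MeasurableSet U) (V V' : Lp ℂ 2 ((volume : Measure FzOm).prod (volume : Measure ℝ))) :
    ⟪fzCut U V, V'⟫_ℂ = ⟪V, fzCut U V'⟫_ℂ := by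
  rw [L2.inner_def, L2.inner_def]
  refine integral_congr_ae ?_
  filter_upwards [fz_wd_cut_ae U hU V, fz_wd_cut_ae U hU V'] with x h1 h2
  rw [h1, h2]
  by_cases hx : x ∈ U ×ˢ (Set.univ : Set ℝ)
  · rw [Set.indicator_of_mem hx, Set.indicator_of_mem hx]
  · rw [Set.indicator_of_notMem hx, Set.indicator_of_notMem hx, inner_zero_left, inner_zero_right]

theorem fz_wd_cut_norm_le (U : Set FzOm) (hU : MeasurableSet U) (V : Lp ℂ 2 ((volume : Measure FzOm).prod (volume : Measure ℝ))) :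
    ‖fzCut U V‖ ≤ ‖V‖ := by
  refine Lp.norm_le_norm_of_ae_le ?_
  filter_upwards [fz_wd_cut_ae U hU V] with x h1
  rw [h1]
  exact norm_indicator_le_norm_self _ _

/-- a function which vanishes off `U × ℝ` is not changed -/
theorem fz_wd_cut_eq_self (U : Set FzOm) (hU : MeasurableSet U) (V : Lp ℂ 2 ((volume : Measure FzOm).prod (volume : Measure ℝ)))
    (hV : ∀ᵐ x ∂((volume : Measure FzOm).prod (volume : Measure ℝ)), x.1 ∉ U → (V : FzOm × ℝ → ℂ) x = 0) : fzCut U V = V := by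
  refine Lp.ext ?_
  filter_upwards [fz_wd_cut_ae U hU V, hV] with x h1 h2
  rw [h1]
  by_cases hx : x.1 ∈ U
  · rw [Set.indicator_of_mem (show x ∈ U ×ˢ (Set.univ : Set ℝ) from ⟨hx, trivial⟩)]
  · rw [Set.indicator_of_notMem (show x ∉ U ×ˢ (Set.univ : Set ℝ) from fun hh => hx hh.1), h2 hx]

/-- disjoint unions -/
theorem fz_wd_cut_union (U U' : Set FzOm) (hU : MeasurableSet U) (hU' : MeasurableSet U') (hd : Disjoint U U')
    (V : Lp ℂ 2 ((volume : Measure FzOm).prod (volume : Measure ℝ))) : fzCut (U ∪ U') V = fzCut U V + fzCut U' V := by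
  refine Lp.ext ?_
  filter_upwards [fz_wd_cut_ae U hU V, fz_wd_cut_ae U' hU' V, fz_wd_cut_ae (U ∪ U') (hU.union hU') V,
    Lp.coeFn_add (fzCut U V) (fzCut U' V)] with x h1 h2 h3 h4
  rw [h3, h4, Pi.add_apply, h1, h2]
  by_cases hx : x.1 ∈ U
  · have hx' : x.1 ∉ U' := fun hh => Set.disjoint_left.1 hd hx hh
    rw [Set.indicator_of_mem (show x ∈ U ×ˢ (Set.univ : Set ℝ) from ⟨hx, trivial⟩),
      Set.indicator_of_mem (show x ∈ (U ∪ U') ×ˢ (Set.univ : Set ℝ) from ⟨Or.inl hx, trivial⟩),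
      Set.indicator_of_notMem (show x ∉ U' ×ˢ (Set.univ : Set ℝ) from fun hh => hx' hh.1), add_zero]
  · rw [Set.indicator_of_notMem (show x ∉ U ×ˢ (Set.univ : Set ℝ) from fun hh => hx hh.1), zero_add]
    by_cases hx' : x.1 ∈ U'
    · rw [Set.indicator_of_mem (show x ∈ U' ×ˢ (Set.univ : Set ℝ) from ⟨hx', trivial⟩),
        Set.indicator_of_mem (show x ∈ (U ∪ U') ×ˢ (Set.univ : Set ℝ) from ⟨Or.inr hx', trivial⟩)]
    · rw [Set.indicator_of_notMem (show x ∉ U' ×ˢ (Set.univ : Set ℝ) from fun hh => hx' hh.1),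
        Set.indicator_of_notMem (show x ∉ (U ∪ U') ×ˢ (Set.univ : Set ℝ) from fun hh => hh.1.elim hx hx')]

theorem fz_wd_cut_empty (V : Lp ℂ 2 ((volume : Measure FzOm).prod (volume : Measure ℝ))) : fzCut ∅ V = 0 := by
  refine Lp.ext ?_
  filter_upwards [fz_wd_cut_ae ∅ MeasurableSet.empty V, Lp.coeFn_zero ℂ 2 ((volume : Measure FzOm).prod (volume : Measure ℝ))] with x h1 h2
  rw [h1, h2, Set.indicator_of_notMem (show x ∉ (∅ : Set FzOm) ×ˢ (Set.univ : Set ℝ) from fun hh => hh.1)]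
  rfl

theorem fz_wd_band_meas (a : ℝ) : MeasurableSet (fzBand a) := by
  unfold fzBand
  have h1 : Measurable fun ω : FzOm => ω.2.1 := measurable_fst.comp measurable_snd
  exact (measurableSet_le measurable_const h1).inter (measurableSet_lt h1 measurable_const)

theorem fz_wd_box_meas (R : ℝ) : MeasurableSet (fzBox R) := by
  unfold fzBox
  have h1 : Measurable fun ω : FzOm => |ω.1| := measurable_fst.abs
  have h2 : Measurable fun ω : FzOm => |ω.2.2.1| := (measurable_fst.comp (measurable_snd.comp measurable_snd)).abs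
  have h3 : Measurable fun ω : FzOm => |ω.2.2.2| := (measurable_snd.comp (measurable_snd.comp measurable_snd)).abs
  exact (measurableSet_le h1 measurable_const).inter ((measurableSet_le h2 measurable_const).inter (measurableSet_le h3 measurable_const))

/-- (= `fz_hy_ok`) -/
theorem fz_wd_hy_ok (P : FzP) (h : P.Ok) (a : ℝ) (ha : 0 < a) : (fzHy P a).Ok where
  sf := by
    show SigmaFinite (volume : Measure FzOm)
    infer_instance
  mX := by
    show Measurable fun ω : FzOm => ω.1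
    exact measurable_fst
  mB := by
    show Measurable fun ω : FzOm => ω.2.2.1
    exact measurable_fst.comp (measurable_snd.comp measurable_snd)
  mY := by
    show Measurable fun ω : FzOm => ω.2.2.2
    exact measurable_snd.comp (measurable_snd.comp measurable_snd)
  mS := by
    show Measurable fun ω : FzOm => max 1 (min 2 (ω.2.1 / a))
    exact measurable_const.max (measurable_const.min ((measurable_fst.comp measurable_snd).div_const a))
  sg_rg := fun ω => by
    show 1 ≤ max 1 (min 2 (ω.2.1 / a)) ∧ max 1 (min 2 (ω.2.1 / a)) ≤ 2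
    exact ⟨le_max_left _ _, max_le (by norm_num) (min_le_left _ _)⟩
  H_pos := by
    show 0 < P.Hf / a
    unfold FzP.Hf
    have := h.H_pos
    have := h.fs_pos
    positivity

/-- (= `fz_cut_an`)   The hybrid analysis is fibred over `ω` -/
theorem fz_wd_cut_an (P : FzP) (h : P.Ok) (a : ℝ) (ha : 0 < a) (T : ℝ) (k : ℕ) (U : Set FzOm) (hU : MeasurableSet U)
    (V : Lp ℂ 2 ((volume : Measure FzOm).prod (volume : Measure ℝ))) :
    ((fzHy P a).an T k (fzCut U V) : FzOm × ℝ × ℝ → ℂ) =ᵐ[(fzHy P a).rw]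
      (U ×ˢ (Set.univ : Set (ℝ × ℝ))).indicator ((fzHy P a).an T k V : FzOm × ℝ × ℝ → ℂ) := by
  have hok := fz_wd_hy_ok P h a ha
  have h1 := hy_an_row (fzHy P a) hok T k (fzCut U V)
  have h2 := hy_an_row (fzHy P a) hok T k V
  have h0 : ∀ᵐ ω ∂(volume : Measure FzOm), ∀ᵐ u ∂(volume : Measure ℝ),
      (fzCut U V : FzOm × ℝ → ℂ) (ω, u) = (U ×ˢ (Set.univ : Set ℝ)).indicator (V : FzOm × ℝ → ℂ) (ω, u) :=
    Measure.ae_ae_of_ae_prod (fz_wd_cut_ae U hU V)
  filter_upwards [h1, h2, hy_ae_fst (fzHy P a) h0] with x e1 e2 e3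
  by_cases hx : x.1 ∈ U
  · have i1 : (U ×ˢ (Set.univ : Set (ℝ × ℝ))).indicator ((fzHy P a).an T k V : FzOm × ℝ × ℝ → ℂ) x = ((fzHy P a).an T k V : FzOm × ℝ × ℝ → ℂ) x :=
      Set.indicator_of_mem (show x ∈ U ×ˢ (Set.univ : Set (ℝ × ℝ)) from ⟨hx, trivial⟩) _
    refine e1.trans (Eq.trans ?_ (e2.symm.trans i1.symm))
    refine integral_congr_ae ?_
    filter_upwards [e3] with u hu
    have i2 : (U ×ˢ (Set.univ : Set ℝ)).indicator (V : FzOm × ℝ → ℂ) (x.1, u) = (V : FzOm × ℝ → ℂ) (x.1, u) :=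
      Set.indicator_of_mem (show (x.1, u) ∈ U ×ˢ (Set.univ : Set ℝ) from ⟨hx, trivial⟩) _
    exact congrArg (fun w : ℂ => (fzHy P a).pk T k x u • w) (hu.trans i2)
  · have i1 : (U ×ˢ (Set.univ : Set (ℝ × ℝ))).indicator ((fzHy P a).an T k V : FzOm × ℝ × ℝ → ℂ) x = 0 :=
      Set.indicator_of_notMem (show x ∉ U ×ˢ (Set.univ : Set (ℝ × ℝ)) from fun hh => hx hh.1) _
    refine e1.trans (Eq.trans ?_ i1.symm)
    refine integral_eq_zero_of_ae ?_
    filter_upwards [e3] with u hu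
    have i2 : (U ×ˢ (Set.univ : Set ℝ)).indicator (V : FzOm × ℝ → ℂ) (x.1, u) = 0 :=
      Set.indicator_of_notMem (show (x.1, u) ∉ U ×ˢ (Set.univ : Set ℝ) from fun hh => hx hh.1) _
    exact (congrArg (fun w : ℂ => (fzHy P a).pk T k x u • w) (hu.trans i2)).trans (smul_zero _)

end Claimed.Agent.R256
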