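-- KEEP
import Claimed.Agent.R256.Fz.WCut
import Claimed.Agent.R256.Fz.WCore
import Claimed.Agent.R256.Rt.Wv1

/-!
# Row 256 (LS paper), folder Fz, unit FZ-W, file WId : THE EXACT IDENTITIES OF THE FREEZE          (helper12; prefix `fz_wd_`)

From `fz_w_spec`, `fz_wx_iso` (`Fz/WCore`, helper185), the cuts (`Fz/WCut`), the hybrid isometry `hy_an_norm` and the round analysis (`rt_w1_contr`, `rt_w1_iso`).
* `fz_wd_adj_iso`     `A^* A x = x` for an isometry            * `fz_wd_adj_fix`   `A^* A g = g` for a contraction `A` with `‖A g‖ = ‖g‖`            * `fz_wd_adj_le`   `‖A^* y‖ ≤ ‖y‖` for a contraction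
* `fz_wd_band`        `W G = 0` a.e. off `2^-(C+10) ≤ s0 < 2^(C+10)` for `G` in the plateau of generation `≤ C`, `tS ≤ 2^-(C+12)`
* `fz_wd_id0, fz_wd_id1, fz_wd_id2, fz_wd_c0_contr, fz_wd_c0_lin`      = `fz_id0, fz_id1, fz_id2, fz_c0_contr, fz_c0_lin` of `Fz/Seam`, VERBATIM.
-/

set_option autoImplicit false

namespace Claimed.Agent.R256

open MeasureTheory
open scoped ENNReal InnerProductSpace

/-! ## Hilbert space generalities -/

theorem fz_wd_adj_iso {E F : Type*} [NormedAddCommGroup E] [InnerProductSpace ℂ E] [CompleteSpace E] [NormedAddCommGroup F] [InnerProductSpace ℂ F]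
    [CompleteSpace F] (A : E →L[ℂ] F) (hA : ∀ x, ‖A x‖ = ‖x‖) (x : E) : ContinuousLinearMap.adjoint A (A x) = x := by
  refine ext_inner_left ℂ fun y => ?_
  rw [ContinuousLinearMap.adjoint_inner_right]
  exact (LinearIsometry.mk A.toLinearMap hA).inner_map_map y x

theorem fz_wd_adj_le {E F : Type*} [NormedAddCommGroup E] [InnerProductSpace ℂ E] [CompleteSpace E] [NormedAddCommGroup F] [InnerProductSpace ℂ F]
    [CompleteSpace F] (A : E →L[ℂ] F) (hA : ∀ x, ‖A x‖ ≤ ‖x‖) (y : F) : ‖ContinuousLinearMap.adjoint A y‖ ≤ ‖y‖ := by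
  have h1 : ‖A‖ ≤ 1 := A.opNorm_le_bound zero_le_one fun x => by simpa using hA x
  have h2 : ‖ContinuousLinearMap.adjoint A‖ ≤ 1 := by
    rw [LinearIsometryEquiv.norm_map]
    exact h1
  simpa using (ContinuousLinearMap.adjoint A).le_of_opNorm_le h2 y

theorem fz_wd_adj_fix {E F : Type*} [NormedAddCommGroup E] [InnerProductSpace ℂ E] [CompleteSpace E] [NormedAddCommGroup F] [InnerProductSpace ℂ F]
    [CompleteSpace F] (A : E →L[ℂ] F) (hA : ∀ x, ‖A x‖ ≤ ‖x‖) (g : E) (hg : ‖A g‖ = ‖g‖) : ContinuousLinearMap.adjoint A (A g) = g := by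
  have h1 : ‖ContinuousLinearMap.adjoint A (A g)‖ ≤ ‖g‖ := (fz_wd_adj_le A hA (A g)).trans hg.le
  have h2 : RCLike.re ⟪ContinuousLinearMap.adjoint A (A g), g⟫_ℂ = ‖g‖ ^ 2 := by
    rw [ContinuousLinearMap.adjoint_inner_left, inner_self_eq_norm_sq_to_K, hg]
    norm_cast
  have h3 : ‖ContinuousLinearMap.adjoint A (A g) - g‖ ^ 2 ≤ 0 := by
    rw [norm_sub_sq (𝕜 := ℂ), h2]
    have : ‖ContinuousLinearMap.adjoint A (A g)‖ ^ 2 ≤ ‖g‖ ^ 2 := pow_le_pow_left₀ (norm_nonneg _) h1 2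
    linarith
  have h4 : ‖ContinuousLinearMap.adjoint A (A g) - g‖ = 0 := by
    have := sq_nonneg ‖ContinuousLinearMap.adjoint A (A g) - g‖
    exact pow_eq_zero_iff (two_ne_zero) |>.1 (le_antisymm h3 this)
  exact sub_eq_zero.1 (norm_eq_zero.1 h4)

/-- the abstract cross operator `E W^* c I^*` : first identity -/
theorem fz_wd_abs_id1 {K0 K1 R0 R1 : Type*} [NormedAddCommGroup K0] [InnerProductSpace ℂ K0] [CompleteSpace K0] [NormedAddCommGroup K1] [InnerProductSpace ℂ K1]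
    [CompleteSpace K1] [NormedAddCommGroup R0] [InnerProductSpace ℂ R0] [CompleteSpace R0] [NormedAddCommGroup R1] [InnerProductSpace ℂ R1] [CompleteSpace R1]
    (E : K0 →L[ℂ] R0) (W : K0 →L[ℂ] K1) (I : K1 →L[ℂ] R1) (c : K1 → K1) (hI : ∀ V, ‖I V‖ = ‖V‖) (hc : ∀ V, c (c V) = c V) (V : K1) :
    E (ContinuousLinearMap.adjoint W (c V)) = E (ContinuousLinearMap.adjoint W (c (ContinuousLinearMap.adjoint I (I (c V))))) := by
  rw [fz_wd_adj_iso I hI, hc]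

/-- second identity -/
theorem fz_wd_abs_id2 {K0 K1 R0 R1 : Type*} [NormedAddCommGroup K0] [InnerProductSpace ℂ K0] [CompleteSpace K0] [NormedAddCommGroup K1] [InnerProductSpace ℂ K1]
    [CompleteSpace K1] [NormedAddCommGroup R0] [InnerProductSpace ℂ R0] [CompleteSpace R0] [NormedAddCommGroup R1] [InnerProductSpace ℂ R1] [CompleteSpace R1]
    (E : K0 →L[ℂ] R0) (W : K0 →L[ℂ] K1) (I : K1 →L[ℂ] R1) (c : K1 → K1) (hE : ∀ G, ‖E G‖ ≤ ‖G‖) (hc : ∀ V V', ⟪c V, V'⟫_ℂ = ⟪V, c V'⟫_ℂ)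
    (G : K0) (hG : ‖E G‖ = ‖G‖) (F : R1) :
    ⟪F, I (c (W G))⟫_ℂ = ⟪E (ContinuousLinearMap.adjoint W (c (ContinuousLinearMap.adjoint I F))), E G⟫_ℂ := by
  rw [← ContinuousLinearMap.adjoint_inner_right E, fz_wd_adj_fix E hE G hG, ContinuousLinearMap.adjoint_inner_left, hc,
    ContinuousLinearMap.adjoint_inner_left]

/-- contraction -/
theorem fz_wd_abs_contr {K0 K1 R0 R1 : Type*} [NormedAddCommGroup K0] [InnerProductSpace ℂ K0] [CompleteSpace K0] [NormedAddCommGroup K1] [InnerProductSpace ℂ K1]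
    [CompleteSpace K1] [NormedAddCommGroup R0] [InnerProductSpace ℂ R0] [CompleteSpace R0] [NormedAddCommGroup R1] [InnerProductSpace ℂ R1] [CompleteSpace R1]
    (E : K0 →L[ℂ] R0) (W : K0 →L[ℂ] K1) (I : K1 →L[ℂ] R1) (c : K1 → K1) (hE : ∀ G, ‖E G‖ ≤ ‖G‖) (hW : ∀ G, ‖W G‖ ≤ ‖G‖) (hI : ∀ V, ‖I V‖ ≤ ‖V‖)
    (hc : ∀ V, ‖c V‖ ≤ ‖V‖) (F : R1) : ‖E (ContinuousLinearMap.adjoint W (c (ContinuousLinearMap.adjoint I F)))‖ ≤ ‖F‖ :=
  (hE _).trans ((fz_wd_adj_le W hW _).trans ((hc _).trans (fz_wd_adj_le I hI F)))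

/-- linearity -/
theorem fz_wd_abs_lin {K0 K1 R0 R1 : Type*} [NormedAddCommGroup K0] [InnerProductSpace ℂ K0] [CompleteSpace K0] [NormedAddCommGroup K1] [InnerProductSpace ℂ K1]
    [CompleteSpace K1] [NormedAddCommGroup R0] [InnerProductSpace ℂ R0] [CompleteSpace R0] [NormedAddCommGroup R1] [InnerProductSpace ℂ R1] [CompleteSpace R1]
    (E : K0 →L[ℂ] R0) (W : K0 →L[ℂ] K1) (I : K1 →L[ℂ] R1) (c : K1 → K1) (hca : ∀ V V', c (V + V') = c V + c V') (hcs : ∀ (t : ℂ) V, c (t • V) = t • c V)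
    (F F' : R1) (t : ℂ) :
    E (ContinuousLinearMap.adjoint W (c (ContinuousLinearMap.adjoint I (F + t • F'))))
      = E (ContinuousLinearMap.adjoint W (c (ContinuousLinearMap.adjoint I F))) + t • E (ContinuousLinearMap.adjoint W (c (ContinuousLinearMap.adjoint I F'))) := by
  rw [map_add, map_smul, hca, hcs, map_add, map_smul, map_add, map_smul]

/-! ## the bands -/

/-- the interval of `s0` covered by the first `n` bands -/
def fzWdU (C n : ℕ) : Set FzOm := {ω | (2 : ℝ) ^ (-((C : ℤ) + 10)) ≤ ω.2.1 ∧ ω.2.1 < 2 ^ ((n : ℤ) - ((C : ℤ) + 10))}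

theorem fz_wd_eqns_cite : True := by
  have := @fzWdU.eq_1
  trivial

theorem fz_wd_U_meas (C n : ℕ) : MeasurableSet (fzWdU C n) := by
  unfold fzWdU
  have h1 : Measurable fun ω : FzOm => ω.2.1 := measurable_fst.comp measurable_snd
  exact (measurableSet_le measurable_const h1).inter (measurableSet_lt h1 measurable_const)

theorem fz_wd_U_zero (C : ℕ) : fzWdU C 0 = ∅ := by
  ext ω
  simp only [fzWdU, Set.mem_setOf_eq, Set.mem_empty_iff_false, iff_false, not_and, not_lt]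
  intro h
  simpa using h

theorem fz_wd_two_zpow (m : ℤ) : (2 : ℝ) * 2 ^ m = 2 ^ (m + 1) := by
  rw [zpow_add₀ (two_ne_zero), zpow_one, mul_comm]

theorem fz_wd_U_succ (C n : ℕ) : fzWdU C (n + 1) = fzWdU C n ∪ fzBand (2 ^ ((n : ℤ) - ((C : ℤ) + 10))) := by
  have e : (2 : ℝ) * 2 ^ ((n : ℤ) - ((C : ℤ) + 10)) = 2 ^ (((n + 1 : ℕ) : ℤ) - ((C : ℤ) + 10)) := by
    rw [fz_wd_two_zpow]
    congr 1
    push_cast
    ring
  have hm : (2 : ℝ) ^ (-((C : ℤ) + 10)) ≤ 2 ^ ((n : ℤ) - ((C : ℤ) + 10)) := zpow_le_zpow_right₀ (by norm_num) (by omega)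
  have hm2 : (2 : ℝ) ^ ((n : ℤ) - ((C : ℤ) + 10)) ≤ 2 ^ (((n + 1 : ℕ) : ℤ) - ((C : ℤ) + 10)) := zpow_le_zpow_right₀ (by norm_num) (by push_cast; omega)
  ext ω
  simp only [fzWdU, fzBand, Set.mem_setOf_eq, Set.mem_union, e]
  constructor
  · rintro ⟨h1, h2⟩
    by_cases h3 : ω.2.1 < 2 ^ ((n : ℤ) - ((C : ℤ) + 10))
    · exact Or.inl ⟨h1, h3⟩
    · exact Or.inr ⟨not_lt.1 h3, h2⟩
  · rintro (⟨h1, h2⟩ | ⟨h1, h2⟩)
    · exact ⟨h1, h2.trans_le hm2⟩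
    · exact ⟨hm.trans h1, h2⟩

theorem fz_wd_U_disj (C n : ℕ) : Disjoint (fzWdU C n) (fzBand (2 ^ ((n : ℤ) - ((C : ℤ) + 10)))) := by
  rw [Set.disjoint_left]
  intro ω h1 h2
  exact absurd h1.2 (not_lt.2 h2.1)

/-- the sum of the first `n` bands -/
theorem fz_wd_cut_sum (C n : ℕ) (V : Lp ℂ 2 ((volume : Measure FzOm).prod (volume : Measure ℝ))) :
    ∑ j ∈ Finset.range n, fzCut (fzBand (2 ^ ((j : ℤ) - ((C : ℤ) + 10)))) V = fzCut (fzWdU C n) V := by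
  induction n with
  | zero => rw [Finset.sum_range_zero, fz_wd_U_zero, fz_wd_cut_empty]
  | succ n ih =>
    rw [Finset.sum_range_succ, ih, fz_wd_U_succ, fz_wd_cut_union _ _ (fz_wd_U_meas C n) (fz_wd_band_meas _) (fz_wd_U_disj C n)]

/-- the window in `σ` does not leave the bands -/
theorem fz_wd_win {H tS ρ s0 : ℝ} {C b : ℕ} (hb : b ≤ C) (htS0 : 0 < tS) (htS : tS ≤ (2 : ℝ)⁻¹ ^ (C + 12)) (hρ : H * ρ ∈ rdPlat b)
    (hs : ¬ ((2 : ℝ) ^ (-((C : ℤ) + 10)) ≤ s0 ∧ s0 < 2 ^ (((2 * C + 20 : ℕ) : ℤ) - ((C : ℤ) + 10)))) : fzB ((2 * H * ρ - s0) / tS) = 0 := by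
  refine fz_g4_B.2.1 _ ?_
  obtain ⟨D, hD⟩ : ∃ D : ℝ, D = 2 ^ C := ⟨_, rfl⟩
  have hD1 : 1 ≤ D := by
    rw [hD]
    exact one_le_pow₀ one_le_two
  have hD0 : 0 < D := by linarith
  obtain ⟨i, hi⟩ : ∃ i : ℝ, i = D⁻¹ := ⟨_, rfl⟩
  have hi0 : 0 < i := by
    rw [hi]
    positivity
  have hi1 : i ≤ 1 := by
    rw [hi]
    exact inv_le_one_of_one_le₀ hD1
  have e1 : (2 : ℝ) ^ (-((C : ℤ) + 10)) = i / 1024 := by
    have : ((C : ℤ) + 10) = ((C + 10 : ℕ) : ℤ) := by push_cast; ring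
    rw [zpow_neg, this, zpow_natCast, pow_add, ← hD, hi]
    field_simp
    norm_num
  have e2 : (2 : ℝ) ^ (((2 * C + 20 : ℕ) : ℤ) - ((C : ℤ) + 10)) = 1024 * D := by
    have : ((2 * C + 20 : ℕ) : ℤ) - ((C : ℤ) + 10) = ((C + 10 : ℕ) : ℤ) := by push_cast; ring
    rw [this, zpow_natCast, pow_add, ← hD]
    norm_num
    ring
  have e3 : (2 : ℝ)⁻¹ ^ (C + 12) = i / 4096 := by
    rw [inv_pow, pow_add, ← hD, hi]
    field_simp
    norm_num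
  have e4 : i / 16 ≤ H * ρ := by
    have a1 : (2 : ℝ)⁻¹ ^ (C + 4) ≤ (2 : ℝ)⁻¹ ^ (b + 4) := pow_le_pow_of_le_one (by norm_num) (by norm_num) (by omega)
    have a2 : (2 : ℝ)⁻¹ ^ (C + 4) = i / 16 := by
      rw [inv_pow, pow_add, ← hD, hi]
      field_simp
      norm_num
    rw [a2] at a1
    exact a1.trans hρ.1
  have e5 : H * ρ ≤ 16 * D := by
    have a1 : (2 : ℝ) ^ (b + 4) ≤ 2 ^ (C + 4) := pow_le_pow_right₀ one_le_two (by omega)
    have a2 : (2 : ℝ) ^ (C + 4) = 16 * D := by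
      rw [pow_add, ← hD]
      norm_num
      ring
    rw [a2] at a1
    exact hρ.2.trans a1
  rw [e1, e2] at hs
  rw [e3] at htS
  rw [div_pow, le_div_iff₀ (by positivity)]
  by_cases hA : s0 < i / 1024
  · have hx : 2 * tS ≤ 2 * H * ρ - s0 := by nlinarith
    nlinarith
  · have hB : 1024 * D ≤ s0 := by
      by_contra hcon
      exact hs ⟨not_lt.1 hA, not_le.1 hcon⟩
    have hx : 2 * tS ≤ -(2 * H * ρ - s0) := by nlinarith
    nlinarith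

/-- `W G` lives on the bands -/
theorem fz_wd_band (P : FzP) (h : P.Ok) (C b : ℕ) (hb : b ≤ C) (htS : P.tS ≤ (2 : ℝ)⁻¹ ^ (C + 12)) (G : Lp ℂ 2 (volume : Measure RdWvPar.Mo))
    (hG : (P.rd h).Spec b G) :
    ∀ᵐ x ∂((volume : Measure FzOm).prod (volume : Measure ℝ)), x.1 ∉ fzWdU C (2 * C + 20) → (fzW P G : FzOm × ℝ → ℂ) x = 0 := by
  have h1 : ∀ᵐ u : ℝ, ∀ᵐ z : ℝ × ℝ, (G : RdWvPar.Mo → ℂ) ((z.1, u / P.fs), z.2) ≠ 0 → P.H * z.2 ∈ rdPlat b :=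
    fz_kr_map_ae h.fs_pos (p := fun q : RdWvPar.Mo => (G : RdWvPar.Mo → ℂ) q ≠ 0 → P.H * q.2 ∈ rdPlat b) hG
  filter_upwards [fz_w_spec P h G, fz_w_ae_snd h1] with x e1 e2 hx
  rw [e1]
  unfold FzP.wf
  refine integral_eq_zero_of_ae ?_
  filter_upwards [e2] with z hz
  by_cases h0 : (G : RdWvPar.Mo → ℂ) ((z.1, x.2 / P.fs), z.2) = 0
  · rw [h0, mul_zero]
    rfl
  · have h3 := fz_wd_win (H := P.H) (s0 := x.1.2.1) hb h.tS_pos htS (hz h0) hx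
    unfold FzP.wk
    rw [h3]
    simp

/-! ## the exits -/

/-- (= `fz_id0`)   `tS ≤ 2^-(C+12)`: the window in `σ` does not leave the bands -/
theorem fz_wd_id0 (P : FzP) (h : P.Ok) (C b : ℕ) (hb : b ≤ C) (htS : P.tS ≤ (2 : ℝ)⁻¹ ^ (C + 12)) (G : Lp ℂ 2 (volume : Measure RdWvPar.Mo))
    (hG : (P.rd h).Spec b G) :
    G = ∑ j : Fin (2 * C + 20), ContinuousLinearMap.adjoint (fzW P) (fzCut (fzBand (fzA C j)) (fzW P G)) := by
  have e1 : ∑ j : Fin (2 * C + 20), ContinuousLinearMap.adjoint (fzW P) (fzCut (fzBand (fzA C j)) (fzW P G))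
      = ∑ j ∈ Finset.range (2 * C + 20), ContinuousLinearMap.adjoint (fzW P) (fzCut (fzBand (2 ^ ((j : ℤ) - ((C : ℤ) + 10)))) (fzW P G)) :=
    Fin.sum_univ_eq_sum_range (fun j : ℕ => ContinuousLinearMap.adjoint (fzW P) (fzCut (fzBand (2 ^ ((j : ℤ) - ((C : ℤ) + 10)))) (fzW P G))) (2 * C + 20)
  rw [e1, ← map_sum, fz_wd_cut_sum, fz_wd_cut_eq_self _ (fz_wd_U_meas C _) _ (fz_wd_band P h C b hb htS G hG), fz_wd_adj_iso _ (fz_wx_iso P h)]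

/-- (= `fz_id1`) -/
theorem fz_wd_id1 (P : FzP) (h : P.Ok) (a : ℝ) (ha : 0 < a) (T : ℝ) (k β : ℕ) (V : Lp ℂ 2 ((volume : Measure FzOm).prod (volume : Measure ℝ))) :
    (P.rd h).an T k β (ContinuousLinearMap.adjoint (fzW P) (fzCut (fzBand a) V)) = fzC0 P h a T k β ((fzHy P a).an T k (fzCut (fzBand a) V)) :=
  fz_wd_abs_id1 ((P.rd h).an T k β) (fzW P) (fzAn P a T k) (fzCut (fzBand a)) (hy_an_norm (fzHy P a) (fz_wd_hy_ok P h a ha) T k)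
    (fz_wd_cut_idem _ (fz_wd_band_meas a)) V

/-- (= `fz_id2`) -/
theorem fz_wd_id2 (P : FzP) (h : P.Ok) (a : ℝ) (ha : 0 < a) (T : ℝ) (k β : ℕ) (G : Lp ℂ 2 (volume : Measure RdWvPar.Mo)) (hG : (P.rd h).Spec β G)
    (F : Lp ℂ 2 (fzHy P a).rw) :
    ⟪F, (fzHy P a).an T k (fzCut (fzBand a) (fzW P G))⟫_ℂ = ⟪fzC0 P h a T k β F, (P.rd h).an T k β G⟫_ℂ :=
  fz_wd_abs_id2 ((P.rd h).an T k β) (fzW P) (fzAn P a T k) (fzCut (fzBand a)) (rt_w1_contr (P.rd h) T k β)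
    (fz_wd_cut_inner _ (fz_wd_band_meas a)) G (rt_w1_iso (P.rd h) T k β G hG) F

/-- (= `fz_c0_contr`) -/
theorem fz_wd_c0_contr (P : FzP) (h : P.Ok) (a : ℝ) (ha : 0 < a) (T : ℝ) (k β : ℕ) (F : Lp ℂ 2 (fzHy P a).rw) : ‖fzC0 P h a T k β F‖ ≤ ‖F‖ :=
  fz_wd_abs_contr ((P.rd h).an T k β) (fzW P) (fzAn P a T k) (fzCut (fzBand a)) (rt_w1_contr (P.rd h) T k β) (fun G => (fz_wx_iso P h G).le)
    (fun V => (hy_an_norm (fzHy P a) (fz_wd_hy_ok P h a ha) T k V).le) (fz_wd_cut_norm_le _ (fz_wd_band_meas a)) F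

/-- (= `fz_c0_lin`) -/
theorem fz_wd_c0_lin (P : FzP) (h : P.Ok) (a : ℝ) (ha : 0 < a) (T : ℝ) (k β : ℕ) (F F' : Lp ℂ 2 (fzHy P a).rw) (c : ℂ) :
    fzC0 P h a T k β (F + c • F') = fzC0 P h a T k β F + c • fzC0 P h a T k β F' :=
  fz_wd_abs_lin ((P.rd h).an T k β) (fzW P) (fzAn P a T k) (fzCut (fzBand a)) (fz_wd_cut_add _ (fz_wd_band_meas a))
    (fz_wd_cut_smul _ (fz_wd_band_meas a)) F F' c

end Claimed.Agent.R256
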