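-- KEEP
import Claimed.Agent.R256.Fz.MDefs
import Claimed.Agent.R256.Fz.WId
import Claimed.Agent.R256.Fz.Off

/-!
# Row 256 (LS paper), folder Fz, file Seam : THE SEAM BETWEEN THE ANALYSIS UNITS (W, K, OFF) AND THE ASSEMBLY (CELL, IN, OUT)          (chief helper207; prefix `fz_`)          CONTRACT FILE

Plan: report 951.      The assembly uses ONLY the statements of this file about `fzW`, `fzC0` (+ `Hyb/*` for the hybrid analysis, `Rt/Wv1` for the round analysis).      PROVE IN YOUR OWN FILES (`Fz/W*.lean`, `Fz/K*.lean`, `Fz/Off*.lean`), final theorem verbatim under a new name; 207 swaps the `sorry`.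
* `fz_w_iso`    `W` is an isometry            * `fz_cut_*`   `fzCut U` is the orthogonal projection `1_{U×ℝ}`            * `fz_hy_ok`   `fzHy P a` is a good parameter
* `fz_id0`      `G = Σ_j W^* 1_{band j} W G` for `G` in the plateau of generation `≤ C`
* `fz_id1`      `E W^* 1_band V = C0 (I 1_band V)`            * `fz_id2`   `<F, I 1_band W G> = <C0 F, E G>` for `G` in the plateau of generation `β`            * `fz_c0_contr`  `‖C0 F‖ ≤ ‖F‖`,  `fz_c0_add`, `fz_c0_smul` (linearity)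
* `fz_off`      **OFF**: no interaction between round rows `Sr ⊆ {flat coordinates ≤ δ^(-S/2+..)}` and hybrid rows `Sc` which are nowhere `cyNear`.
  ERRORS: base `eb = δ^S1`, normal `en = max (δ^S1) (δ^-g1 √(Hf 2^k))`.      ORDER: `S, S1 | Zf | g1 | C, J | n0`   (`Zf > S + S1 + 2` serves only the base mismatches; `g1` enters only the order `N`).
-/

set_option autoImplicit false

namespace Claimed.Agent.R256

open MeasureTheory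
open scoped ENNReal InnerProductSpace

/-- OWNER FZ-W (helper12) -/
theorem fz_w_iso (P : FzP) (h : P.Ok) (G : Lp ℂ 2 (volume : Measure RdWvPar.Mo)) : ‖fzW P G‖ = ‖G‖ :=
  fz_wx_iso P h G

/-- OWNER FZ-W -/
theorem fz_cut_ae (U : Set FzOm) (hU : MeasurableSet U) (V : Lp ℂ 2 ((volume : Measure FzOm).prod (volume : Measure ℝ))) :
    (fzCut U V : FzOm × ℝ → ℂ) =ᵐ[(volume : Measure FzOm).prod (volume : Measure ℝ)] (U ×ˢ (Set.univ : Set ℝ)).indicator (V : FzOm × ℝ → ℂ) :=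
  fz_wd_cut_ae U hU V

/-- OWNER FZ-W -/
theorem fz_hy_ok (P : FzP) (h : P.Ok) (a : ℝ) (ha : 0 < a) : (fzHy P a).Ok :=
  fz_wd_hy_ok P h a ha

/-- OWNER FZ-W.   The hybrid analysis is fibred over `ω` -/
theorem fz_cut_an (P : FzP) (h : P.Ok) (a : ℝ) (ha : 0 < a) (T : ℝ) (k : ℕ) (U : Set FzOm) (hU : MeasurableSet U)
    (V : Lp ℂ 2 ((volume : Measure FzOm).prod (volume : Measure ℝ))) :
    ((fzHy P a).an T k (fzCut U V) : FzOm × ℝ × ℝ → ℂ) =ᵐ[(fzHy P a).rw]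
      (U ×ˢ (Set.univ : Set (ℝ × ℝ))).indicator ((fzHy P a).an T k V : FzOm × ℝ × ℝ → ℂ) :=
  fz_wd_cut_an P h a ha T k U hU V

/-- OWNER FZ-W.   `tS ≤ 2^-(C+12)`: the window in `σ` does not leave the bands -/
theorem fz_id0 (P : FzP) (h : P.Ok) (C b : ℕ) (hb : b ≤ C) (htS : P.tS ≤ (2 : ℝ)⁻¹ ^ (C + 12)) (G : Lp ℂ 2 (volume : Measure RdWvPar.Mo))
    (hG : (P.rd h).Spec b G) :
    G = ∑ j : Fin (2 * C + 20), ContinuousLinearMap.adjoint (fzW P) (fzCut (fzBand (fzA C j)) (fzW P G)) :=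
  fz_wd_id0 P h C b hb htS G hG

/-- OWNER FZ-W -/
theorem fz_id1 (P : FzP) (h : P.Ok) (a : ℝ) (ha : 0 < a) (T : ℝ) (k β : ℕ) (V : Lp ℂ 2 ((volume : Measure FzOm).prod (volume : Measure ℝ))) :
    (P.rd h).an T k β (ContinuousLinearMap.adjoint (fzW P) (fzCut (fzBand a) V)) = fzC0 P h a T k β ((fzHy P a).an T k (fzCut (fzBand a) V)) :=
  fz_wd_id1 P h a ha T k β V

/-- OWNER FZ-W -/
theorem fz_id2 (P : FzP) (h : P.Ok) (a : ℝ) (ha : 0 < a) (T : ℝ) (k β : ℕ) (G : Lp ℂ 2 (volume : Measure RdWvPar.Mo)) (hG : (P.rd h).Spec β G)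
    (F : Lp ℂ 2 (fzHy P a).rw) :
    ⟪F, (fzHy P a).an T k (fzCut (fzBand a) (fzW P G))⟫_ℂ = ⟪fzC0 P h a T k β F, (P.rd h).an T k β G⟫_ℂ :=
  fz_wd_id2 P h a ha T k β G hG F

/-- OWNER FZ-W -/
theorem fz_c0_contr (P : FzP) (h : P.Ok) (a : ℝ) (ha : 0 < a) (T : ℝ) (k β : ℕ) (F : Lp ℂ 2 (fzHy P a).rw) : ‖fzC0 P h a T k β F‖ ≤ ‖F‖ :=
  fz_wd_c0_contr P h a ha T k β F

/-- OWNER FZ-W -/
theorem fz_c0_lin (P : FzP) (h : P.Ok) (a : ℝ) (ha : 0 < a) (T : ℝ) (k β : ℕ) (F F' : Lp ℂ 2 (fzHy P a).rw) (c : ℂ) :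
    fzC0 P h a T k β (F + c • F') = fzC0 P h a T k β F + c • fzC0 P h a T k β F' :=
  fz_wd_c0_lin P h a ha T k β F F' c

/-- **OFF** (07 l.1115-1165).      OWNERS FZ-K (helper295: kernel, model integral, majorant), FZ-OFF (helper256: Schur).
`δ = 2^-n`, cut `(T, k)` with `0 ≤ T ≤ 1`, `k ≤ n`, generation `β ≤ C`, band `a = fzA C j`;   `δ^C ≤ Hf ≤ δ`, `fs ≤ δ^Zf`;   round rows with flat coordinates `≤ δ^(-S/4)`. -/
theorem fz_off (S S1 : ℝ) (hS : 0 < S) (hS1 : 0 < S1) :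
    ∃ Zf : ℝ, ∀ g1 : ℝ, 0 < g1 → ∀ C J : ℕ, ∃ n0 : ℕ, ∀ (H fs : ℝ) (n : ℕ) (h : (fzPn H fs S n).Ok) (j : Fin (2 * C + 20)) (T : ℝ) (k β : ℕ), n0 ≤ n → k ≤ n → β ≤ C →
      0 ≤ T → T ≤ 1 → ((2 : ℝ)⁻¹ ^ n) ^ (C : ℝ) ≤ H / fs ^ 2 → H / fs ^ 2 ≤ (2 : ℝ)⁻¹ ^ n → fs ≤ ((2 : ℝ)⁻¹ ^ n) ^ Zf →
      ∀ (Sr : Set RdWvPar.Ph) (Sc : Set (FzOm × ℝ × ℝ)), MeasurableSet Sr → MeasurableSet Sc → Sr ⊆ fzIn fs (((2 : ℝ)⁻¹ ^ n) ^ (-(S / 4))) →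
        (∀ z ∈ Sr, ∀ z' ∈ Sc, ¬ cyNear ((2 : ℝ)⁻¹ ^ k) (((2 : ℝ)⁻¹ ^ n) ^ S1)
          (max (((2 : ℝ)⁻¹ ^ n) ^ S1) (((2 : ℝ)⁻¹ ^ n) ^ (-g1) * Real.sqrt (H / fs ^ 2 * 2 ^ k))) (fzFl fs z) ((fzHy (fzPn H fs S n) (fzA C j)).co T z')) →
        ∀ F : Lp ℂ 2 (fzHy (fzPn H fs S n) (fzA C j)).rw, (∀ᵐ z' ∂(fzHy (fzPn H fs S n) (fzA C j)).rw, z' ∉ Sc → (F : FzOm × ℝ × ℝ → ℂ) z' = 0) →
          ∫ z in Sr, ‖(fzC0 (fzPn H fs S n) h (fzA C j) T k β F : RdWvPar.Ph → ℂ) z‖ ^ 2 ∂(((fzPn H fs S n).rd h).rw k)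
            ≤ ((2 : ℝ)⁻¹ ^ n) ^ (J : ℝ) * ‖F‖ ^ 2 :=
  fz_off_main S S1 hS hS1

end Claimed.Agent.R256
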