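-- KEEP
import Claimed.Agent.R256.Fz.Seam
import Claimed.Agent.R256.Fz.Geo
import Claimed.Agent.R256.Fz.GeoReg
import Claimed.Agent.R256.Hyb.Contract
import Claimed.Agent.R256.Rt.Wv1

/-!
# Row 256 (LS paper), folder Fz = WAVE FREEZE, unit FZ-ASM-IN, file AsmIn : THE INPUT COMPARISON, operator part          (architect helper89; chief helper207; prefix `fz_ai_`)          CONTRACT + GLUE

Plan: report 951.   The two operator halves of IN (truncated regularity, normal tail) are `fz_du_reg`, `fz_du_tail` of `Fz/Dual.lean` (helper233).   This file: the structural part.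
* `fz_ai_supp`      `An_hyb (fzCut U V)` vanishes off `U × ℝ²`.
* `fz_ai_valid`     `Xp.Valid` of the hybrid experiment `d.xp` (with a true regularity `ka`).
* measurability of the sets of rows.
Every `sorry` is a leaf `L-256-FZ-AI-*` (name in the docstring); prove IN PLACE, statement verbatim, auxiliary lemmas directly above, prefix `fz_ai_`.
-/

set_option autoImplicit false

namespace Claimed.Agent.R256

open MeasureTheory
open scoped ENNReal InnerProductSpace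

/-! ## measurability -/

/-- LEAF `L-256-FZ-AI-MEAS`.   `fzFl fs x = ⟨x.1.1, x.2.1.1, x.2.2, x.1.2 / fs, x.2.1.2 / fs⟩` (`fzFl`, `rtFl`: `rfl`).   `unfold cyIn cyTilt cyVel cyPos fzFl rtFl; simp only [Set.setOf_and]`; five times `measurableSet_le (by fun_prop) measurable_const`
(cf. `hy_fl_cell_meas` in `Hyb/Floor.lean`). -/
theorem fz_ai_meas_in (Q : CyT) (l fs : ℝ) : MeasurableSet {x : RdWvPar.Ph | cyIn Q l (fzFl fs x)} := by
  unfold cyIn cyTilt cyVel cyPos fzFl rtFl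
  simp only [Set.setOf_and]
  refine MeasurableSet.inter ?_ (MeasurableSet.inter ?_ (MeasurableSet.inter ?_ (MeasurableSet.inter ?_ ?_)))
  all_goals exact measurableSet_le (by fun_prop) measurable_const

/-- LEAF `L-256-FZ-AI-MEAS`.   The same for the five inequalities of `fzIn`. -/
theorem fz_ai_meas_reg (fs R : ℝ) : MeasurableSet (fzIn fs R) := by
  unfold fzIn fzFl rtFl
  simp only [Set.setOf_and]
  refine MeasurableSet.inter ?_ (MeasurableSet.inter ?_ (MeasurableSet.inter ?_ (MeasurableSet.inter ?_ ?_)))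
  all_goals exact measurableSet_le (by fun_prop) measurable_const

/-- LEAF `L-256-FZ-AI-MEAS`.   `fzBand`, `fzBox`: finitely many inequalities between measurable functions. -/
theorem fz_ai_meas_box (a R : ℝ) : MeasurableSet (fzBand a) ∧ MeasurableSet (fzBox R) := by
  constructor
  · unfold fzBand
    simp only [Set.setOf_and]
    exact MeasurableSet.inter (measurableSet_le measurable_const (by fun_prop)) (measurableSet_lt (by fun_prop) measurable_const)
  · unfold fzBox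
    simp only [Set.setOf_and]
    refine MeasurableSet.inter ?_ (MeasurableSet.inter ?_ ?_)
    all_goals exact measurableSet_le (by fun_prop) measurable_const

/-! ## cuts -/

/-- LEAF `L-256-FZ-AI-SUPP`.   `p = fzHy P a`, `hp = fz_hy_ok P hP a ha`.   `{x | x.1 ∉ U} = {x | x.1 ∈ Uᶜ}`;   `hy_fl_ms_base p hp η T k b Uᶜ hU.compl _ : ofReal (ms ..) = hyE p Uᶜ (fzCut U V)`;
`hyE = ∫⁻ y in {y | y.1 ∈ Uᶜ}, ‖fzCut U V y‖ₑ² = 0`: `setLIntegral_eq_zero_iff`-type or `lintegral_eq_zero_iff'`/`setLIntegral_congr_fun` with `fz_cut_ae U hU V` (`ae_restrict_of_ae`): on `y.1 ∉ U` the indicator of `U ×ˢ univ` is `0`.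
Then `ENNReal.ofReal_eq_zero` gives `ms ≤ 0`, and `gn_ms_nonneg`. -/
theorem fz_ai_supp (η : ℝ) (P : FzP) (hP : P.Ok) {a : ℝ} (ha : 0 < a) (U : Set FzOm) (hU : MeasurableSet U)
    (V : Lp ℂ 2 ((volume : Measure FzOm).prod (volume : Measure ℝ))) (T : ℝ) (k b : ℕ) :
    ((fzHy P a).sys η).ms T k b {x | x.1 ∉ U} (fzCut U V) = 0 := by
  have hp := fz_hy_ok P hP a ha
  have h1 := hy_fl_ms_base (fzHy P a) hp η T k b Uᶜ hU.compl (fzCut U V)
  have h2 : hyE (fzHy P a) Uᶜ (fzCut U V) = 0 := by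
    unfold hyE
    have hA : MeasurableSet {y : FzOm × ℝ | y.1 ∈ Uᶜ} := measurable_fst hU.compl
    have h3 : ∀ᵐ y ∂((volume : Measure FzOm).prod (volume : Measure ℝ)), y ∈ {y : FzOm × ℝ | y.1 ∈ Uᶜ} →
        ‖(fzCut U V : FzOm × ℝ → ℂ) y‖ₑ ^ 2 = 0 := by
      filter_upwards [fz_cut_ae U hU V] with y hy hyU
      rw [hy, Set.indicator_of_notMem (fun hh => hyU hh.1)]
      simp
    exact (setLIntegral_congr_fun_ae hA h3).trans (by simp)
  rw [h2, ENNReal.ofReal_eq_zero] at h1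
  exact le_antisymm h1 (gn_ms_nonneg _ _ _ _ _)

/-- LEAF `L-256-FZ-AI-SUPP`.   `fzCut`: `split_ifs`; `Lp.norm_toLp`, `Lp.norm_def`, `ENNReal.toReal_mono (Lp.eLpNorm_ne_top V) (eLpNorm_indicator_le _)`;   else `norm_zero`, `norm_nonneg`. -/
theorem fz_ai_cut_norm (U : Set FzOm) (V : Lp ℂ 2 ((volume : Measure FzOm).prod (volume : Measure ℝ))) : ‖fzCut U V‖ ≤ ‖V‖ := by
  unfold fzCut
  split_ifs with h
  · rw [Lp.norm_toLp, Lp.norm_def]
    exact ENNReal.toReal_mono (Lp.eLpNorm_ne_top V) (eLpNorm_indicator_le _)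
  · rw [norm_zero]
    exact norm_nonneg _

/-! ## the hybrid experiment -/

/-- LEAF `L-256-FZ-AI-VALID`.   **validity of the hybrid experiment.**   `E = { d.xp η P a R Λ θ with ka := ka }`, `hp = fz_hy_ok P hP a ha`.   `refine ⟨..⟩`, field by field (all projections of `E` reduce by `rfl`/`show`):
`e_pos = he`; `ka_pos = hka`; `budget`: `fzSt = fzCut _ (fzW P d.G)`, `fz_ai_cut_norm`, `fz_w_iso`, `pow_le_pow_left₀`; `plat`: `fun T k => hy_an_norm _ hp T k _`; `reg`: `tmL 0 0 = 0` (`simp [tmL]`), `hreg`;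
`st_dep, st_mono, st_meas, st_bd`: the list is `[]` (`List.not_mem_nil`, `List.Pairwise.nil`); `iv_in`: `ancI (0 + n) 0 i = i / 2 ^ (0 + n - 0) = 0` (`Nat.div_eq_of_lt`, `hiv`; `Xp.kf`, `Nat.zero_add`);
`ts_ok`: `⟨by positivity-type from hr, hf l, hunc l⟩` after `Xp.kf = 0 + d.n = d.n`; `w_pos`: `cyWt`, `Real.rpow_pos_of_pos`, `mul_pos`; `th_meas, th_nn, th_sum`: `hθ.meas, hθ.nn, hθ.sum_le`; `th_supp`: `hθ.supp` (`d.s = 2⁻¹ ^ d.n`: `rfl`). -/
theorem fz_ai_valid (η : ℝ) (d : FzDat) (P : FzP) (hP : P.Ok) {a : ℝ} (ha : 0 < a) (R Λ ka : ℝ) (θ : Fin d.L → FzOm × ℝ × ℝ → ℝ)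
    (he : 0 < d.e) (hb : ‖d.G‖ ^ 2 ≤ d.e) (hiv : ∀ l, d.iv l < 2 ^ d.n) (hka : 0 < ka)
    (hreg : ((fzHy P a).sys η).Reg 0 0 0 ka (fzSt P a R d.G)) (hθ : d.Asg P a Λ θ)
    (hr : ∀ l, 0 < (d.tc l).r) (hf : ∀ l, 0 < Λ * (d.tc l).f) (hunc : ∀ l, (fzHy P a).dl d.n ≤ Λ * (d.tc l).f) :
    Xp.Valid { d.xp η P a R Λ θ with ka := ka } := by
  have hp := fz_hy_ok P hP a ha
  refine ⟨he, hka, ?_, ?_, ?_, ?_, ?_, ?_, ?_, ?_, ?_, ?_, hθ.meas, hθ.nn, ?_, hθ.sum_le⟩
  · -- budget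
    show ‖fzSt P a R d.G‖ ^ 2 ≤ d.e
    refine le_trans (pow_le_pow_left₀ (norm_nonneg _) ?_ 2) hb
    unfold fzSt
    exact (fz_ai_cut_norm _ _).trans (fz_w_iso P hP d.G).le
  · -- plat
    exact fun T k => hy_an_norm _ hp T k _
  · -- reg
    show ((fzHy P a).sys η).Reg (tmL 0 0) 0 0 ka (fzSt P a R d.G)
    have : tmL 0 0 = 0 := by simp [tmL]
    rw [this]
    exact hreg
  · intro σ hσ
    exact absurd hσ (List.not_mem_nil)
  · exact List.Pairwise.nil
  · intro σ hσ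
    exact absurd hσ (List.not_mem_nil)
  · intro σ hσ
    exact absurd hσ (List.not_mem_nil)
  · intro l
    show ancI (0 + d.n) 0 (d.iv l) = 0
    unfold ancI
    rw [Nat.zero_add, Nat.sub_zero]
    exact Nat.div_eq_of_lt (hiv l)
  · intro l
    show 0 < (fzEnl Λ (d.tc l)).r ∧ 0 < (fzEnl Λ (d.tc l)).f ∧ (fzHy P a).dl (0 + d.n) ≤ (fzEnl Λ (d.tc l)).f
    rw [Nat.zero_add]
    refine ⟨?_, hf l, hunc l⟩
    show 0 < 2 * (d.tc l).r
    have := hr l
    positivity
  · intro l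
    show 0 < cyWt η (fzEnl Λ (d.tc l))
    unfold cyWt
    have h1 : 0 < (fzEnl Λ (d.tc l)).r := by
      show 0 < 2 * (d.tc l).r
      have := hr l
      positivity
    have h2 : 0 < (fzEnl Λ (d.tc l)).f := hf l
    exact mul_pos (Real.rpow_pos_of_pos h1 _) (Real.rpow_pos_of_pos h2 _)
  · intro l x hx
    show cyIn (fzEnl Λ (d.tc l)) ((2 : ℝ)⁻¹ ^ (0 + d.n)) ((fzHy P a).co (tmL (0 + d.n) (d.iv l)) x)
    rw [Nat.zero_add]
    exact hθ.supp l x hx

end Claimed.Agent.R256
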