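-- KEEP
import Claimed.Agent.R256.Fz.Seam
import Claimed.Agent.R256.Fz.Geo
import Claimed.Agent.R256.Rt.Wv1
import Claimed.Agent.R256.Hyb.Contract

/-!
# Row 256 (LS paper), folder Fz, file Dual : THE ROOT COMPARISON BY DUALITY          (helper233; chief helper207; prefix `fz_du_`)          CONTRACT + GLUE

ONE inequality at the root cut `(T, k) = (0, 0)` gives the truncated regularity (IN-A), the normal tail (IN-B) and the energy outside the base box (OUT) of the hybrid states.   NO energy accounting.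
`u = E G` (round rows), `w = I 1_band W G` (hybrid rows), `C0 = fzC0`:   `<F, w> = <C0 F, u>` (`fz_id2`), `‖C0 F‖ ≤ ‖F‖`.      For `F = 1_Sc w`:   `‖F‖² = <C0 F, u> = ∫_Sr + ∫_Sm + ∫_So`,
`Sr` = any measurable set of round rows, `Sm = region \ Sr` (no row of `Sm` is near a row of `Sc`: `fz_off`), `So` = complement of the root region `fzIn fs δ^(-g0/2)` (`FzDat.Ok.root`):
      **`fz_du_main`**      `√(ms Sc (1_band W G)) ≤ √(ms0 Sr) + (δ^(J/2) + δ^(A/2)) √e`.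
EXITS
 `fz_du_st`      `ms Sc (fzSt ..) = ms (Sc ∩ {x.1 ∈ box}) (1_band W G)`
 `fz_du_tail`    (IN-B)  `ms {1 < cyNorSz (fzFr r0) 1 ..} (fzSt ..) ≤ δ^J e`            (`Sr = ∅`)
 `fz_du_box`     (OUT)   `‖1_{band \ box} W G‖² ≤ δ^J e`                                    (`Sr = ∅`)
 `fz_du_reg`     (IN-A)  `ms (cell Q) (fzSt ..) ≤ δ^-g1 bq cyWt Q` for `Q` in the truncated family `CyTr 0 0 (fzFr r0) (δ^D)`, with `Dt = D + 3`      (`Sr` = region ∩ enlarged cell; `Sr = ∅` for far tests)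
`r0 = δ^-g0 / 4` = base box = widths of the frame.      ORDER: `S (= fzS Ds), D, g1 | Zf | g0 | C, J | A, n0`.
Every `sorry` is a leaf `L-256-FZ-DU-*` (name in the docstring); prove IN PLACE, statement verbatim, auxiliary lemmas directly above, prefix `fz_du<n>_`.
-/

set_option autoImplicit false

namespace Claimed.Agent.R256

open MeasureTheory
open scoped ENNReal InnerProductSpace

/-! ## complements of GEO -/

/-- LEAF `L-256-FZ-DU-G` -/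
theorem fz_g_boxT_zero (R : ℝ) : fzBoxT 0 R = fzBox R := by
  unfold fzBoxT fzBox
  simp only [zero_mul, add_zero]

/-- LEAF `L-256-FZ-DU-G` -/
theorem fz_g_enl (Λ : ℝ) (Q : CyT) : fzEnl Λ Q = fzUp Q (Λ * Q.f) := rfl

/-- LEAF `L-256-FZ-DU-G`.   **G2 with a witness in the ENLARGED cell** (`Dt = D + 3`).   As `fz_g_root`; now `|cyVel|, |cyPos| ≤ 2 Q.f + en ≤ 3 r0`:   `|c| ≤ 4 r0 + 5 r0/ρ ≤ 9 r0/ρ ≤ (9/4) s⁻¹ s^-D ≤ s^-(D+3)`;   `|Y| ≤ r0 ≤ r0²`. -/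
theorem fz_g_root2 {s D T0 r0 en : ℝ} {Q : CyT} {z : Cy5} (hs : 0 < s) (hs2 : s ≤ 1 / 2) (hD : 0 < D) (hr0 : 1 ≤ r0) (hr1 : r0 ≤ s⁻¹ / 4)
    (hQ : CyTr T0 0 (fzFr r0) (s ^ D) Q) (hen : 0 ≤ en) (hen1 : en ≤ r0) (hin : cyIn (fzUp Q (2 * Q.f + en)) 1 z)
    (hX : |z.X| ≤ r0) (hB : |z.B| ≤ r0) (hY : |z.Y| ≤ r0) (hN : |z.N| ≤ r0) (hDD : |z.D| ≤ r0) :
    s ^ (D + 3) ≤ (fzUp Q (2 * Q.f + en)).r ∧ (fzUp Q (2 * Q.f + en)).r ≤ 4 * r0 ∧ s ^ (D + 3) ≤ (fzUp Q (2 * Q.f + en)).f ∧ (fzUp Q (2 * Q.f + en)).f ≤ 4 * r0 ∧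
      cySh (fzUp Q (2 * Q.f + en)) (s ^ (-(D + 3))) := by
  have h0 : 0 < r0 := by linarith
  obtain ⟨q1, q2, q3, q4, q5, q6, q7⟩ := fz_g_tr h0 hQ
  have b1 := hX
  have b2 := hB
  have b3 : |z.Y| ≤ r0 ^ 2 := by nlinarith
  obtain ⟨-, -, -, i4, i5⟩ := hin
  rw [one_mul] at i5
  have i4' : |cyVel Q z| ≤ 2 * Q.f + en := i4
  have i5' : |cyPos Q z| ≤ 2 * Q.f + en := i5
  obtain ⟨p0, -, p2, p3, p4⟩ := fz_g3_pw (D := D) hs hs2
  have e2 : s ^ (D + 3) = s ^ D * s ^ 3 := by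
    have := p2 3
    norm_num at this
    exact this
  have e3 : s ^ (-(D + 3)) = (s ^ D)⁻¹ * (s⁻¹) ^ 3 := by
    have := p3 3
    norm_num at this
    simpa using this
  rw [e2, e3]
  obtain ⟨u, hu⟩ : ∃ u, u = s ^ D := ⟨_, rfl⟩
  obtain ⟨w, hw⟩ : ∃ w, w = (s ^ D)⁻¹ := ⟨_, rfl⟩
  obtain ⟨v, hv⟩ : ∃ v, v = s⁻¹ := ⟨_, rfl⟩
  have hu1 : u ≤ 1 := by
    rw [hu]
    exact Real.rpow_le_one hs.le (by linarith) hD.le
  have hw1 : 1 ≤ w := by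
    rw [hw, ← hu]
    exact (one_le_inv₀ (by rw [hu]; exact p0)).2 hu1
  rw [← hu] at p0 q1 q3
  rw [← hw] at q5 q6 q7
  rw [← hv] at p4 hr1
  rw [← hw, ← hu, ← hv]
  have hw0 : 0 ≤ w := by linarith
  have hs8 : s ^ 3 ≤ 1 / 8 := by
    have := pow_le_pow_left₀ hs.le hs2 3
    norm_num at this
    linarith
  have hlow : u * s ^ 3 ≤ 2 * (u * r0) := by
    have a1 := mul_le_mul_of_nonneg_left hs8 p0.le
    have a2 := mul_le_mul_of_nonneg_left hr0 p0.le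
    have a3 := mul_pos p0 h0
    linarith
  have hv8 : 8 ≤ v ^ 3 := by
    have := pow_le_pow_left₀ (by norm_num) p4 3
    norm_num at this
    linarith
  have hbe : |Q.be| ≤ w := by
    have := mul_le_mul_of_nonneg_left hr0 (abs_nonneg Q.be)
    linarith
  have hK : |Q.K| ≤ w := by
    have := mul_le_mul_of_nonneg_left hr0 (abs_nonneg Q.K)
    linarith
  have hwv : w ≤ w * v ^ 3 := by
    have := mul_le_mul_of_nonneg_left hv8 hw0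
    linarith
  have hrv : 9 * (w * r0) ≤ w * v ^ 3 := by
    have a1 := mul_le_mul_of_nonneg_left hr1 hw0
    have a2 : 9 * (v / 4) ≤ v ^ 3 := by nlinarith [mul_self_nonneg (v - 2), mul_nonneg (by linarith : (0:ℝ) ≤ v - 2) (by linarith : (0:ℝ) ≤ v)]
    have a3 := mul_le_mul_of_nonneg_left a2 hw0
    linarith
  have m2 : ∀ x y X Y : ℝ, |x| ≤ X → |y| ≤ Y → |x * y| ≤ X * Y := by
    intro x y X Y hx hy
    rw [abs_mul]
    exact mul_le_mul hx hy (abs_nonneg _) ((abs_nonneg _).trans hx)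
  have t1 : |Q.al * z.X| ≤ w * r0 := m2 _ _ _ _ q5 b1
  have t1' : |Q.al * z.B| ≤ w * r0 := m2 _ _ _ _ q5 b2
  have hX2 : |z.X ^ 2| ≤ r0 * r0 := by
    rw [pow_two]
    exact m2 _ _ _ _ b1 b1
  have hB2 : |z.B ^ 2| ≤ r0 * r0 := by
    rw [pow_two]
    exact m2 _ _ _ _ b2 b2
  have hXB : |z.X * z.B| ≤ r0 * r0 := m2 _ _ _ _ b1 b2
  have t2 : |Q.be * z.X ^ 2| ≤ w * r0 := by
    rw [abs_mul]
    calc |Q.be| * |z.X ^ 2| ≤ |Q.be| * (r0 * r0) := mul_le_mul_of_nonneg_left hX2 (abs_nonneg _)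
      _ = |Q.be| * r0 * r0 := by ring
      _ ≤ w * r0 := mul_le_mul_of_nonneg_right q6 h0.le
  have t2' : |Q.be * z.Y| ≤ w * r0 := by
    rw [abs_mul]
    calc |Q.be| * |z.Y| ≤ |Q.be| * (r0 ^ 2) := mul_le_mul_of_nonneg_left b3 (abs_nonneg _)
      _ = |Q.be| * r0 * r0 := by ring
      _ ≤ w * r0 := mul_le_mul_of_nonneg_right q6 h0.le
  have t3 : |Q.K * (z.Y - 2 * z.X * z.B)| ≤ 3 * (w * r0) := by
    rw [abs_mul]
    have h1 : |z.Y - 2 * z.X * z.B| ≤ 3 * (r0 * r0) := by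
      rw [abs_le] at b3 hXB ⊢
      constructor <;> linarith [b3.1, b3.2, hXB.1, hXB.2]
    calc |Q.K| * |z.Y - 2 * z.X * z.B| ≤ |Q.K| * (3 * (r0 * r0)) := mul_le_mul_of_nonneg_left h1 (abs_nonneg _)
      _ = 3 * (|Q.K| * r0 * r0) := by ring
      _ ≤ 3 * (w * r0) := by
        have := mul_le_mul_of_nonneg_right q7 h0.le
        linarith
  have t3' : |Q.K * z.B ^ 2| ≤ w * r0 := by
    rw [abs_mul]
    calc |Q.K| * |z.B ^ 2| ≤ |Q.K| * (r0 * r0) := mul_le_mul_of_nonneg_left hB2 (abs_nonneg _)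
      _ = |Q.K| * r0 * r0 := by ring
      _ ≤ w * r0 := mul_le_mul_of_nonneg_right q7 h0.le
  have hwr : r0 ≤ w * r0 := by
    have := mul_le_mul_of_nonneg_right hw1 h0.le
    linarith
  refine ⟨?_, ?_, ?_, ?_, ?_, ?_, ?_, ?_, ?_⟩
  · show u * s ^ 3 ≤ 2 * Q.r
    linarith
  · show 2 * Q.r ≤ 4 * r0
    linarith
  · show u * s ^ 3 ≤ 2 * Q.f + en
    linarith
  · show 2 * Q.f + en ≤ 4 * r0
    linarith
  · show |Q.c| ≤ w * v ^ 3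
    unfold cyVel at i4'
    refine le_trans ?_ hrv
    rw [abs_le] at i4' t1 t2 t3 hN ⊢
    constructor <;> linarith [i4'.1, i4'.2, t1.1, t1.2, t2.1, t2.2, t3.1, t3.2, hN.1, hN.2]
  · show |Q.d| ≤ w * v ^ 3
    unfold cyPos at i5'
    refine le_trans ?_ hrv
    rw [abs_le] at i5' t1' t2' t3' hDD ⊢
    constructor <;> linarith [i5'.1, i5'.2, t1'.1, t1'.2, t2'.1, t2'.2, t3'.1, t3'.2, hDD.1, hDD.2]
  · show |Q.al| ≤ w * v ^ 3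
    linarith
  · show |Q.be| ≤ w * v ^ 3
    linarith
  · show |Q.K| ≤ w * v ^ 3
    linarith

/-! ## the abstract inequality -/

theorem fz_du1_nsq {X : Type} [MeasurableSpace X] {μ : Measure X} (h : Lp ℂ 2 μ) : ‖h‖ ^ 2 = ∫ x, ‖(h : X → ℂ) x‖ ^ 2 ∂μ := by
  have h1 := L2.inner_def (𝕜 := ℂ) h h
  rw [inner_self_eq_norm_sq_to_K] at h1
  simp only [inner_self_eq_norm_sq_to_K] at h1
  have e : ∫ a, ((‖(h : X → ℂ) a‖ : ℝ) : ℂ) ^ 2 ∂μ = ((∫ a, ‖(h : X → ℂ) a‖ ^ 2 ∂μ : ℝ) : ℂ) := by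
    rw [← integral_complex_ofReal]
    refine integral_congr_ae (Filter.Eventually.of_forall fun a => ?_)
    simp
  have h2 : ((‖h‖ : ℝ) : ℂ) ^ 2 = ((∫ a, ‖(h : X → ℂ) a‖ ^ 2 ∂μ : ℝ) : ℂ) := by
    rw [← e]
    exact h1
  exact_mod_cast h2

theorem fz_du1_cs {X : Type} [MeasurableSpace X] {μ : Measure X} {f g : X → ℝ} (hf : MemLp f 2 μ) (hg : MemLp g 2 μ) (hf0 : ∀ x, 0 ≤ f x) (hg0 : ∀ x, 0 ≤ g x) :
    ∫ x, f x * g x ∂μ ≤ Real.sqrt (∫ x, f x ^ 2 ∂μ) * Real.sqrt (∫ x, g x ^ 2 ∂μ) := by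
  have h := integral_mul_le_Lp_mul_Lq_of_nonneg (μ := μ) Real.HolderConjugate.two_two (f := f) (g := g) (Filter.Eventually.of_forall hf0) (Filter.Eventually.of_forall hg0)
    (by rwa [ENNReal.ofReal_ofNat]) (by rwa [ENNReal.ofReal_ofNat])
  simp only [Real.rpow_two] at h
  rw [Real.sqrt_eq_rpow, Real.sqrt_eq_rpow]
  exact h

/-- LEAF `L-256-FZ-DU-1` (Mathlib only).   `F = (w.memLp.indicator hSc).toLp`, `m = ∫_Sc ‖w‖² = ‖F‖² = re <F, w>` (`L2.inner_def`, `integral_indicator`);   `|<C0 F, u>| ≤ ∫ ‖C0 F‖ ‖u‖ ≤ ∫_Sr + ∫_Sm + ∫_So` (cover, nonnegative integrand);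
Cauchy-Schwarz on each set (`integral_mul_le_Lp_mul_Lq` with `p = q = 2`, or `inner_mul_le_norm_mul_norm` for the restricted functions):   `∫_Sr ≤ ‖C0 F‖ √a_r ≤ √m √a_r`,   `∫_Sm ≤ τ √m ‖u‖`,   `∫_So ≤ √m √a_o`.   Divide by `√m` (case `m = 0` trivial). -/
theorem fz_du_abs {X Y : Type} [MeasurableSpace X] [MeasurableSpace Y] {μ : Measure X} {ν : Measure Y} (u : Lp ℂ 2 μ) (w : Lp ℂ 2 ν) (C0 : Lp ℂ 2 ν → Lp ℂ 2 μ)
    (hc : ∀ F, ‖C0 F‖ ≤ ‖F‖) (hid : ∀ F, ⟪F, w⟫_ℂ = ⟪C0 F, u⟫_ℂ) (Sc : Set Y) (hSc : MeasurableSet Sc) (Sr Sm So : Set X) (hSr : MeasurableSet Sr) (hSm : MeasurableSet Sm)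
    (hSo : MeasurableSet So) (hcov : ∀ x, x ∈ Sr ∨ x ∈ Sm ∨ x ∈ So) (τ : ℝ) (hτ : 0 ≤ τ)
    (hoff : ∀ F : Lp ℂ 2 ν, (∀ᵐ y ∂ν, y ∉ Sc → (F : Y → ℂ) y = 0) → ∫ x in Sm, ‖(C0 F : X → ℂ) x‖ ^ 2 ∂μ ≤ τ ^ 2 * ‖F‖ ^ 2) :
    Real.sqrt (∫ y in Sc, ‖(w : Y → ℂ) y‖ ^ 2 ∂ν) ≤ Real.sqrt (∫ x in Sr, ‖(u : X → ℂ) x‖ ^ 2 ∂μ) + τ * ‖u‖ + Real.sqrt (∫ x in So, ‖(u : X → ℂ) x‖ ^ 2 ∂μ) := by
  obtain ⟨m, hm⟩ : ∃ m : ℝ, m = ∫ y in Sc, ‖(w : Y → ℂ) y‖ ^ 2 ∂ν := ⟨_, rfl⟩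
  rw [← hm]
  have hm0 : 0 ≤ m := by
    rw [hm]
    exact integral_nonneg fun _ => by positivity
  obtain ⟨F, hF⟩ : ∃ F : Lp ℂ 2 ν, (F : Y → ℂ) =ᵐ[ν] Sc.indicator (w : Y → ℂ) := ⟨((Lp.memLp w).indicator hSc).toLp _, MemLp.coeFn_toLp _⟩
  have hFv : ∀ᵐ y ∂ν, y ∉ Sc → (F : Y → ℂ) y = 0 := by
    filter_upwards [hF] with y hy hn
    rw [hy, Set.indicator_of_notMem hn]
  have hFn : ‖F‖ ^ 2 = m := by
    rw [fz_du1_nsq, hm, ← integral_indicator hSc]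
    refine integral_congr_ae ?_
    filter_upwards [hF] with y hy
    rw [hy]
    by_cases hy' : y ∈ Sc
    · rw [Set.indicator_of_mem hy', Set.indicator_of_mem hy']
    · rw [Set.indicator_of_notMem hy', Set.indicator_of_notMem hy']
      simp
  have hFw : ⟪F, w⟫_ℂ = ((m : ℝ) : ℂ) := by
    rw [L2.inner_def, hm, ← integral_indicator hSc, ← integral_complex_ofReal]
    refine integral_congr_ae ?_
    filter_upwards [hF] with y hy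
    rw [hy]
    by_cases hy' : y ∈ Sc
    · rw [Set.indicator_of_mem hy', Set.indicator_of_mem hy', inner_self_eq_norm_sq_to_K]
      simp
    · rw [Set.indicator_of_notMem hy', Set.indicator_of_notMem hy']
      simp
  set f : X → ℝ := fun x => ‖(C0 F : X → ℂ) x‖ with hf
  set g : X → ℝ := fun x => ‖(u : X → ℂ) x‖ with hg
  have hfL : MemLp f 2 μ := (Lp.memLp (C0 F)).norm
  have hgL : MemLp g 2 μ := (Lp.memLp u).norm
  have hf0 : ∀ x, 0 ≤ f x := fun x => norm_nonneg _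
  have hg0 : ∀ x, 0 ≤ g x := fun x => norm_nonneg _
  have hfg : Integrable (fun x => f x * g x) μ := hfL.integrable_mul hgL
  have hf2 : Integrable (fun x => f x ^ 2) μ := hfL.integrable_sq
  have hg2 : Integrable (fun x => g x ^ 2) μ := hgL.integrable_sq
  have hfT : ∫ x, f x ^ 2 ∂μ ≤ m := by
    rw [← fz_du1_nsq (C0 F), ← hFn]
    exact pow_le_pow_left₀ (norm_nonneg _) (hc F) 2
  have hgT : ∫ x, g x ^ 2 ∂μ = ‖u‖ ^ 2 := (fz_du1_nsq u).symm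
  have hsub : ∀ (A : Set X) (φ : X → ℝ), Integrable (fun x => φ x ^ 2) μ → ∫ x in A, φ x ^ 2 ∂μ ≤ ∫ x, φ x ^ 2 ∂μ := fun A φ hφ =>
    setIntegral_le_integral hφ (Filter.Eventually.of_forall fun _ => by positivity)
  -- step A
  have hA : m ≤ ∫ x, f x * g x ∂μ := by
    have h1 : ((m : ℝ) : ℂ) = ∫ x, ⟪(C0 F : X → ℂ) x, (u : X → ℂ) x⟫_ℂ ∂μ := by rw [← hFw, hid F, L2.inner_def]
    have h2 : m = ‖∫ x, ⟪(C0 F : X → ℂ) x, (u : X → ℂ) x⟫_ℂ ∂μ‖ := by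
      rw [← h1, Complex.norm_real, Real.norm_of_nonneg hm0]
    rw [h2]
    refine (norm_integral_le_integral_norm _).trans ?_
    exact integral_mono_of_nonneg (Filter.Eventually.of_forall fun _ => norm_nonneg _) hfg (Filter.Eventually.of_forall fun x => norm_inner_le_norm _ _)
  -- step B
  have hB : ∫ x, f x * g x ∂μ ≤ ∫ x in Sr, f x * g x ∂μ + ∫ x in Sm, f x * g x ∂μ + ∫ x in So, f x * g x ∂μ := by
    have e : ∫ x, (Sr.indicator (fun x => f x * g x) x + Sm.indicator (fun x => f x * g x) x + So.indicator (fun x => f x * g x) x) ∂μ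
        = ∫ x in Sr, f x * g x ∂μ + ∫ x in Sm, f x * g x ∂μ + ∫ x in So, f x * g x ∂μ := by
      rw [integral_add (by exact (hfg.indicator hSr).add (hfg.indicator hSm)) (hfg.indicator hSo), integral_add (hfg.indicator hSr) (hfg.indicator hSm),
        integral_indicator hSr, integral_indicator hSm, integral_indicator hSo]
    rw [← e]
    refine integral_mono hfg (by exact ((hfg.indicator hSr).add (hfg.indicator hSm)).add (hfg.indicator hSo)) fun x => ?_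
    have hn : 0 ≤ f x * g x := mul_nonneg (hf0 x) (hg0 x)
    have i1 : 0 ≤ Sr.indicator (fun x => f x * g x) x := Set.indicator_nonneg (fun x _ => mul_nonneg (hf0 x) (hg0 x)) x
    have i2 : 0 ≤ Sm.indicator (fun x => f x * g x) x := Set.indicator_nonneg (fun x _ => mul_nonneg (hf0 x) (hg0 x)) x
    have i3 : 0 ≤ So.indicator (fun x => f x * g x) x := Set.indicator_nonneg (fun x _ => mul_nonneg (hf0 x) (hg0 x)) x
    show f x * g x ≤ Sr.indicator (fun x => f x * g x) x + Sm.indicator (fun x => f x * g x) x + So.indicator (fun x => f x * g x) x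
    rcases hcov x with hx | hx | hx
    · rw [Set.indicator_of_mem hx] at i1 ⊢
      linarith
    · rw [Set.indicator_of_mem hx (fun x => f x * g x)] at i2 ⊢
      linarith
    · rw [Set.indicator_of_mem hx (fun x => f x * g x)] at i3 ⊢
      linarith
  -- step C
  have hsm : Real.sqrt m * Real.sqrt m = m := Real.mul_self_sqrt hm0
  have c1 : ∫ x in Sr, f x * g x ∂μ ≤ Real.sqrt m * Real.sqrt (∫ x in Sr, g x ^ 2 ∂μ) :=
    (fz_du1_cs (hfL.restrict _) (hgL.restrict _) hf0 hg0).trans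
      (mul_le_mul_of_nonneg_right (Real.sqrt_le_sqrt ((hsub Sr f hf2).trans hfT)) (Real.sqrt_nonneg _))
  have c3 : ∫ x in So, f x * g x ∂μ ≤ Real.sqrt m * Real.sqrt (∫ x in So, g x ^ 2 ∂μ) :=
    (fz_du1_cs (hfL.restrict _) (hgL.restrict _) hf0 hg0).trans
      (mul_le_mul_of_nonneg_right (Real.sqrt_le_sqrt ((hsub So f hf2).trans hfT)) (Real.sqrt_nonneg _))
  have c2 : ∫ x in Sm, f x * g x ∂μ ≤ Real.sqrt m * (τ * ‖u‖) := by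
    refine (fz_du1_cs (hfL.restrict _) (hgL.restrict _) hf0 hg0).trans ?_
    have e1 : Real.sqrt (∫ x in Sm, f x ^ 2 ∂μ) ≤ τ * Real.sqrt m := by
      have := hoff F hFv
      rw [hFn] at this
      calc Real.sqrt (∫ x in Sm, f x ^ 2 ∂μ) ≤ Real.sqrt (τ ^ 2 * m) := Real.sqrt_le_sqrt this
        _ = τ * Real.sqrt m := by rw [Real.sqrt_mul (by positivity), Real.sqrt_sq hτ]
    have e2 : Real.sqrt (∫ x in Sm, g x ^ 2 ∂μ) ≤ ‖u‖ := by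
      calc Real.sqrt (∫ x in Sm, g x ^ 2 ∂μ) ≤ Real.sqrt (‖u‖ ^ 2) := Real.sqrt_le_sqrt ((hsub Sm g hg2).trans hgT.le)
        _ = ‖u‖ := Real.sqrt_sq (norm_nonneg _)
    calc _ ≤ τ * Real.sqrt m * ‖u‖ := mul_le_mul e1 e2 (Real.sqrt_nonneg _) (by positivity)
      _ = _ := by ring
  have hfin : Real.sqrt m * Real.sqrt m ≤ Real.sqrt m * (Real.sqrt (∫ x in Sr, g x ^ 2 ∂μ) + τ * ‖u‖ + Real.sqrt (∫ x in So, g x ^ 2 ∂μ)) := by
    rw [hsm]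
    calc m ≤ _ := hA.trans hB
      _ ≤ Real.sqrt m * Real.sqrt (∫ x in Sr, g x ^ 2 ∂μ) + Real.sqrt m * (τ * ‖u‖) + Real.sqrt m * Real.sqrt (∫ x in So, g x ^ 2 ∂μ) := add_le_add (add_le_add c1 c2) c3
      _ = _ := by ring
  rcases (Real.sqrt_nonneg m).eq_or_lt with h0 | h0
  · rw [← h0]
    have := norm_nonneg u
    positivity
  · exact le_of_mul_le_mul_left hfin h0

theorem fz_du2_abs_le {f : RdWvPar.Ph → ℝ} (hf : Measurable f) (c : ℝ) : MeasurableSet {x : RdWvPar.Ph | |f x| ≤ c} :=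
  measurableSet_le (by fun_prop) measurable_const

/-- LEAF `L-256-FZ-DU-2`.   `fzFl`, `rtFl`: five measurable coordinates; `measurableSet_le`. -/
theorem fz_du_in_meas (fs R : ℝ) : MeasurableSet (fzIn fs R) := by
  have h1 : Measurable fun x : RdWvPar.Ph => x.1.1 := by fun_prop
  have h2 : Measurable fun x : RdWvPar.Ph => x.2.1.1 := by fun_prop
  have h3 : Measurable fun x : RdWvPar.Ph => x.2.2 := by fun_prop
  have h4 : Measurable fun x : RdWvPar.Ph => x.1.2 / fs := by fun_prop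
  have h5 : Measurable fun x : RdWvPar.Ph => x.2.1.2 / fs := by fun_prop
  exact (fz_du2_abs_le h1 R).inter ((fz_du2_abs_le h2 R).inter ((fz_du2_abs_le h3 R).inter ((fz_du2_abs_le h4 R).inter (fz_du2_abs_le h5 R))))

/-- LEAF `L-256-FZ-DU-2`.   measurability of a pulled back cylinder cell -/
theorem fz_du_cell_meas (fs l : ℝ) (Q : CyT) : MeasurableSet {x : RdWvPar.Ph | cyIn Q l (fzFl fs x)} := by
  have h1 : Measurable fun x : RdWvPar.Ph => x.1.1 - Q.x := by fun_prop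
  have h2 : Measurable fun x : RdWvPar.Ph => x.2.1.1 - Q.b := by fun_prop
  have h3 : Measurable fun x : RdWvPar.Ph => x.2.2 - Q.y - 2 * Q.x * (x.2.1.1 - Q.b) := by fun_prop
  have h4 : Measurable fun x : RdWvPar.Ph => x.1.2 / fs - Q.c - Q.al * x.1.1 - Q.be * x.1.1 ^ 2 - Q.K * (x.2.2 - 2 * x.1.1 * x.2.1.1) := by fun_prop
  have h5 : Measurable fun x : RdWvPar.Ph => x.2.1.2 / fs - Q.d - Q.al * x.2.1.1 - Q.be * x.2.2 + Q.K * x.2.1.1 ^ 2 := by fun_prop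
  exact (fz_du2_abs_le h1 _).inter ((fz_du2_abs_le h2 _).inter ((fz_du2_abs_le h3 _).inter ((fz_du2_abs_le h4 _).inter (fz_du2_abs_le h5 _))))

/-- LEAF `L-256-FZ-DU-2`.   `d.p.H_pos`, `h.fs_pos`, `Real.sqrt_pos`, `Real.rpow_pos_of_pos`. -/
theorem fz_du_P_ok (d : FzDat) {η : ℝ} {C A : ℕ} {Ds Dt g0 : ℝ} (h : d.Ok η C A Ds Dt g0) (S : ℝ) : (d.P S).Ok := by
  have hH := d.p.H_pos
  have hfs := h.fs_pos
  have hs : 0 < d.s := by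
    unfold FzDat.s
    positivity
  have hsS : 0 < d.s ^ S := Real.rpow_pos_of_pos hs S
  refine ⟨hH, hfs, ?_, ?_⟩
  · show 0 < Real.sqrt d.p.H * d.s ^ S
    exact mul_pos (Real.sqrt_pos.2 hH) hsS
  · show 0 < d.p.H / d.fs ^ 2 * d.s ^ S
    positivity

theorem fz_du3_in_mono (fs : ℝ) {R R' : ℝ} (h : R ≤ R') : fzIn fs R ⊆ fzIn fs R' := by
  intro x hx
  exact ⟨hx.1.trans h, hx.2.1.trans h, hx.2.2.1.trans h, hx.2.2.2.1.trans h, hx.2.2.2.2.trans h⟩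

/-- LEAF `L-256-FZ-DU-3`.   **THE ROOT COMPARISON.**   `Zf`, `n0` from `fz_off S S1 g1` (at `C`, `J`).   `P = d.P S = fzPn ..` (`fz_dat_P`), `hP = fz_du_P_ok`, `(P.rd hP) = d.p` (rfl), `a = fzA C j > 0`.
`fz_du_abs` with `μ = d.p.rw 0`, `ν = (fzHy P a).rw`, `u = d.p.an 0 0 d.b0 d.G`, `w = (fzHy P a).an 0 0 (fzCut (fzBand a) (fzW P d.G))`, `C0 = fzC0 P hP a 0 0 d.b0` (`fz_c0_contr`, `fz_id2` with `h.spec`),
`Sm = fzIn .. \ Sr`, `So = (fzIn ..)ᶜ`, `τ = δ^(J/2)` (`τ² = δ^J`).   `hoff` = `fz_off` at `T = 0`, `k = 0`, `β = d.b0` (`(2⁻¹)^0 = 1`, `2^0 = 1`; `Sm ⊆ fzIn fs δ^(-S/4)` because `g0/2 ≤ S/4`).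
`gn_ms_eq` turns the three integrals into `ms`, `ms0`;   `‖u‖ ≤ ‖G‖ ≤ √e` (`rt_w1_contr`, `h.budget`);   `√(ms0 So) ≤ δ^(A/2) √e` (`h.root`). -/
theorem fz_du_main (S S1 g1 : ℝ) (hS : 0 < S) (hS1 : 0 < S1) (hg1 : 0 < g1) :
    ∃ Zf : ℝ, ∀ C J : ℕ, ∃ n0 : ℕ, ∀ (d : FzDat) (η : ℝ) (A : ℕ) (Ds Dt g0 : ℝ) (j : Fin (2 * C + 20)), n0 ≤ d.n → d.Ok η C A Ds Dt g0 → g0 / 2 ≤ S / 4 → d.fs ≤ d.s ^ Zf →
      ∀ (Sr : Set RdWvPar.Ph) (Sc : Set (FzOm × ℝ × ℝ)), MeasurableSet Sr → MeasurableSet Sc →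
        (∀ z ∈ fzIn d.fs (d.s ^ (-(g0 / 2))), z ∉ Sr → ∀ z' ∈ Sc, ¬ cyNear 1 (d.s ^ S1) (max (d.s ^ S1) (d.s ^ (-g1) * Real.sqrt (d.p.H / d.fs ^ 2)))
          (fzFl d.fs z) ((fzHy (d.P S) (fzA C j)).co 0 z')) →
        Real.sqrt (((fzHy (d.P S) (fzA C j)).sys η).ms 0 0 0 Sc (fzCut (fzBand (fzA C j)) (fzW (d.P S) d.G)))
          ≤ Real.sqrt (d.ms0 Sr) + (d.s ^ ((J : ℝ) / 2) + d.s ^ ((A : ℝ) / 2)) * Real.sqrt d.e := by
  obtain ⟨Zf, hZ⟩ := fz_off S S1 hS hS1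
  refine ⟨Zf, fun C J => ?_⟩
  obtain ⟨n0, hn⟩ := hZ g1 hg1 C J
  refine ⟨n0, fun d η A Ds Dt g0 j hn0 h hg hfs Sr Sc hSr hSc hnear => ?_⟩
  have hP : (d.P S).Ok := fz_du_P_ok d h S
  have ha : 0 < fzA C j := by
    unfold fzA
    positivity
  have hs : 0 < d.s := by
    unfold FzDat.s
    positivity
  have hs1 : d.s ≤ 1 := by
    unfold FzDat.s
    exact pow_le_one₀ (by norm_num) (by norm_num)
  have hin := fz_du_in_meas d.fs (d.s ^ (-(g0 / 2)))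
  have hτ : 0 ≤ d.s ^ ((J : ℝ) / 2) := Real.rpow_nonneg hs.le _
  have hτ2 : (d.s ^ ((J : ℝ) / 2)) ^ 2 = d.s ^ (J : ℝ) := by
    rw [← Real.rpow_natCast, ← Real.rpow_mul hs.le]
    congr 1
    push_cast
    ring
  have hA2 : (d.s ^ ((A : ℝ) / 2)) ^ 2 = d.s ^ (A : ℝ) := by
    rw [← Real.rpow_natCast, ← Real.rpow_mul hs.le]
    congr 1
    push_cast
    ring
  have hsub : fzIn d.fs (d.s ^ (-(g0 / 2))) \ Sr ⊆ fzIn d.fs (d.s ^ (-(S / 4))) := by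
    intro x hx
    exact fz_du3_in_mono d.fs (Real.rpow_le_rpow_of_exponent_ge hs hs1 (by linarith)) hx.1
  have hoff : ∀ F : Lp ℂ 2 (fzHy (d.P S) (fzA C j)).rw, (∀ᵐ y ∂(fzHy (d.P S) (fzA C j)).rw, y ∉ Sc → (F : FzOm × ℝ × ℝ → ℂ) y = 0) →
      ∫ x in fzIn d.fs (d.s ^ (-(g0 / 2))) \ Sr, ‖(fzC0 (d.P S) hP (fzA C j) 0 0 d.b0 F : RdWvPar.Ph → ℂ) x‖ ^ 2 ∂(d.p.rw 0)
        ≤ (d.s ^ ((J : ℝ) / 2)) ^ 2 * ‖F‖ ^ 2 := by
    intro F hF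
    rw [hτ2]
    refine hn d.p.H d.fs d.n hP j 0 0 d.b0 hn0 (Nat.zero_le _) h.gen.1 le_rfl zero_le_one h.H_lo h.H_hi hfs
      (fzIn d.fs (d.s ^ (-(g0 / 2))) \ Sr) Sc (hin.diff hSr) hSc hsub ?_ F hF
    intro z hz z' hz'
    have := hnear z hz.1 hz.2 z' hz'
    rw [pow_zero, pow_zero, mul_one]
    exact this
  have main := fz_du_abs (μ := d.p.rw 0) (ν := (fzHy (d.P S) (fzA C j)).rw) (d.p.an 0 0 d.b0 d.G)
    ((fzHy (d.P S) (fzA C j)).an 0 0 (fzCut (fzBand (fzA C j)) (fzW (d.P S) d.G))) (fzC0 (d.P S) hP (fzA C j) 0 0 d.b0)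
    (fz_c0_contr (d.P S) hP (fzA C j) ha 0 0 d.b0) (fun F => fz_id2 (d.P S) hP (fzA C j) ha 0 0 d.b0 d.G h.spec F)
    Sc hSc Sr (fzIn d.fs (d.s ^ (-(g0 / 2))) \ Sr) (fzIn d.fs (d.s ^ (-(g0 / 2))))ᶜ hSr (hin.diff hSr) hin.compl
    (fun x => by
      by_cases h1 : x ∈ Sr
      · exact Or.inl h1
      · by_cases h2 : x ∈ fzIn d.fs (d.s ^ (-(g0 / 2)))
        · exact Or.inr (Or.inl ⟨h2, h1⟩)
        · exact Or.inr (Or.inr h2)) (d.s ^ ((J : ℝ) / 2)) hτ hoff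
  have e1 := gn_ms_eq (P := (fzHy (d.P S) (fzA C j)).sys η) 0 0 0 (S := Sc) hSc (fzCut (fzBand (fzA C j)) (fzW (d.P S) d.G))
  have e2 : d.ms0 Sr = _ := gn_ms_eq (P := d.p.sys 0) 0 0 d.b0 (S := Sr) hSr d.G
  have e3 : d.ms0 (fzIn d.fs (d.s ^ (-(g0 / 2))))ᶜ = _ := gn_ms_eq (P := d.p.sys 0) 0 0 d.b0 (S := (fzIn d.fs (d.s ^ (-(g0 / 2))))ᶜ) hin.compl d.G
  have main' : Real.sqrt (((fzHy (d.P S) (fzA C j)).sys η).ms 0 0 0 Sc (fzCut (fzBand (fzA C j)) (fzW (d.P S) d.G)))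
      ≤ Real.sqrt (d.ms0 Sr) + d.s ^ ((J : ℝ) / 2) * ‖d.p.an 0 0 d.b0 d.G‖ + Real.sqrt (d.ms0 (fzIn d.fs (d.s ^ (-(g0 / 2))))ᶜ) := by
    rw [e1, e2, e3]
    exact main
  have hu : ‖d.p.an 0 0 d.b0 d.G‖ ≤ Real.sqrt d.e :=
    (rt_w1_contr d.p 0 0 d.b0 d.G).trans (Real.le_sqrt_of_sq_le h.budget)
  have ho : Real.sqrt (d.ms0 (fzIn d.fs (d.s ^ (-(g0 / 2))))ᶜ) ≤ d.s ^ ((A : ℝ) / 2) * Real.sqrt d.e := by
    refine (Real.sqrt_le_sqrt h.root).trans (le_of_eq ?_)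
    rw [← hA2, Real.sqrt_mul (by positivity), Real.sqrt_sq (Real.rpow_nonneg hs.le _)]
  have := mul_le_mul_of_nonneg_left hu hτ
  linarith

theorem fz_du4_box_meas (R : ℝ) : MeasurableSet (fzBox R) := by
  have h1 : MeasurableSet {ω : FzOm | |ω.1| ≤ R} := measurableSet_le (by fun_prop) measurable_const
  have h2 : MeasurableSet {ω : FzOm | |ω.2.2.1| ≤ R} := measurableSet_le (by fun_prop) measurable_const
  have h3 : MeasurableSet {ω : FzOm | |ω.2.2.2| ≤ R} := measurableSet_le (by fun_prop) measurable_const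
  exact h1.inter (h2.inter h3)

theorem fz_du4_band_meas (a : ℝ) : MeasurableSet (fzBand a) := by
  have h1 : MeasurableSet {ω : FzOm | a ≤ ω.2.1} := measurableSet_le measurable_const (by fun_prop)
  have h2 : MeasurableSet {ω : FzOm | ω.2.1 < 2 * a} := measurableSet_lt (by fun_prop) measurable_const
  exact h1.inter h2

theorem fz_du4_aux {Z : Type} [MeasurableSpace Z] (ν : Measure Z) (f1 f2 f : Z → ℂ) (U1 U2 B Sc : Set Z) (hB : MeasurableSet B)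
    (h1 : f1 =ᵐ[ν] U1.indicator f) (h2 : f2 =ᵐ[ν] U2.indicator f) (hU : U1 = U2 ∩ B) :
    ∫ x in Sc, ‖f1 x‖ ^ 2 ∂ν = ∫ x in Sc ∩ B, ‖f2 x‖ ^ 2 ∂ν := by
  rw [← setIntegral_indicator hB]
  refine integral_congr_ae (ae_restrict_of_ae ?_)
  filter_upwards [h1, h2] with x e1 e2
  rw [e1, hU]
  by_cases hx : x ∈ B
  · rw [Set.indicator_of_mem hx, e2]
    by_cases hy : x ∈ U2
    · rw [Set.indicator_of_mem (show x ∈ U2 ∩ B from ⟨hy, hx⟩), Set.indicator_of_mem hy]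
    · rw [Set.indicator_of_notMem (show x ∉ U2 ∩ B from fun h => hy h.1), Set.indicator_of_notMem hy]
  · rw [Set.indicator_of_notMem hx, Set.indicator_of_notMem (show x ∉ U2 ∩ B from fun h => hx h.2)]
    simp

/-- LEAF `L-256-FZ-DU-4`.   `fz_cut_an` for `band ∩ box` and for `band`: both analyses are indicators of `I (W G)`; `gn_ms_eq`, `setIntegral_congr_ae`, `integral_indicator`.   (`hy_fl_cell_meas`-style measurability of `{x | x.1 ∈ fzBox R}`.) -/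
theorem fz_du_st (η : ℝ) (P : FzP) (hP : P.Ok) (a : ℝ) (ha : 0 < a) (R : ℝ) (G : Lp ℂ 2 (volume : Measure RdWvPar.Mo)) (T : ℝ) (k b : ℕ) (Sc : Set (FzOm × ℝ × ℝ))
    (hSc : MeasurableSet Sc) :
    ((fzHy P a).sys η).ms T k b Sc (fzSt P a R G) = ((fzHy P a).sys η).ms T k b (Sc ∩ {x | x.1 ∈ fzBox R}) (fzCut (fzBand a) (fzW P G)) := by
  have hbox := fz_du4_box_meas R
  have hband := fz_du4_band_meas a
  have hB : MeasurableSet {x : FzOm × ℝ × ℝ | x.1 ∈ fzBox R} := measurable_fst hbox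
  have e1 := gn_ms_eq (P := (fzHy P a).sys η) T k b (S := Sc) hSc (fzSt P a R G)
  have e2 := gn_ms_eq (P := (fzHy P a).sys η) T k b (S := Sc ∩ {x | x.1 ∈ fzBox R}) (hSc.inter hB) (fzCut (fzBand a) (fzW P G))
  rw [e1, e2]
  have a1 := fz_cut_an P hP a ha T k (fzBand a ∩ fzBox R) (hband.inter hbox) (fzW P G)
  have a2 := fz_cut_an P hP a ha T k (fzBand a) hband (fzW P G)
  refine fz_du4_aux (Z := FzOm × ℝ × ℝ) (fzHy P a).rw _ _ _ _ _ _ Sc hB a1 a2 ?_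
  ext x
  constructor
  · intro h
    exact ⟨⟨h.1.1, trivial⟩, h.1.2⟩
  · intro h
    exact ⟨⟨h.1.1, h.2⟩, trivial⟩

theorem fz_du5_s_rpow (d : FzDat) (y : ℝ) : d.s ^ y = 2 ^ (-(y * d.n)) := by
  unfold FzDat.s
  rw [← Real.rpow_natCast, ← Real.rpow_mul (by norm_num), Real.inv_rpow (by norm_num), ← Real.rpow_neg (by norm_num)]
  congr 1
  ring

theorem fz_du5_s_pos (d : FzDat) : 0 < d.s := by
  unfold FzDat.s
  positivity

theorem fz_du5_s_half (d : FzDat) (hn : 1 ≤ d.n) : d.s ≤ 1 / 2 := by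
  unfold FzDat.s
  calc (2 : ℝ)⁻¹ ^ d.n ≤ (2 : ℝ)⁻¹ ^ 1 := pow_le_pow_of_le_one (by norm_num) (by norm_num) hn
    _ = 1 / 2 := by norm_num

/-- the numerology shared by `fz_du_tail`, `fz_du_box` -/
theorem fz_du5_num (g0 : ℝ) (hg0 : 0 < g0) : ∃ n1 : ℕ, 1 ≤ n1 ∧ ∀ d : FzDat, n1 ≤ d.n → d.s ^ (-(g0 / 2)) + 1 ≤ d.s ^ (-g0) / 4 := by
  obtain ⟨n1, hn1⟩ := exists_nat_ge (6 / g0)
  refine ⟨max n1 1, le_max_right _ _, fun d hd => ?_⟩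
  have hs := fz_du5_s_pos d
  have hdn : 6 / g0 ≤ (d.n : ℝ) := hn1.trans (by exact_mod_cast (le_max_left _ _).trans hd)
  rw [div_le_iff₀ hg0] at hdn
  have e1 : d.s ^ (-g0) = d.s ^ (-(g0 / 2)) * d.s ^ (-(g0 / 2)) := by
    rw [← Real.rpow_add hs]
    congr 1
    ring
  have h8 : (8 : ℝ) ≤ d.s ^ (-(g0 / 2)) := by
    rw [fz_du5_s_rpow]
    calc (8 : ℝ) = 2 ^ (3 : ℝ) := by norm_num
      _ ≤ 2 ^ (-(-(g0 / 2) * d.n)) := Real.rpow_le_rpow_of_exponent_le (by norm_num) (by linarith)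
  rw [e1]
  nlinarith

/-- the normal error is at most one -/
theorem fz_du5_en (d : FzDat) (hn : 1 ≤ d.n) (hH : d.p.H / d.fs ^ 2 ≤ d.s) :
    d.s ^ (1 : ℝ) ≤ 1 ∧ max (d.s ^ (1 : ℝ)) (d.s ^ (-(1 / 4 : ℝ)) * Real.sqrt (d.p.H / d.fs ^ 2)) ≤ 1 := by
  have hs := fz_du5_s_pos d
  have hs1 : d.s ≤ 1 := (fz_du5_s_half d hn).trans (by norm_num)
  have h1 : d.s ^ (1 : ℝ) ≤ 1 := by rw [Real.rpow_one]; exact hs1
  refine ⟨h1, max_le h1 ?_⟩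
  have h2 : Real.sqrt (d.p.H / d.fs ^ 2) ≤ d.s ^ (1 / 2 : ℝ) := by
    rw [← Real.sqrt_eq_rpow]
    exact Real.sqrt_le_sqrt hH
  calc d.s ^ (-(1 / 4 : ℝ)) * Real.sqrt (d.p.H / d.fs ^ 2) ≤ d.s ^ (-(1 / 4 : ℝ)) * d.s ^ (1 / 2 : ℝ) :=
        mul_le_mul_of_nonneg_left h2 (Real.rpow_nonneg hs.le _)
    _ = d.s ^ (1 / 4 : ℝ) := by
        rw [← Real.rpow_add hs]
        norm_num
    _ ≤ 1 := Real.rpow_le_one hs.le hs1 (by norm_num)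

/-- from the root comparison with `Sr = ∅` to the bound `δ^J e` -/
theorem fz_du5_fin (d : FzDat) (hn : 1 ≤ d.n) (J : ℕ) (x : ℝ) (hx : 0 ≤ x) (he : 0 ≤ d.e)
    (h : Real.sqrt x ≤ Real.sqrt 0 + (d.s ^ (((2 * J + 2 : ℕ) : ℝ) / 2) + d.s ^ (((2 * J + 2 : ℕ) : ℝ) / 2)) * Real.sqrt d.e) : x ≤ d.s ^ (J : ℝ) * d.e := by
  have hs := fz_du5_s_pos d
  have hs2 := fz_du5_s_half d hn
  have e1 : ((2 * J + 2 : ℕ) : ℝ) / 2 = (J : ℝ) + 1 := by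
    push_cast
    ring
  rw [e1, Real.sqrt_zero, zero_add, Real.rpow_add hs, Real.rpow_one] at h
  set t : ℝ := d.s ^ (J : ℝ) with ht
  have ht0 : 0 < t := Real.rpow_pos_of_pos hs _
  have ht1 : t ≤ 1 := Real.rpow_le_one hs.le (hs2.trans (by norm_num)) (Nat.cast_nonneg _)
  have a1 : Real.sqrt x ^ 2 = x := Real.sq_sqrt hx
  have a3 : Real.sqrt d.e ^ 2 = d.e := Real.sq_sqrt he
  have a4 : Real.sqrt x ^ 2 ≤ ((t * d.s + t * d.s) * Real.sqrt d.e) ^ 2 := pow_le_pow_left₀ (Real.sqrt_nonneg _) h 2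
  rw [a1, mul_pow, a3] at a4
  refine a4.trans (mul_le_mul_of_nonneg_right ?_ he)
  have h4 : 4 * d.s ^ 2 ≤ 1 := by nlinarith
  calc (t * d.s + t * d.s) ^ 2 = t * (t * (4 * d.s ^ 2)) := by ring
    _ ≤ t * (1 * 1) := mul_le_mul_of_nonneg_left (mul_le_mul ht1 h4 (by positivity) (by norm_num)) ht0.le
    _ = t := by ring

theorem fz_du5_box_meas (R : ℝ) : MeasurableSet (fzBox R) := by
  unfold fzBox
  have key : ∀ (f : FzOm → ℝ), Measurable f → MeasurableSet {x | |f x| ≤ R} := fun f hf =>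
    measurableSet_le (by fun_prop) measurable_const
  exact (key _ measurable_fst).inter ((key _ (measurable_fst.comp (measurable_snd.comp measurable_snd))).inter
    (key _ (measurable_snd.comp (measurable_snd.comp measurable_snd))))

theorem fz_du5_A_pos (C : ℕ) (j : Fin (2 * C + 20)) : 0 < fzA C j := by
  unfold fzA
  positivity

/-- LEAF `L-256-FZ-DU-5`.   **IN-B.**   `fz_du_main S 1 (1/4)` at `(C, 2J + 2)`, `A = 2J + 2`, `Sr = ∅` (`gn_ms_empty`), `Sc = {1 < cyNorSz ..} ∩ {x.1 ∈ box}` (`fz_du_st`; measurable: `hy_tg_nor_meas`).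
Not near: `fz_g_box_near` gives `|N'|, |D'| ≤ δ^(-g0/2) + en`, `en ≤ 1` (`Hf ≤ δ`: `δ^(-1/4) √Hf ≤ δ^(1/4)`), and `δ^(-g0/2) + 1 ≤ δ^-g0 / 4 = r0` for `n ≥ n0(g0)`; `fz_g_nor` with `c = 1`.
`(2 δ^(J+1) √e)² = 4 δ^(2J+2) e ≤ δ^J e`. -/
theorem fz_du_tail (S : ℝ) (hS : 2 ≤ S) : ∃ Zf : ℝ, ∀ g0 : ℝ, 0 < g0 → g0 ≤ 1 → ∀ C J : ℕ, ∃ A n0 : ℕ, ∀ (d : FzDat) (η Ds Dt : ℝ) (j : Fin (2 * C + 20)),
    n0 ≤ d.n → d.Ok η C A Ds Dt g0 → d.fs ≤ d.s ^ Zf →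
    ((fzHy (d.P S) (fzA C j)).sys η).ms 0 0 0 {x | 1 < cyNorSz (fzFr (d.s ^ (-g0) / 4)) 1 ((fzHy (d.P S) (fzA C j)).co 0 x)} (fzSt (d.P S) (fzA C j) (d.s ^ (-g0) / 4) d.G)
      ≤ d.s ^ (J : ℝ) * d.e := by
  obtain ⟨Zf, H⟩ := fz_du_main S 1 (1 / 4) (by linarith) one_pos (by norm_num)
  refine ⟨Zf, fun g0 hg0 hg1 C J => ?_⟩
  obtain ⟨n1, H⟩ := H C (2 * J + 2)
  obtain ⟨n2, hn2, hnum⟩ := fz_du5_num g0 hg0
  refine ⟨2 * J + 2, max n1 n2, fun d η Ds Dt j hn h hfs => ?_⟩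
  have hn1 : n1 ≤ d.n := (le_max_left _ _).trans hn
  have hn2' : n2 ≤ d.n := (le_max_right _ _).trans hn
  have hn3 : 1 ≤ d.n := hn2.trans hn2'
  have hs := fz_du5_s_pos d
  have hP := fz_du_P_ok d h S
  have ha := fz_du5_A_pos C j
  have hy := fz_hy_ok (d.P S) hP (fzA C j) ha
  have hr := hnum d hn2'
  have hR0 : 0 < d.s ^ (-(g0 / 2)) := Real.rpow_pos_of_pos hs _
  have hr0 : 0 < d.s ^ (-g0) / 4 := by linarith
  obtain ⟨-, hen⟩ := fz_du5_en d hn3 h.H_hi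
  have hm1 := hy_tg_nor_meas (fzHy (d.P S) (fzA C j)) hy (fzFr (d.s ^ (-g0) / 4)) 1 0 1
  have hm2 : MeasurableSet {x : FzOm × ℝ × ℝ | x.1 ∈ fzBox (d.s ^ (-g0) / 4)} := measurable_fst (fz_du5_box_meas _)
  refine le_trans (le_of_eq (fz_du_st η (d.P S) hP (fzA C j) ha _ d.G 0 0 0 _ hm1)) ?_
  refine fz_du5_fin d hn3 J _ (gn_ms_nonneg _ _ _ _ _) h.e_pos.le ?_
  have key := H d η (2 * J + 2) Ds Dt g0 j hn1 h (by linarith) hfs ∅ _ MeasurableSet.empty (hm1.inter hm2) ?_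
  · have e0 : d.ms0 ∅ = 0 := gn_ms_empty _ _ _ _
    rw [e0] at key
    exact key
  · intro z hz _ z' hz' hnear
    obtain ⟨-, hN, hD⟩ := fz_g_box_near hz hnear
    have h1 : cyNorSz (fzFr (d.s ^ (-g0) / 4)) 1 ((fzHy (d.P S) (fzA C j)).co 0 z') ≤ 1 := by
      rw [fz_g_nor hr0 one_pos]
      constructor
      · rw [one_mul]
        linarith
      · rw [one_mul, one_mul]
        linarith
    exact absurd hz'.1 (not_lt.2 h1)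

theorem fz_du6_band_meas (a : ℝ) : MeasurableSet (fzBand a) := by
  unfold fzBand
  have m : Measurable fun ω : FzOm => ω.2.1 := measurable_fst.comp measurable_snd
  exact (measurableSet_le measurable_const m).inter (measurableSet_lt m measurable_const)

/-- the energy of a cut state over a set of exact indices is a mass of the hybrid system -/
theorem fz_du6_norm (η : ℝ) (P : FzP) (hP : P.Ok) (a : ℝ) (ha : 0 < a) (U : Set FzOm) (hU : MeasurableSet U)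
    (V0 : Lp ℂ 2 ((volume : Measure FzOm).prod (volume : Measure ℝ))) :
    ‖fzCut (fzBand a ∩ U) V0‖ ^ 2 = ((fzHy P a).sys η).ms 0 0 0 {x : FzOm × ℝ × ℝ | x.1 ∈ U} (fzCut (fzBand a) V0) := by
  have hy := fz_hy_ok P hP a ha
  have hb := fz_du6_band_meas a
  have h1 := hy_fl_ms_base (fzHy P a) hy η 0 0 0 U hU (fzCut (fzBand a) V0)
  have h2 := hy_fl_norm_sq ((volume : Measure FzOm).prod (volume : Measure ℝ)) (fzCut (fzBand a ∩ U) V0)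
  have h3' : hyE (fzHy P a) U (fzCut (fzBand a) V0)
      = ∫⁻ y in {y : FzOm × ℝ | y.1 ∈ U}, ‖(fzCut (fzBand a) V0 : FzOm × ℝ → ℂ) y‖ₑ ^ 2 ∂((volume : Measure FzOm).prod (volume : Measure ℝ)) := rfl
  have h3 : ∫⁻ y, ‖(fzCut (fzBand a ∩ U) V0 : FzOm × ℝ → ℂ) y‖ₑ ^ 2 ∂((volume : Measure FzOm).prod (volume : Measure ℝ))
      = hyE (fzHy P a) U (fzCut (fzBand a) V0) := by
    rw [h3']
    have hA : MeasurableSet {y : FzOm × ℝ | y.1 ∈ U} := measurable_fst hU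
    rw [← lintegral_indicator hA]
    refine lintegral_congr_ae ?_
    filter_upwards [fz_cut_ae _ (hb.inter hU) V0, fz_cut_ae _ hb V0] with y a1 a2
    rw [a1]
    by_cases hyU : y.1 ∈ U
    · rw [Set.indicator_of_mem (show y ∈ {y : FzOm × ℝ | y.1 ∈ U} from hyU), a2]
      by_cases hyb : y.1 ∈ fzBand a
      · rw [Set.indicator_of_mem (show y ∈ (fzBand a ∩ U) ×ˢ (Set.univ : Set ℝ) from ⟨⟨hyb, hyU⟩, trivial⟩),
          Set.indicator_of_mem (show y ∈ (fzBand a) ×ˢ (Set.univ : Set ℝ) from ⟨hyb, trivial⟩)]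
      · rw [Set.indicator_of_notMem (show y ∉ (fzBand a ∩ U) ×ˢ (Set.univ : Set ℝ) from fun h => hyb h.1.1),
          Set.indicator_of_notMem (show y ∉ (fzBand a) ×ˢ (Set.univ : Set ℝ) from fun h => hyb h.1)]
    · rw [Set.indicator_of_notMem (show y ∉ {y : FzOm × ℝ | y.1 ∈ U} from hyU),
        Set.indicator_of_notMem (show y ∉ (fzBand a ∩ U) ×ˢ (Set.univ : Set ℝ) from fun h => hyU h.1.2)]
      simp
  have h4 : ENNReal.ofReal (‖fzCut (fzBand a ∩ U) V0‖ ^ 2)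
      = ENNReal.ofReal (((fzHy P a).sys η).ms 0 0 0 {x : FzOm × ℝ × ℝ | x.1 ∈ U} (fzCut (fzBand a) V0)) := by
    rw [h2, h3]
    exact h1.symm
  exact (ENNReal.ofReal_eq_ofReal_iff (by positivity) (gn_ms_nonneg _ _ _ _ _)).1 h4

/-- LEAF `L-256-FZ-DU-6`.   **OUT: the energy outside the base box.**   As `fz_du_tail` with `Sc = {x | x.1 ∉ fzBox r0}`: `fz_g_box_near` (`T = 0`, `fz_g_boxT_zero`): near rows lie over `fzBox (δ^(-g0/2) + eb)`, `eb ≤ 1`.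
`ms {x.1 ∈ U} V = ‖1_U V‖²`: `hy_fl_ms_base`, `hyE`, `fz_cut_ae`, `hy_fl_norm_sq`;   `fzCut (band ∩ boxᶜ) = 1_{boxᶜ} 1_band`. -/
theorem fz_du_box (S : ℝ) (hS : 2 ≤ S) : ∃ Zf : ℝ, ∀ g0 : ℝ, 0 < g0 → g0 ≤ 1 → ∀ C J : ℕ, ∃ A n0 : ℕ, ∀ (d : FzDat) (η Ds Dt : ℝ) (j : Fin (2 * C + 20)),
    n0 ≤ d.n → d.Ok η C A Ds Dt g0 → d.fs ≤ d.s ^ Zf →
    ‖fzCut (fzBand (fzA C j) ∩ (fzBox (d.s ^ (-g0) / 4))ᶜ) (fzW (d.P S) d.G)‖ ^ 2 ≤ d.s ^ (J : ℝ) * d.e := by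
  obtain ⟨Zf, H⟩ := fz_du_main S 1 (1 / 4) (by linarith) one_pos (by norm_num)
  refine ⟨Zf, fun g0 hg0 hg1 C J => ?_⟩
  obtain ⟨n1, H⟩ := H C (2 * J + 2)
  obtain ⟨n2, hn2, hnum⟩ := fz_du5_num g0 hg0
  refine ⟨2 * J + 2, max n1 n2, fun d η Ds Dt j hn h hfs => ?_⟩
  have hn1 : n1 ≤ d.n := (le_max_left _ _).trans hn
  have hn2' : n2 ≤ d.n := (le_max_right _ _).trans hn
  have hn3 : 1 ≤ d.n := hn2.trans hn2'
  have hP := fz_du_P_ok d h S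
  have ha := fz_du5_A_pos C j
  have hr := hnum d hn2'
  obtain ⟨heb, -⟩ := fz_du5_en d hn3 h.H_hi
  have hU : MeasurableSet (fzBox (d.s ^ (-g0) / 4))ᶜ := (fz_du5_box_meas _).compl
  have hm : MeasurableSet {x : FzOm × ℝ × ℝ | x.1 ∈ (fzBox (d.s ^ (-g0) / 4))ᶜ} := measurable_fst hU
  rw [fz_du6_norm η (d.P S) hP (fzA C j) ha _ hU]
  refine fz_du5_fin d hn3 J _ (gn_ms_nonneg _ _ _ _ _) h.e_pos.le ?_
  have key := H d η (2 * J + 2) Ds Dt g0 j hn1 h (by linarith) hfs ∅ _ MeasurableSet.empty hm ?_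
  · have e0 : d.ms0 ∅ = 0 := gn_ms_empty _ _ _ _
    rw [e0] at key
    exact key
  · intro z hz _ z' hz' hnear
    obtain ⟨hb, -, -⟩ := fz_g_box_near hz hnear
    rw [fz_g_boxT_zero] at hb
    apply hz'
    obtain ⟨b1, b2, b3⟩ := hb
    exact ⟨by linarith, by linarith, by linarith⟩

/-- the geometric core of IN-A: `r0`, `en`, `err` are free -/
theorem fz_du7_core (d : FzDat) (η : ℝ) (C A : ℕ) (Ds D g0 S r0 en err : ℝ) (j : Fin (2 * C + 20)) (Q : CyT)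
    (hs : 0 < d.s) (hs2 : d.s ≤ 1 / 2) (hD : 0 < D) (h : d.Ok η C A Ds (D + 3) g0) (hr0 : 1 ≤ r0) (hr1 : r0 ≤ d.s⁻¹ / 4)
    (h4 : 4 * r0 = d.s ^ (-g0)) (hreg : d.s ^ (-(g0 / 2)) ≤ r0) (hen0 : 0 ≤ en) (hen1 : en ≤ 1) (hunc : rdD d.p.H 0 ≤ d.fs * en)
    (hQ : CyTr 0 0 (fzFr r0) (d.s ^ D) Q)
    (main : ∀ (Sr : Set RdWvPar.Ph) (Sc : Set (FzOm × ℝ × ℝ)), MeasurableSet Sr → MeasurableSet Sc →
        (∀ z ∈ fzIn d.fs (d.s ^ (-(g0 / 2))), z ∉ Sr → ∀ z' ∈ Sc, ¬ cyNear 1 (d.s ^ (2 * D + 9)) en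
          (fzFl d.fs z) ((fzHy (d.P S) (fzA C j)).co 0 z')) →
        Real.sqrt (((fzHy (d.P S) (fzA C j)).sys η).ms 0 0 0 Sc (fzCut (fzBand (fzA C j)) (fzW (d.P S) d.G))) ≤ Real.sqrt (d.ms0 Sr) + err) :
    Real.sqrt (((fzHy (d.P S) (fzA C j)).sys η).ms 0 0 0 (((fzHy (d.P S) (fzA C j)).sys η).cell Q 0 0) (fzSt (d.P S) (fzA C j) r0 d.G))
      ≤ Real.sqrt (d.bq * cyWt η (fzUp Q (2 * Q.f + en))) + err := by
  have hP := fz_du_P_ok d h S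
  have ha : 0 < fzA C j := by unfold fzA; positivity
  have hy := fz_hy_ok (d.P S) hP (fzA C j) ha
  have hr0p : 0 < r0 := by linarith
  have hcellm : MeasurableSet {x : FzOm × ℝ × ℝ | cyIn Q ((2 : ℝ)⁻¹ ^ 0) ((fzHy (d.P S) (fzA C j)).co 0 x)} :=
    hy_fl_cell_meas (fzHy (d.P S) (fzA C j)) hy Q _ 0
  have hboxm : MeasurableSet {x : FzOm × ℝ × ℝ | x.1 ∈ fzBox r0} := by
    have key : ∀ (f : FzOm × ℝ × ℝ → ℝ) (c : ℝ), Measurable f → MeasurableSet {x | |f x| ≤ c} := fun f c hf =>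
      measurableSet_le (by fun_prop) measurable_const
    have e : {x : FzOm × ℝ × ℝ | x.1 ∈ fzBox r0} = {x | |x.1.1| ≤ r0} ∩ ({x | |x.1.2.2.1| ≤ r0} ∩ {x | |x.1.2.2.2| ≤ r0}) := by
      ext x
      simp only [fzBox, Set.mem_ofPred_eq, Set.mem_inter_iff]
    rw [e]
    exact (key _ _ (by fun_prop)).inter ((key _ _ (by fun_prop)).inter (key _ _ (by fun_prop)))
  have hst := fz_du_st η (d.P S) hP (fzA C j) ha r0 d.G 0 0 0 {x : FzOm × ℝ × ℝ | cyIn Q ((2 : ℝ)⁻¹ ^ 0) ((fzHy (d.P S) (fzA C j)).co 0 x)} hcellm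
  have hst' : ((fzHy (d.P S) (fzA C j)).sys η).ms 0 0 0 (((fzHy (d.P S) (fzA C j)).sys η).cell Q 0 0) (fzSt (d.P S) (fzA C j) r0 d.G)
      = ((fzHy (d.P S) (fzA C j)).sys η).ms 0 0 0
        ({x : FzOm × ℝ × ℝ | cyIn Q ((2 : ℝ)⁻¹ ^ 0) ((fzHy (d.P S) (fzA C j)).co 0 x)} ∩ {x | x.1 ∈ fzBox r0}) (fzCut (fzBand (fzA C j)) (fzW (d.P S) d.G)) := hst
  rw [hst']
  have hSr1 : MeasurableSet {x : RdWvPar.Ph | cyIn (fzUp Q (2 * Q.f + en)) 1 (fzFl d.fs x)} := fz_du_cell_meas d.fs 1 _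
  have hSrm : MeasurableSet ({x : RdWvPar.Ph | cyIn (fzUp Q (2 * Q.f + en)) 1 (fzFl d.fs x)} ∩ fzIn d.fs (d.s ^ (-(g0 / 2)))) :=
    hSr1.inter (fz_du_in_meas _ _)
  have key := main _ _ hSrm (hcellm.inter hboxm) (by
    intro z hz hzS z' hz' hnear
    apply hzS
    refine ⟨?_, hz⟩
    have hin : cyIn Q 1 ((fzHy (d.P S) (fzA C j)).co 0 z') := by
      have := hz'.1
      simpa using this
    have hbx : z'.1 ∈ fzBoxT 0 r0 := by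
      rw [fz_g_boxT_zero]
      exact hz'.2
    have hb := fz_g_box (P := d.P S) (a := fzA C j) (T := 0) (R := r0) (r0 := r0) (x := z') hr0 le_rfl hbx
    exact fz_g_root_near hs hs2 hD (by linarith) hr1 hQ (Real.rpow_nonneg hs.le _) le_rfl hen0 hin hb (fz_g_near_symm hnear))
  refine key.trans (add_le_add_left (Real.sqrt_le_sqrt ?_) _)
  obtain ⟨t1, t2, t3, t4, -⟩ := fz_g_tr hr0p hQ
  have hρ : 0 < d.s ^ D := Real.rpow_pos_of_pos hs _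
  have hQr : 0 < Q.r := lt_of_lt_of_le (mul_pos hρ hr0p) t1
  have hQf : 0 < Q.f := lt_of_lt_of_le (mul_pos hρ hr0p) t3
  by_cases hemp : ({x : RdWvPar.Ph | cyIn (fzUp Q (2 * Q.f + en)) 1 (fzFl d.fs x)} ∩ fzIn d.fs (d.s ^ (-(g0 / 2)))) = ∅
  · have e0 : d.ms0 ∅ = 0 := gn_ms_empty (P := d.p.sys 0) 0 0 d.b0 d.G
    rw [hemp, e0]
    refine mul_nonneg h.bq_pos.le ?_
    unfold cyWt
    refine mul_nonneg (Real.rpow_nonneg ?_ _) (Real.rpow_nonneg ?_ _)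
    · show 0 ≤ 2 * Q.r
      linarith
    · show 0 ≤ 2 * Q.f + en
      linarith
  · obtain ⟨z, hz1, hz2⟩ := Set.nonempty_iff_ne_empty.2 hemp
    obtain ⟨zX, zB, zY, zN, zD⟩ := hz2
    obtain ⟨a1, a2, a3, a4, a5⟩ := fz_g_root2 (T0 := 0) hs hs2 hD hr0 hr1 hQ hen0 (hen1.trans hr0) hz1 (zX.trans hreg) (zB.trans hreg) (zY.trans hreg)
      (zN.trans hreg) (zD.trans hreg)
    have hrg := h.reg (fzUp Q (2 * Q.f + en)) a1 (by rw [← h4]; exact a2) a3 (by rw [← h4]; exact a4) a5 (by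
      refine hunc.trans (mul_le_mul_of_nonneg_left ?_ h.fs_pos.le)
      show en ≤ 2 * Q.f + en
      linarith)
    exact le_trans (gn_ms_mono (P := d.p.sys 0) 0 0 d.b0 hSrm hSr1 Set.inter_subset_left d.G) hrg

/-- LEAF `L-256-FZ-DU-7`.   **IN-A, geometric half.**   `en = max (δ^S1) (δ^-g1 √Hf)`, `S1 = 2D + 9`, `Q⁺ = fzUp Q (2 Q.f + en)`, `r0 = δ^-g0/4 ≥ 1` (`n ≥ n0(g0)`), `en ≤ 1`.
`fz_du_st`, `fz_du_main` with `Sc = cell Q ∩ {x.1 ∈ box}`, `Sr = {cyIn Q⁺ 1 (fzFl fs z)} ∩ fzIn ..`.   Not near: `fz_g_root_near` (point `co 0 z'`, `fz_g_box`, `fz_g_boxT_zero`, `fz_g_near_symm`).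
`ms0 Sr ≤ bq cyWt Q⁺`:   `Sr = ∅`: `gn_ms_empty`;   else a witness `z ∈ Sr`: `fz_g_root2` (`δ^(-g0/2) ≤ r0`) gives the hypotheses of `h.reg` for `Q⁺` (`4 r0 = δ^-g0`; `rdD H 0 = √H ≤ fs en`), `gn_ms_mono`. -/
theorem fz_du_reg1 (S D g1 : ℝ) (hS : 2 ≤ S) (hD : 0 < D) (hg1 : 0 < g1) (hg1' : g1 ≤ 1 / 4) :
    ∃ Zf : ℝ, ∀ g0 : ℝ, 0 < g0 → g0 ≤ 1 → ∀ C J : ℕ, ∃ n0 : ℕ, ∀ (d : FzDat) (η : ℝ) (A : ℕ) (Ds : ℝ) (j : Fin (2 * C + 20)) (Q : CyT),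
      n0 ≤ d.n → d.Ok η C A Ds (D + 3) g0 → d.fs ≤ d.s ^ Zf → CyTr 0 0 (fzFr (d.s ^ (-g0) / 4)) (d.s ^ D) Q →
      Real.sqrt (((fzHy (d.P S) (fzA C j)).sys η).ms 0 0 0 (((fzHy (d.P S) (fzA C j)).sys η).cell Q 0 0) (fzSt (d.P S) (fzA C j) (d.s ^ (-g0) / 4) d.G))
        ≤ Real.sqrt (d.bq * cyWt η (fzUp Q (2 * Q.f + max (d.s ^ (2 * D + 9)) (d.s ^ (-g1) * Real.sqrt (d.p.H / d.fs ^ 2)))))
          + (d.s ^ ((J : ℝ) / 2) + d.s ^ ((A : ℝ) / 2)) * Real.sqrt d.e := by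
  obtain ⟨Zf, H⟩ := fz_du_main S (2 * D + 9) g1 (by linarith) (by linarith) hg1
  refine ⟨Zf, fun g0 hg0 hg0' C J => ?_⟩
  obtain ⟨n1, H1⟩ := H C J
  obtain ⟨n2, hn2⟩ := gn_absorb 4 (g0 / 2) (by positivity)
  refine ⟨max n1 (max n2 1), fun d η A Ds j Q hn h hfs hQ => ?_⟩
  have hn1 : n1 ≤ d.n := (le_max_left _ _).trans hn
  have hn2' : n2 ≤ d.n := ((le_max_left _ _).trans (le_max_right _ _)).trans hn
  have hn3 : 1 ≤ d.n := ((le_max_right _ _).trans (le_max_right _ _)).trans hn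
  have hs : 0 < d.s := by unfold FzDat.s; positivity
  have hs2 : d.s ≤ 1 / 2 := by
    unfold FzDat.s
    calc ((2 : ℝ)⁻¹) ^ d.n ≤ ((2 : ℝ)⁻¹) ^ 1 := pow_le_pow_of_le_one (by norm_num) (by norm_num) hn3
      _ = 1 / 2 := by norm_num
  have hs1 : d.s ≤ 1 := by linarith
  have hsr : ∀ y : ℝ, d.s ^ y = 2 ^ (-(y * d.n)) := by
    intro y
    unfold FzDat.s
    rw [← Real.rpow_natCast, ← Real.rpow_mul (by positivity), Real.inv_rpow (by norm_num), ← Real.rpow_neg (by norm_num)]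
    congr 1
    ring
  have h4 : 4 ≤ d.s ^ (-(g0 / 2)) := by
    rw [hsr]
    refine (hn2 d.n hn2').trans (le_of_eq ?_)
    congr 1
    ring
  have esq : d.s ^ (-g0) = d.s ^ (-(g0 / 2)) * d.s ^ (-(g0 / 2)) := by
    rw [← Real.rpow_add hs]
    congr 1
    ring
  have hreg : d.s ^ (-(g0 / 2)) ≤ d.s ^ (-g0) / 4 := by
    rw [esq]
    nlinarith
  have hr0 : 1 ≤ d.s ^ (-g0) / 4 := by linarith
  have hr1 : d.s ^ (-g0) / 4 ≤ d.s⁻¹ / 4 := by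
    have : d.s ^ (-g0) ≤ d.s ^ (-1 : ℝ) := Real.rpow_le_rpow_of_exponent_ge hs hs1 (by linarith)
    rw [Real.rpow_neg_one] at this
    linarith
  have hHf0 : 0 ≤ d.p.H / d.fs ^ 2 := div_nonneg d.p.H_pos.le (by positivity)
  have hen0 : 0 ≤ max (d.s ^ (2 * D + 9)) (d.s ^ (-g1) * Real.sqrt (d.p.H / d.fs ^ 2)) := le_max_of_le_left (Real.rpow_nonneg hs.le _)
  have hen1 : max (d.s ^ (2 * D + 9)) (d.s ^ (-g1) * Real.sqrt (d.p.H / d.fs ^ 2)) ≤ 1 := by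
    refine max_le (Real.rpow_le_one hs.le hs1 (by linarith)) ?_
    have a1 : Real.sqrt (d.p.H / d.fs ^ 2) ≤ d.s ^ (1 / 2 : ℝ) := by
      rw [← Real.sqrt_eq_rpow]
      exact Real.sqrt_le_sqrt h.H_hi
    calc d.s ^ (-g1) * Real.sqrt (d.p.H / d.fs ^ 2) ≤ d.s ^ (-g1) * d.s ^ (1 / 2 : ℝ) := mul_le_mul_of_nonneg_left a1 (Real.rpow_nonneg hs.le _)
      _ = d.s ^ (-g1 + 1 / 2) := (Real.rpow_add hs _ _).symm
      _ ≤ 1 := Real.rpow_le_one hs.le hs1 (by linarith)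
  have hunc : rdD d.p.H 0 ≤ d.fs * max (d.s ^ (2 * D + 9)) (d.s ^ (-g1) * Real.sqrt (d.p.H / d.fs ^ 2)) := by
    have b1 : rdD d.p.H 0 = Real.sqrt d.p.H := by
      unfold rdD rdLen
      simp
    have b2 : Real.sqrt (d.p.H / d.fs ^ 2) = Real.sqrt d.p.H / d.fs := by
      rw [Real.sqrt_div d.p.H_pos.le, Real.sqrt_sq h.fs_pos.le]
    have b3 : 1 ≤ d.s ^ (-g1) := Real.one_le_rpow_of_pos_of_le_one_of_nonpos hs hs1 (by linarith)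
    have b4 : Real.sqrt d.p.H = d.fs * (1 * Real.sqrt (d.p.H / d.fs ^ 2)) := by
      rw [b2]
      field_simp [h.fs_pos.ne']
    rw [b1]
    calc Real.sqrt d.p.H = d.fs * (1 * Real.sqrt (d.p.H / d.fs ^ 2)) := b4
      _ ≤ d.fs * (d.s ^ (-g1) * Real.sqrt (d.p.H / d.fs ^ 2)) :=
          mul_le_mul_of_nonneg_left (mul_le_mul_of_nonneg_right b3 (Real.sqrt_nonneg _)) h.fs_pos.le
      _ ≤ _ := mul_le_mul_of_nonneg_left (le_max_right _ _) h.fs_pos.le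
  exact fz_du7_core d η C A Ds D g0 S _ _ _ j Q hs hs2 hD h hr0 hr1 (by ring) hreg hen0 hen1 hunc hQ
    (fun Sr Sc hSr hSc hnn => H1 d η A Ds (D + 3) g0 j hn1 h (by linarith) hfs Sr Sc hSr hSc hnn)

/-- LEAF `L-256-FZ-DU-8`.   **IN-A, numbers.**   `x = ms`, `w = cyWt Q`, `w⁺ = cyWt Q⁺ ≤ 16 c w`:   `√x ≤ √(bq w⁺) + 2 t √e` ⟹ `x ≤ 2 bq w⁺ + 8 t² e ≤ (32 c + 1) bq w` if `8 t² e ≤ bq w`. -/
theorem fz_du_num {x bq w wp c t e : ℝ} (hx : 0 ≤ x) (hbq : 0 ≤ bq) (hw : 0 ≤ w) (hwp : 0 ≤ wp) (ht : 0 ≤ t) (he : 0 ≤ e) (h1 : Real.sqrt x ≤ Real.sqrt (bq * wp) + 2 * t * Real.sqrt e)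
    (h2 : wp ≤ 16 * c * w) (h3 : 8 * t ^ 2 * e ≤ bq * w) : x ≤ (32 * c + 1) * bq * w := by
  have a1 : Real.sqrt x ^ 2 = x := Real.sq_sqrt hx
  have a2 : Real.sqrt (bq * wp) ^ 2 = bq * wp := Real.sq_sqrt (mul_nonneg hbq hwp)
  have a3 : Real.sqrt e ^ 2 = e := Real.sq_sqrt he
  have a4 : Real.sqrt x ^ 2 ≤ (Real.sqrt (bq * wp) + 2 * t * Real.sqrt e) ^ 2 := pow_le_pow_left₀ (Real.sqrt_nonneg _) h1 2
  have a5 : (Real.sqrt (bq * wp) + 2 * t * Real.sqrt e) ^ 2 ≤ 2 * Real.sqrt (bq * wp) ^ 2 + 8 * t ^ 2 * Real.sqrt e ^ 2 := by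
    nlinarith [sq_nonneg (Real.sqrt (bq * wp) - 2 * t * Real.sqrt e)]
  have a6 : bq * wp ≤ bq * (16 * c * w) := mul_le_mul_of_nonneg_left h2 hbq
  rw [a1] at a4
  rw [a2, a3] at a5
  nlinarith

/-- the scale -/
theorem fz_du9_s (d : FzDat) : 0 < d.s ∧ d.s ≤ 1 := by
  unfold FzDat.s
  exact ⟨by positivity, pow_le_one₀ (by norm_num) (by norm_num)⟩

theorem fz_du9_half (d : FzDat) (h : 1 ≤ d.n) : d.s ≤ 1 / 2 := by
  unfold FzDat.s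
  calc (2 : ℝ)⁻¹ ^ d.n ≤ (2 : ℝ)⁻¹ ^ 1 := pow_le_pow_of_le_one (by norm_num) (by norm_num) h
    _ = 1 / 2 := by norm_num

theorem fz_du9_neg (d : FzDat) (y : ℝ) : d.s ^ (-y) = 2 ^ (y * d.n) := by
  have e : d.s = (2 : ℝ) ^ (-(d.n : ℝ)) := by
    unfold FzDat.s
    rw [Real.rpow_neg (by norm_num), Real.rpow_natCast, inv_pow]
  rw [e, ← Real.rpow_mul (by norm_num)]
  congr 1
  ring

/-- the bands -/
theorem fz_du9_A (C : ℕ) (j : Fin (2 * C + 20)) : 0 < fzA C j ∧ fzA C j ≤ 2 ^ (C + 10) := by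
  unfold fzA
  refine ⟨by positivity, ?_⟩
  have h : (((j : ℕ) : ℤ) - ((C : ℤ) + 10)) ≤ ((C + 10 : ℕ) : ℤ) := by
    have := j.2
    push_cast
    omega
  calc (2 : ℝ) ^ (((j : ℕ) : ℤ) - ((C : ℤ) + 10)) ≤ (2 : ℝ) ^ ((C + 10 : ℕ) : ℤ) := zpow_le_zpow_right₀ (by norm_num) h
    _ = 2 ^ (C + 10) := zpow_natCast _ _

/-- the Planck floor of an admissible test in the flat Planck parameter -/
theorem fz_du9_pl {Hf a M f : ℝ} (ha : 0 < a) (hM : 1 ≤ M) (haM : a ≤ M) (h : Real.sqrt (Hf / a) ≤ f) : Real.sqrt Hf ≤ M * f := by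
  have e : Hf = a * (Hf / a) := by field_simp
  have h1 : Real.sqrt a ≤ M := by
    rw [Real.sqrt_le_left (by linarith)]
    nlinarith
  calc Real.sqrt Hf = Real.sqrt a * Real.sqrt (Hf / a) := by
        conv_lhs => rw [e]
        exact Real.sqrt_mul ha.le _
    _ ≤ M * f := mul_le_mul h1 h (Real.sqrt_nonneg _) (by linarith)

/-- lower bound of a weight -/
theorem fz_du9_wt {η m : ℝ} {Q : CyT} (h0 : 0 < η) (h1 : η < 1) (hm : 0 < m) (hr : m ≤ Q.r) (hf : m ≤ Q.f) : m ^ 4 ≤ cyWt η Q := by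
  unfold cyWt
  have e : m ^ 4 = m ^ (3 + η) * m ^ (1 - η) := by
    rw [← Real.rpow_add hm, ← Real.rpow_natCast]
    congr 1
    push_cast
    ring
  rw [e]
  exact mul_le_mul (Real.rpow_le_rpow hm.le hr (by linarith)) (Real.rpow_le_rpow hm.le hf (by linarith)) (by positivity)
    (Real.rpow_nonneg (hm.le.trans hr) _)

/-- the numbers of IN-A -/
theorem fz_du9_core {η s D g1 bq e x Hf : ℝ} {Q : CyT} {C J0 : ℕ} (h0 : 0 < η) (h1 : η < 1) (hs0 : 0 < s) (hs2 : s ≤ 1 / 2) (hD : 0 < D)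
    (hJ : (C : ℝ) + 4 * D + 24 ≤ (J0 : ℝ)) (hr : 0 < Q.r) (hf : 0 < Q.f) (hmr : s ^ D / 4 ≤ Q.r) (hmf : s ^ D / 4 ≤ Q.f)
    (hpl : Real.sqrt Hf ≤ 2 ^ (C + 10) * Q.f) (huK : 97 + 32 * 2 ^ (C + 10) ≤ s ^ (-(g1 / 2))) (hbq : 0 < bq) (he0 : 0 < e) (he : e ≤ s ^ (-(C : ℝ)) * bq) (hx : 0 ≤ x)
    (key : Real.sqrt x ≤ Real.sqrt (bq * cyWt η (fzUp Q (2 * Q.f + max (s ^ (2 * D + 9)) (s ^ (-(g1 / 2)) * Real.sqrt Hf))))
      + (s ^ ((J0 : ℝ) / 2) + s ^ ((J0 : ℝ) / 2)) * Real.sqrt e) :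
    x ≤ s ^ (-g1) * bq * cyWt η Q := by
  have hs1 : s ≤ 1 := by linarith
  have hM1 : (1 : ℝ) ≤ 2 ^ (C + 10) := one_le_pow₀ (by norm_num)
  have hsD : 0 < s ^ D := Real.rpow_pos_of_pos hs0 _
  obtain ⟨u, hu⟩ : ∃ u : ℝ, u = s ^ (-(g1 / 2)) := ⟨_, rfl⟩
  obtain ⟨M, hM⟩ : ∃ M : ℝ, M = 2 ^ (C + 10) := ⟨_, rfl⟩
  rw [← hu] at huK key
  rw [← hM] at huK hpl hM1
  have hu1 : 1 ≤ u := by linarith
  have huu : s ^ (-g1) = u * u := by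
    rw [hu, ← Real.rpow_add hs0]
    congr 1
    ring
  have huM : 0 ≤ u * M := by positivity
  have hsm : s ^ (2 * D + 9) ≤ Q.f := by
    refine le_trans ?_ hmf
    have e : s ^ (2 * D + 9) = s ^ D * s ^ (D + 9) := by
      rw [← Real.rpow_add hs0]
      congr 1
      ring
    have e2 : s ^ (D + 9) ≤ 1 / 4 := by
      calc s ^ (D + 9) ≤ s ^ (2 : ℝ) := Real.rpow_le_rpow_of_exponent_ge hs0 hs1 (by linarith)
        _ = s ^ 2 := by rw [← Real.rpow_natCast]; norm_num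
        _ ≤ (1 / 2) ^ 2 := pow_le_pow_left₀ hs0.le hs2 2
        _ = 1 / 4 := by norm_num
    rw [e]
    have := mul_le_mul_of_nonneg_left e2 hsD.le
    linarith
  have hmax : max (s ^ (2 * D + 9)) (u * Real.sqrt Hf) ≤ (1 + u * M) * Q.f := by
    have hpos : 0 ≤ u * M * Q.f := mul_nonneg huM hf.le
    refine max_le (by linarith) ?_
    have : u * Real.sqrt Hf ≤ u * (M * Q.f) := mul_le_mul_of_nonneg_left hpl (by linarith)
    linarith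
  have hmax0 : 0 ≤ max (s ^ (2 * D + 9)) (u * Real.sqrt Hf) := le_max_of_le_left (Real.rpow_pos_of_pos hs0 _).le
  have hwt := fz_g_wt (η := η) (c := 3 + u * M) (f' := 2 * Q.f + max (s ^ (2 * D + 9)) (u * Real.sqrt Hf)) (Q := Q) h0 h1 hr hf (by linarith)
    (by linarith) (by linarith)
  have hw4 : (s ^ D / 4) ^ 4 ≤ cyWt η Q := fz_du9_wt h0 h1 (by positivity) hmr hmf
  have hw0 : 0 ≤ cyWt η Q := le_trans (by positivity) hw4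
  have hwp0 : 0 ≤ cyWt η (fzUp Q (2 * Q.f + max (s ^ (2 * D + 9)) (u * Real.sqrt Hf))) := by
    unfold cyWt fzUp
    exact mul_nonneg (Real.rpow_nonneg (by show (0 : ℝ) ≤ 2 * Q.r; linarith) _) (Real.rpow_nonneg (by show (0 : ℝ) ≤ 2 * Q.f + _; linarith) _)
  have ht2 : (s ^ ((J0 : ℝ) / 2)) ^ 2 = s ^ (J0 : ℝ) := by
    rw [← Real.rpow_natCast, ← Real.rpow_mul hs0.le]
    congr 1
    push_cast
    ring
  have h3 : 8 * (s ^ ((J0 : ℝ) / 2)) ^ 2 * e ≤ bq * cyWt η Q := by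
    rw [ht2]
    have e1 : s ^ (J0 : ℝ) ≤ s ^ ((C : ℝ) + 4 * D + 24) := Real.rpow_le_rpow_of_exponent_ge hs0 hs1 hJ
    have e2 : s ^ ((C : ℝ) + 4 * D + 24) = s ^ (C : ℝ) * (s ^ D) ^ 4 * s ^ 24 := by
      rw [Real.rpow_add hs0, Real.rpow_add hs0, ← Real.rpow_natCast (s ^ D), ← Real.rpow_mul hs0.le, ← Real.rpow_natCast s 24]
      congr 2
      congr 1
      push_cast
      ring
    have e3 : s ^ 24 ≤ (1 / 2) ^ 24 := pow_le_pow_left₀ hs0.le hs2 24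
    have e4 : s ^ (C : ℝ) * s ^ (-(C : ℝ)) = 1 := by
      rw [← Real.rpow_add hs0]
      simp
    have hsC : 0 < s ^ (C : ℝ) := Real.rpow_pos_of_pos hs0 _
    have hD4 : 0 < (s ^ D) ^ 4 := by positivity
    calc 8 * s ^ (J0 : ℝ) * e ≤ 8 * (s ^ (C : ℝ) * (s ^ D) ^ 4 * s ^ 24) * (s ^ (-(C : ℝ)) * bq) := by
          rw [← e2]
          exact mul_le_mul (by linarith) he he0.le (by positivity)
      _ = 8 * ((s ^ D) ^ 4 * s ^ 24) * bq * (s ^ (C : ℝ) * s ^ (-(C : ℝ))) := by ring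
      _ = 8 * ((s ^ D) ^ 4 * s ^ 24) * bq := by rw [e4, mul_one]
      _ ≤ 8 * ((s ^ D) ^ 4 * (1 / 2) ^ 24) * bq := by
          refine mul_le_mul_of_nonneg_right ?_ hbq.le
          exact mul_le_mul_of_nonneg_left (mul_le_mul_of_nonneg_left e3 hD4.le) (by norm_num)
      _ ≤ (s ^ D / 4) ^ 4 * bq := by
          refine mul_le_mul_of_nonneg_right ?_ hbq.le
          have e5 : (s ^ D / 4) ^ 4 = (s ^ D) ^ 4 * (1 / 256) := by ring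
          have e6 : 8 * ((s ^ D) ^ 4 * (1 / 2) ^ 24) = (s ^ D) ^ 4 * (8 * (1 / 2) ^ 24) := by ring
          rw [e5, e6]
          exact mul_le_mul_of_nonneg_left (by norm_num) hD4.le
      _ = bq * (s ^ D / 4) ^ 4 := mul_comm _ _
      _ ≤ bq * cyWt η Q := mul_le_mul_of_nonneg_left hw4 hbq.le
  have key' : Real.sqrt x ≤ Real.sqrt (bq * cyWt η (fzUp Q (2 * Q.f + max (s ^ (2 * D + 9)) (u * Real.sqrt Hf))))
          + 2 * s ^ ((J0 : ℝ) / 2) * Real.sqrt e := by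
    refine key.trans (le_of_eq ?_)
    ring
  have hfin := fz_du_num hx hbq.le hw0 hwp0 (Real.rpow_pos_of_pos hs0 _).le he0.le key' hwt h3
  refine hfin.trans ?_
  rw [mul_assoc, mul_assoc]
  refine mul_le_mul_of_nonneg_right ?_ (mul_nonneg hbq.le hw0)
  rw [huu]
  have a1 : (97 + 32 * M) * u ≤ u * u := mul_le_mul_of_nonneg_right huK (by linarith)
  have a2 : 97 ≤ 97 * u := by linarith
  nlinarith

/-- LEAF `L-256-FZ-DU-9`.   **IN-A.**   `fz_du_reg1` with `g1/2`, `J = A = 2 (C + ⌈4D⌉₊ + 12)`; `fz_du_num` with `t = δ^(J/2)`.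
`fz_g_tr`: `Q.r, Q.f ≥ δ^D r0 ≥ δ^D / 4`, so `cyWt Q ≥ (δ^D/4)⁴ ≥ δ^(4D+8)`; `e ≤ δ^-C bq` (`h.e_hi`): `8 δ^J e ≤ bq δ^(4D+8)`.
`fz_g_wt` with `c = 3 + δ^(-g1/2) 2^(C+10)`:   `δ^(2D+9) ≤ Q.f`;   `ok Q 0`: `√(Hf / a) ≤ Q.f`, `a = fzA C j ≤ 2^(C+10)`, so `√Hf ≤ 2^(C+10) Q.f`.      `32 c + 1 ≤ δ^-g1` for `n ≥ n0(C, g1)` (`gn_absorb`). -/
theorem fz_du_reg (η : ℝ) (h0 : 0 < η) (h1 : η < 1) (S D g1 : ℝ) (hS : 2 ≤ S) (hD : 0 < D) (hg1 : 0 < g1) (hg1' : g1 ≤ 1 / 4) :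
    ∃ Zf : ℝ, ∀ g0 : ℝ, 0 < g0 → g0 ≤ 1 → ∀ C : ℕ, ∃ A n0 : ℕ, ∀ (d : FzDat) (Ds : ℝ) (j : Fin (2 * C + 20)) (Q : CyT),
      n0 ≤ d.n → d.Ok η C A Ds (D + 3) g0 → d.fs ≤ d.s ^ Zf → ((fzHy (d.P S) (fzA C j)).sys η).ok Q 0 → CyTr 0 0 (fzFr (d.s ^ (-g0) / 4)) (d.s ^ D) Q →
      ((fzHy (d.P S) (fzA C j)).sys η).ms 0 0 0 (((fzHy (d.P S) (fzA C j)).sys η).cell Q 0 0) (fzSt (d.P S) (fzA C j) (d.s ^ (-g0) / 4) d.G)
        ≤ d.s ^ (-g1) * d.bq * cyWt η Q := by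
  obtain ⟨Zf, H⟩ := fz_du_reg1 S D (g1 / 2) hS hD (by positivity) (by linarith)
  refine ⟨Zf, fun g0 hg0 hg0' C => ?_⟩
  obtain ⟨J0, hJ0⟩ : ∃ J0 : ℕ, J0 = 2 * (C + ⌈4 * D⌉₊ + 12) := ⟨_, rfl⟩
  obtain ⟨n1, H1⟩ := H g0 hg0 hg0' C J0
  obtain ⟨n2, H2⟩ := gn_absorb (97 + 32 * 2 ^ (C + 10)) (g1 / 2) (by positivity)
  refine ⟨J0, max (max n1 n2) 1, fun d Ds j Q hn hd hfs hok hQ => ?_⟩
  have hn1 : n1 ≤ d.n := le_trans (le_trans (le_max_left _ _) (le_max_left _ _)) hn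
  have hn2 : n2 ≤ d.n := le_trans (le_trans (le_max_right _ _) (le_max_left _ _)) hn
  have hn3 : 1 ≤ d.n := le_trans (le_max_right _ _) hn
  have key := H1 d η J0 Ds j Q hn1 hd hfs hQ
  obtain ⟨hs0, hs1⟩ := fz_du9_s d
  have hs2 := fz_du9_half d hn3
  have hr : 0 < Q.r := hok.1
  have hf : 0 < Q.f := hok.2.1
  have hdl : (fzHy (d.P S) (fzA C j)).dl 0 ≤ Q.f := hok.2.2
  obtain ⟨ha0, haM⟩ := fz_du9_A C j
  have hM1 : (1 : ℝ) ≤ 2 ^ (C + 10) := one_le_pow₀ (by norm_num)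
  have hr0 : 1 / 4 ≤ d.s ^ (-g0) / 4 := by
    have : 1 ≤ d.s ^ (-g0) := Real.one_le_rpow_of_pos_of_le_one_of_nonpos hs0 hs1 (by linarith)
    linarith
  obtain ⟨t1, -, t3, -, -, -, -⟩ := fz_g_tr (by linarith) hQ
  have hsD : 0 < d.s ^ D := Real.rpow_pos_of_pos hs0 _
  have hm : d.s ^ D / 4 ≤ d.s ^ D * (d.s ^ (-g0) / 4) := by
    have := mul_le_mul_of_nonneg_left hr0 hsD.le
    linarith
  have hdl' : Real.sqrt (d.p.H / d.fs ^ 2 / fzA C j) ≤ Q.f := by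
    have e : (fzHy (d.P S) (fzA C j)).dl 0 = Real.sqrt (d.p.H / d.fs ^ 2 / fzA C j) := by
      unfold ChyPar.dl
      show Real.sqrt (d.p.H / d.fs ^ 2 / fzA C j * 2 ^ 0) = _
      rw [pow_zero, mul_one]
    rw [← e]
    exact hdl
  have hpl : Real.sqrt (d.p.H / d.fs ^ 2) ≤ 2 ^ (C + 10) * Q.f := fz_du9_pl ha0 hM1 haM hdl'
  have huK : 97 + 32 * 2 ^ (C + 10) ≤ d.s ^ (-(g1 / 2)) := by rw [fz_du9_neg]; exact H2 d.n hn2
  have hJ : (C : ℝ) + 4 * D + 24 ≤ (J0 : ℝ) := by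
    have hc := Nat.le_ceil (4 * D)
    rw [hJ0]
    push_cast
    have : (0 : ℝ) ≤ C := Nat.cast_nonneg C
    linarith
  exact fz_du9_core h0 h1 hs0 hs2 hD hJ hr hf (hm.trans t1) (hm.trans t3) hpl huK hd.bq_pos hd.e_pos hd.e_hi (gn_ms_nonneg _ _ _ _ _) key

end Claimed.Agent.R256
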