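-- KEEP
import Claimed.Agent.R256.Fz.AsmIn
import Claimed.Agent.R256.Fz.Dual

/-!
# Row 256 (LS paper), folder Fz = WAVE FREEZE, unit FZ-ASM-IN, file AsmInMain : **IN** = `fz_ai_in`          (architect helper89; chief helper207; prefix `fz_ai_`)          CONTRACT + GLUE

`fz_ai_in` = `fz_in` of `Fz/Main.lean` with the quantifiers in the order needed by `FzFlatRate` (`Zf` before `g0`; the enlargement exponent `g1 ∈ (0,1]` of the labels is FREE).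
INPUTS: `CyTrRate (sfHy η)` (`cy_trrate`), `fz_du_reg`, `fz_du_tail` (`Fz/Dual.lean`), `fz_g_reg0` (`Fz/GeoReg.lean`; needs `fz_w_spec` = hypothesis `hWs`), `fz_g_bdd`, `fz_g_box` (`Fz/Geo.lean`), `fz_ai_valid`, `fz_ai_supp` (`Fz/AsmIn.lean`).
CONSTANTS.   `Ds' = Ds + 4`, `D1 = CyTrRate(Ds')`, `Dt = D1 + 3`, `S = fzS Ds`, `g = min γ (1/4)`, `b = δ^-g bq`, frame `fzFr r0`, `r0 = δ^-g0/4`, package `C + 5`, accuracy `γ/2`.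
Every `sorry` is a leaf `L-256-FZ-AI-N*` (name in the docstring); prove IN PLACE, statement verbatim, auxiliary lemmas directly above, prefix `fz_ai_`.
-/

set_option autoImplicit false

namespace Claimed.Agent.R256

open MeasureTheory

/-! ## the scale -/

theorem fz_ai_s_pos (d : FzDat) : 0 < d.s := by
  unfold FzDat.s
  positivity

theorem fz_ai_s_le_one (d : FzDat) : d.s ≤ 1 := by
  unfold FzDat.s
  exact pow_le_one₀ (by norm_num) (by norm_num)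

theorem fz_ai_s_half (d : FzDat) (hn : 1 ≤ d.n) : d.s ≤ 1 / 2 := by
  unfold FzDat.s
  calc (2 : ℝ)⁻¹ ^ d.n ≤ (2 : ℝ)⁻¹ ^ 1 := pow_le_pow_of_le_one (by norm_num) (by norm_num) hn
    _ = 1 / 2 := by norm_num

theorem fz_ai_s_rpow (d : FzDat) (y : ℝ) : d.s ^ y = 2 ^ (-(y * d.n)) := by
  unfold FzDat.s
  rw [inv_pow, ← Real.rpow_natCast, ← Real.rpow_neg (by norm_num), ← Real.rpow_mul (by norm_num)]
  congr 1
  ring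

theorem fz_ai_s_anti (d : FzDat) {y y' : ℝ} (h : y ≤ y') : d.s ^ y' ≤ d.s ^ y :=
  Real.rpow_le_rpow_of_exponent_ge (fz_ai_s_pos d) (fz_ai_s_le_one d) h

/-- every constant is absorbed by a negative power of the scale -/
theorem fz_ai_big (K c : ℝ) (hc : 0 < c) : ∃ n0 : ℕ, ∀ d : FzDat, n0 ≤ d.n → K ≤ d.s ^ (-c) := by
  obtain ⟨n0, h⟩ := gn_absorb K c hc
  refine ⟨n0, fun d hn => (h d.n hn).trans (le_of_eq ?_)⟩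
  rw [fz_ai_s_rpow]
  congr 1
  ring

/-- the hypotheses are monotone in the tail order -/
theorem fz_ai_ok_mono {d : FzDat} {η : ℝ} {C A A' : ℕ} {Ds Dt g0 : ℝ} (h : d.Ok η C A' Ds Dt g0) (hA : A ≤ A') : d.Ok η C A Ds Dt g0 :=
  { h with root := h.root.trans (mul_le_mul_of_nonneg_right (fz_ai_s_anti d (by exact_mod_cast hA)) h.e_pos.le) }

/-! ## numbers -/

/-- LEAF `L-256-FZ-AI-N1`.   `fzA C j = 2 ^ ((j : ℤ) - (C + 10))` (`zpow`), `0 ≤ j < 2C + 20`:   `zpow_pos`;   `(2⁻¹)^(C+10) = 2 ^ (-(C+10) : ℤ)` (`inv_pow`, `zpow_neg`, `zpow_natCast`), `zpow_le_zpow_right₀ (by norm_num) (by omega)`. -/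
theorem fz_ai_A (C : ℕ) (j : Fin (2 * C + 20)) : 0 < fzA C j ∧ (2 : ℝ)⁻¹ ^ (C + 10) ≤ fzA C j ∧ fzA C j ≤ 2 ^ (C + 10) := by
  have hj := j.2
  unfold fzA
  refine ⟨zpow_pos (by norm_num) _, ?_, ?_⟩
  · have e : (2 : ℝ)⁻¹ ^ (C + 10) = (2 : ℝ) ^ (-((C + 10 : ℕ) : ℤ)) := by
      rw [inv_pow, zpow_neg, zpow_natCast]
    rw [e]
    exact zpow_le_zpow_right₀ (by norm_num) (by push_cast; omega)
  · have e : (2 : ℝ) ^ (C + 10) = (2 : ℝ) ^ (((C + 10 : ℕ) : ℤ)) := by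
      rw [zpow_natCast]
    rw [e]
    exact zpow_le_zpow_right₀ (by norm_num) (by push_cast; omega)

/-- LEAF `L-256-FZ-AI-N1`.   `s^(-g0) ≤ s^(-1) = s⁻¹` (`Real.rpow_le_rpow_of_exponent_ge`, `Real.rpow_neg_one`). -/
theorem fz_ai_r0 {s g0 : ℝ} (hs : 0 < s) (hs1 : s ≤ 1) (hg1 : g0 ≤ 1) (h4 : 4 ≤ s ^ (-g0)) : 1 ≤ s ^ (-g0) / 4 ∧ s ^ (-g0) / 4 ≤ s⁻¹ / 4 := by
  have h : s ^ (-g0) ≤ s⁻¹ := by
    rw [← Real.rpow_neg_one]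
    exact Real.rpow_le_rpow_of_exponent_ge hs hs1 (by linarith)
  constructor
  · linarith
  · linarith

/-- LEAF `L-256-FZ-AI-N2`.   **energy versus regularity in the frame.**   `cyWt η (fzFr r0) = r0^(3+η) r0^(1-η) = r0^4` (`← Real.rpow_add`, `Real.rpow_natCast`), `1 ≤ r0^4 ≤ (s⁻¹/4)^4 ≤ s^(-4)`, `1 ≤ s^(-g) ≤ s^(-1)`.
LOWER: `s^(C+5) s^(-g) bq r0^4 ≤ s^(C+5) s^(-1) s^(-4) bq = s^C bq ≤ e` (`Real.rpow_add`; cast `((C+5 : ℕ) : ℝ) = C + 5`).      UPPER: `e ≤ s^(-C) bq ≤ s^(-(C+5)) (s^(-g) bq r0^4)`: all the new factors are `≥ 1`. -/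
theorem fz_ai_num_e {η s e bq g r0 : ℝ} {C : ℕ} (hs : 0 < s) (hs1 : s ≤ 1) (hbq : 0 < bq) (hg : 0 ≤ g) (hg1 : g ≤ 1) (hr0 : 1 ≤ r0) (hr1 : r0 ≤ s⁻¹ / 4)
    (h1 : s ^ (C : ℝ) * bq ≤ e) (h2 : e ≤ s ^ (-(C : ℝ)) * bq) :
    s ^ ((C + 5 : ℕ) : ℝ) * (s ^ (-g) * bq * cyWt η (fzFr r0)) ≤ e ∧ e ≤ s ^ (-((C + 5 : ℕ) : ℝ)) * (s ^ (-g) * bq * cyWt η (fzFr r0)) := by
  have hr0p : 0 < r0 := by linarith
  have hw : cyWt η (fzFr r0) = r0 ^ 4 := by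
    show r0 ^ (3 + η) * r0 ^ (1 - η) = r0 ^ 4
    rw [← Real.rpow_add hr0p, ← Real.rpow_natCast]
    congr 1
    norm_num
  have hsi : 0 < s⁻¹ := inv_pos.2 hs
  have w1 : 1 ≤ r0 ^ 4 := one_le_pow₀ hr0
  have w2 : r0 ^ 4 ≤ s ^ (-(4 : ℝ)) := by
    have a1 : r0 ≤ s⁻¹ := by linarith
    have a2 : r0 ^ 4 ≤ s⁻¹ ^ 4 := pow_le_pow_left₀ hr0p.le a1 4
    have a3 : s⁻¹ ^ 4 = s ^ (-(4 : ℝ)) := by
      rw [Real.rpow_neg hs.le, inv_pow, ← Real.rpow_natCast]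
      norm_num
    rw [← a3]
    exact a2
  have g1 : 1 ≤ s ^ (-g) := Real.one_le_rpow_of_pos_of_le_one_of_nonpos hs hs1 (by linarith)
  have g2 : s ^ (-g) ≤ s ^ (-(1 : ℝ)) := Real.rpow_le_rpow_of_exponent_ge hs hs1 (by linarith)
  have hc : ((C + 5 : ℕ) : ℝ) = (C : ℝ) + 5 := by push_cast; ring
  have p0 : 0 < s ^ (-g) := Real.rpow_pos_of_pos hs _
  rw [hw, hc]
  constructor
  · refine le_trans ?_ h1
    have b1 : s ^ (-g) * bq * r0 ^ 4 ≤ s ^ (-(1 : ℝ)) * bq * s ^ (-(4 : ℝ)) :=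
      mul_le_mul (mul_le_mul_of_nonneg_right g2 hbq.le) w2 (by positivity) (by positivity)
    have b2 : s ^ ((C : ℝ) + 5) * (s ^ (-(1 : ℝ)) * bq * s ^ (-(4 : ℝ))) = s ^ (C : ℝ) * bq := by
      have : s ^ ((C : ℝ) + 5) * (s ^ (-(1 : ℝ)) * bq * s ^ (-(4 : ℝ))) = (s ^ ((C : ℝ) + 5) * s ^ (-(1 : ℝ)) * s ^ (-(4 : ℝ))) * bq := by ring
      rw [this, ← Real.rpow_add hs, ← Real.rpow_add hs]
      congr 2
      ring
    rw [← b2]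
    exact mul_le_mul_of_nonneg_left b1 (Real.rpow_pos_of_pos hs _).le
  · refine h2.trans ?_
    have c1 : s ^ (-(C : ℝ)) ≤ s ^ (-((C : ℝ) + 5)) := Real.rpow_le_rpow_of_exponent_ge hs hs1 (by linarith)
    have c2 : bq ≤ s ^ (-g) * bq * r0 ^ 4 := by
      have : 1 * bq * 1 ≤ s ^ (-g) * bq * r0 ^ 4 :=
        mul_le_mul (mul_le_mul_of_nonneg_right g1 hbq.le) w1 (by norm_num) (by positivity)
      linarith
    exact mul_le_mul c1 c2 hbq.le (Real.rpow_pos_of_pos hs _).le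

/-- LEAF `L-256-FZ-AI-N3`.   **the Planck parameter in the frame.**   UPPER: `Hf / a ≤ s 2^(C+10) ≤ 1` (`a⁻¹ ≤ 2^(C+10)` from `ha1`), `r0² ≥ 1`.
LOWER: `Hf / a ≥ s^C / 2^(C+10) ≥ s^C s = s^(C+1)`, `1 / r0² ≥ 16 s² ≥ s²`: `≥ s^(C+3) ≥ s^(C+5)`. -/
theorem fz_ai_num_H {s Hf a r0 : ℝ} {C : ℕ} (hs : 0 < s) (hs1 : s ≤ 1) (hr0 : 1 ≤ r0) (hr1 : r0 ≤ s⁻¹ / 4) (ha1 : (2 : ℝ)⁻¹ ^ (C + 10) ≤ a) (ha2 : a ≤ 2 ^ (C + 10))
    (hC : (2 : ℝ) ^ (C + 10) ≤ s⁻¹) (h1 : s ^ (C : ℝ) ≤ Hf) (h2 : Hf ≤ s) :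
    s ^ ((C + 5 : ℕ) : ℝ) ≤ Hf / a * 2 ^ 0 / r0 ^ 2 ∧ Hf / a * 2 ^ 0 / r0 ^ 2 ≤ 1 := by
  rw [Real.rpow_natCast] at h1 ⊢
  obtain ⟨K, hK⟩ : ∃ K : ℝ, K = 2 ^ (C + 10) := ⟨_, rfl⟩
  have hK0 : 0 < K := by rw [hK]; positivity
  rw [inv_pow, ← hK] at ha1
  rw [← hK] at ha2 hC
  have ha0 : 0 < a := lt_of_lt_of_le (inv_pos.2 hK0) ha1
  have hsK : s * K ≤ 1 := by
    have := mul_le_mul_of_nonneg_left hC hs.le
    rwa [mul_inv_cancel₀ hs.ne'] at this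
  have hsa : s * a ≤ 1 := (mul_le_mul_of_nonneg_left ha2 hs.le).trans hsK
  have hsKi : s ≤ K⁻¹ := by
    rw [le_inv_comm₀ hs hK0]
    exact hC
  have hr2 : 1 ≤ r0 ^ 2 := by nlinarith
  have hr20 : 0 < r0 ^ 2 := by positivity
  have hsr : s * r0 ≤ 1 / 4 := by
    have := mul_le_mul_of_nonneg_left hr1 hs.le
    rwa [mul_div_assoc', mul_inv_cancel₀ hs.ne'] at this
  have hsr0 : 0 ≤ s * r0 := by positivity
  have hsC : 0 < s ^ C := by positivity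
  rw [pow_zero, mul_one]
  constructor
  · rw [le_div_iff₀ hr20, le_div_iff₀ ha0]
    have e : s ^ (C + 5) * r0 ^ 2 * a = s ^ C * (s ^ 2 * ((s * r0) ^ 2 * (s * a))) := by ring
    rw [e]
    have b1 : (s * r0) ^ 2 ≤ 1 := by nlinarith
    have b2 : s ^ 2 ≤ 1 := by nlinarith
    have b3 : (s * r0) ^ 2 * (s * a) ≤ 1 := by
      have := mul_le_mul b1 hsa (by positivity) zero_le_one
      linarith
    have b4 : s ^ 2 * ((s * r0) ^ 2 * (s * a)) ≤ 1 := by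
      have := mul_le_mul b2 b3 (by positivity) zero_le_one
      linarith
    have := mul_le_mul_of_nonneg_left b4 hsC.le
    linarith
  · rw [div_le_one hr20]
    refine le_trans ?_ hr2
    rw [div_le_one ha0]
    exact h2.trans (hsKi.trans ha1)

/-- LEAF `L-256-FZ-AI-N4`.   **the uncertainty floor of the enlarged labels.**   `(fzHy P a).dl n = √(P.Hf / a * 2^n)`, `P.Hf = P.H / P.fs²`, `rdD H n = √(H / rdLen n)`, `rdLen n = (2⁻¹)^n`.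
`Real.sqrt_le_iff` / `Real.sqrt_le_left`: it suffices `P.H / P.fs² / a * 2^n ≤ (Λ f)²`.   From `hu`: `P.H * 2^n = P.H / rdLen n ≤ (P.fs f)²` (`Real.sqrt_le_left`, `Real.sqrt_le_sqrt`, `0 ≤ P.fs * f`), so `P.H / P.fs² * 2^n ≤ f²`;
`a⁻¹ ≤ 2^(C+10) ≤ Λ ≤ Λ²`. -/
theorem fz_ai_num_unc (P : FzP) (hP : P.Ok) {a Λ f : ℝ} {C n : ℕ} (ha : 0 < a) (ha1 : (2 : ℝ)⁻¹ ^ (C + 10) ≤ a) (hΛ : (2 : ℝ) ^ (C + 10) ≤ Λ) (hf : 0 < f)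
    (hu : rdD P.H n ≤ P.fs * f) : (fzHy P a).dl n ≤ Λ * f := by
  have hfs := hP.fs_pos
  obtain ⟨K, hK⟩ : ∃ K : ℝ, K = 2 ^ (C + 10) := ⟨_, rfl⟩
  have hK1 : 1 ≤ K := by rw [hK]; exact one_le_pow₀ (by norm_num)
  have hK0 : 0 < K := by linarith
  rw [inv_pow, ← hK] at ha1
  rw [← hK] at hΛ
  have hΛ1 : 1 ≤ Λ := hK1.trans hΛ
  have haK : 1 ≤ K * a := by
    have := mul_le_mul_of_nonneg_left ha1 hK0.le
    rwa [mul_inv_cancel₀ hK0.ne'] at this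
  have hΛa : 1 ≤ Λ ^ 2 * a := by
    have b1 : K * a ≤ Λ * a := mul_le_mul_of_nonneg_right hΛ ha.le
    have b2 : Λ * a ≤ Λ ^ 2 * a := mul_le_mul_of_nonneg_right (by nlinarith) ha.le
    linarith
  have h1 : P.H / rdLen n ≤ (P.fs * f) ^ 2 := by
    unfold rdD at hu
    exact (Real.sqrt_le_iff.1 hu).2
  have e : P.H / rdLen n = P.H * 2 ^ n := by
    unfold rdLen
    rw [inv_pow, div_inv_eq_mul]
  rw [e] at h1
  show Real.sqrt (P.Hf / a * 2 ^ n) ≤ Λ * f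
  rw [Real.sqrt_le_iff]
  refine ⟨by positivity, ?_⟩
  unfold FzP.Hf
  have e2 : P.H / P.fs ^ 2 / a * 2 ^ n = (P.H * 2 ^ n) / (P.fs ^ 2 * a) := by
    field_simp
  rw [e2, div_le_iff₀ (by positivity)]
  have e3 : (Λ * f) ^ 2 * (P.fs ^ 2 * a) = (P.fs * f) ^ 2 * (Λ ^ 2 * a) := by ring
  rw [e3]
  have := mul_le_mul_of_nonneg_left hΛa (sq_nonneg (P.fs * f))
  linarith

/-- LEAF `L-256-FZ-AI-N5`.   **the final exponent.**   `s = 2^(-n)` in the form `hs : ∀ y, s^y = 2^(-(y n))`.   `√(s^(-g) bq) = 2^(g n / 2) √bq` (`Real.sqrt_mul`, `gn_two_sqrt`);   `2^x 2^y = 2^(x+y)` (`gn_two_add`), `gn_two_mono`: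
`-((1/2 - Gm - γ/2) n) + g n / 2 ≤ -((1/2 - Γc - γ) n)` because `Gm ≤ Γc`, `g ≤ γ`, `n ≥ 0` (`nlinarith`). -/
theorem fz_ai_num_fin {s e bq g γ Gm Γc : ℝ} {n : ℕ} (hs : ∀ y : ℝ, s ^ y = 2 ^ (-(y * n))) (he : 0 ≤ e) (hbq : 0 ≤ bq) (hg : g ≤ γ) (hG : Gm ≤ Γc) :
    2 ^ (-((1 / 2 - Gm - γ / 2) * n)) * e * Real.sqrt (s ^ (-g) * bq) ≤ 2 ^ (-((1 / 2 - Γc - γ) * n)) * e * Real.sqrt bq := by
  have hn : (0 : ℝ) ≤ n := Nat.cast_nonneg n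
  rw [hs, Real.sqrt_mul (gn_two_pos _).le, gn_two_sqrt]
  have e1 : (2 : ℝ) ^ (-((1 / 2 - Gm - γ / 2) * n)) * e * (2 ^ (-(-g * n) / 2) * Real.sqrt bq)
      = 2 ^ (-((1 / 2 - Gm - γ / 2) * n) + -(-g * n) / 2) * (e * Real.sqrt bq) := by
    rw [gn_two_add]
    ring
  rw [e1, mul_assoc]
  refine mul_le_mul_of_nonneg_right (gn_two_mono ?_) (mul_nonneg he (Real.sqrt_nonneg _))
  have a1 : Gm * n ≤ Γc * n := mul_le_mul_of_nonneg_right hG hn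
  have a2 : g * n ≤ γ * n := mul_le_mul_of_nonneg_right hg hn
  nlinarith

/-- LEAF `L-256-FZ-AI-N6`.   positivity of the widths of a bounded test:   `fzBd M Q` contains `M⁻¹ ≤ Q.r`, `M⁻¹ ≤ Q.f`; `inv_pos`. -/
theorem fz_ai_bd_pos {M : ℝ} {Q : CyT} (hM : 0 < M) (h : fzBd M Q) : 0 < Q.r ∧ 0 < Q.f := by
  obtain ⟨-, -, -, h1, -, h2, -, -⟩ := h
  exact ⟨lt_of_lt_of_le (inv_pos.2 hM) h1, lt_of_lt_of_le (inv_pos.2 hM) h2⟩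

/-! ## the glue -/

/-- exact base support of the hybrid state in the unit box of the frame -/
theorem fz_ai_base (η : ℝ) (P : FzP) (hP : P.Ok) {a : ℝ} (ha : 0 < a) {r0 : ℝ} (hr0 : 1 ≤ r0) (G : Lp ℂ 2 (volume : Measure RdWvPar.Mo)) :
    ((fzHy P a).sys η).ms 0 0 0 {x | 1 < cyBaseSz (fzFr r0) 1 ((fzHy P a).co 0 x)} (fzSt P a r0 G) = 0 := by
  have hp := fz_hy_ok P hP a ha
  have hU : MeasurableSet (fzBand a ∩ fzBox r0) := (fz_ai_meas_box a r0).1.inter (fz_ai_meas_box a r0).2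
  have h1 := fz_ai_supp η P hP ha (fzBand a ∩ fzBox r0) hU (fzW P G) 0 0 0
  have hm : MeasurableSet {x : FzOm × ℝ × ℝ | x.1 ∉ fzBand a ∩ fzBox r0} := (measurable_fst hU).compl
  have h2 := gn_ms_mono (P := (fzHy P a).sys η) 0 0 0 (hy_tg_base_meas (fzHy P a) hp (fzFr r0) 1 0 1) hm (fun x hx hc => ?_) (fzSt P a r0 G)
  · exact le_antisymm (h2.trans (le_of_eq h1)) (gn_ms_nonneg _ _ _ _ _)
  · have h3 : x.1 ∈ fzBoxT 0 r0 := by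
      rw [fz_g_boxT_zero]
      exact hc.2
    exact absurd (fz_g_box (P := P) (a := a) hr0 le_rfl h3) (not_le.2 hx)

/-- **IN** -/
theorem fz_ai_in (η Γc : ℝ) (h0 : 0 < η) (h1 : η < 1) (hT : CyTrRate (sfHy η)) (hG : (cylHyb η).Gam ≤ Γc)
    (hWs : ∀ P : FzP, P.Ok → ∀ G, (fzW P G : FzOm × ℝ → ℂ) =ᵐ[(volume : Measure FzOm).prod (volume : Measure ℝ)] P.wf G)
    (γ Ds : ℝ) (hγ : 0 < γ) (hDs : 0 < Ds) :
    ∃ Dt Zf : ℝ, 0 < Dt ∧ ∀ g0 g1 : ℝ, 0 < g0 → g0 ≤ 1 → 0 < g1 → g1 ≤ 1 → ∀ C : ℕ, ∃ A n0 : ℕ,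
      ∀ d : FzDat, n0 ≤ d.n → d.Ok η C A Ds Dt g0 → d.fs ≤ d.s ^ Zf →
        ∀ (j : Fin (2 * C + 20)) (θ : Fin d.L → FzOm × ℝ × ℝ → ℝ), d.Asg (d.P (fzS Ds)) (fzA C j) (d.s ^ (-g1)) θ →
          (d.xp η (d.P (fzS Ds)) (fzA C j) (d.s ^ (-g0) / 4) (d.s ^ (-g1)) θ).rd ≤ 2 ^ (-((1 / 2 - Γc - γ) * d.n)) * d.e * Real.sqrt d.bq := by
  obtain ⟨D1, hD1, H1⟩ := hT (Ds + 4) (by linarith)
  have hS : 2 ≤ fzS Ds := by unfold fzS; linarith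
  obtain ⟨g, hg⟩ : ∃ g : ℝ, g = min γ (1 / 4) := ⟨_, rfl⟩
  have hg0 : 0 < g := by rw [hg]; exact lt_min hγ (by norm_num)
  have hg4 : g ≤ 1 / 4 := by rw [hg]; exact min_le_right _ _
  have hgγ : g ≤ γ := by rw [hg]; exact min_le_left _ _
  obtain ⟨Zf1, R1⟩ := fz_du_reg η h0 h1 (fzS Ds) D1 g hS hD1 hg0 hg4
  obtain ⟨Zf2, R2⟩ := fz_du_tail (fzS Ds) hS
  refine ⟨D1 + 3, max Zf1 Zf2, by linarith, fun g0 g1 hg00 hg01 hg10 hg11 C => ?_⟩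
  obtain ⟨ε1, Ac, nc, hε1, H2⟩ := H1 (C + 5) (γ / 2) (by linarith)
  obtain ⟨A1, n1, R1⟩ := R1 g0 hg00 hg01 C
  obtain ⟨A2, n2, R2⟩ := R2 g0 hg00 hg01 C Ac
  obtain ⟨n3, B3⟩ := fz_ai_big 4 g0 hg00
  obtain ⟨n4, B4⟩ := fz_ai_big (2 ^ (C + 10)) g1 hg10
  obtain ⟨n5, B5⟩ := fz_ai_big (2 ^ (C + 10)) 1 one_pos
  refine ⟨max A1 A2, max (max (max n1 n2) (max n3 n4)) (max (max n5 nc) 1), fun d hn hOk hfs j θ hθ => ?_⟩
  have hn1 : n1 ≤ d.n := le_trans (le_trans (le_trans (le_max_left _ _) (le_max_left _ _)) (le_max_left _ _)) hn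
  have hn2 : n2 ≤ d.n := le_trans (le_trans (le_trans (le_max_right _ _) (le_max_left _ _)) (le_max_left _ _)) hn
  have hn3 : n3 ≤ d.n := le_trans (le_trans (le_trans (le_max_left _ _) (le_max_right _ _)) (le_max_left _ _)) hn
  have hn4 : n4 ≤ d.n := le_trans (le_trans (le_trans (le_max_right _ _) (le_max_right _ _)) (le_max_left _ _)) hn
  have hn5 : n5 ≤ d.n := le_trans (le_trans (le_trans (le_max_left _ _) (le_max_left _ _)) (le_max_right _ _)) hn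
  have hnc : nc ≤ d.n := le_trans (le_trans (le_trans (le_max_right _ _) (le_max_left _ _)) (le_max_right _ _)) hn
  have hn7 : 1 ≤ d.n := le_trans (le_trans (le_max_right _ _) (le_max_right _ _)) hn
  have hs := fz_ai_s_pos d
  have hs1 := fz_ai_s_le_one d
  have hs2 := fz_ai_s_half d hn7
  have hOk1 := fz_ai_ok_mono hOk (le_max_left A1 A2)
  have hOk2 := fz_ai_ok_mono hOk (le_max_right A1 A2)
  have hfs1 : d.fs ≤ d.s ^ Zf1 := hfs.trans (fz_ai_s_anti d (le_max_left _ _))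
  have hfs2 : d.fs ≤ d.s ^ Zf2 := hfs.trans (fz_ai_s_anti d (le_max_right _ _))
  have hP : (d.P (fzS Ds)).Ok := fz_du_P_ok d hOk (fzS Ds)
  obtain ⟨ha, ha1, ha2⟩ := fz_ai_A C j
  obtain ⟨hr0, hr1⟩ := fz_ai_r0 hs hs1 hg01 (B3 d hn3)
  have hr0p : 0 < d.s ^ (-g0) / 4 := lt_of_lt_of_le one_pos hr0
  have hp := fz_hy_ok (d.P (fzS Ds)) hP (fzA C j) ha
  have ht : tmL 0 0 = 0 := by simp [tmL]
  -- crude regularity
  obtain ⟨ka, hka, hreg0⟩ := fz_g_reg0 η h0 h1 (d.P (fzS Ds)) hP (hWs _ hP) (fzA C j) ha (fzBox (d.s ^ (-g0) / 4))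
    (fz_ai_meas_box (fzA C j) (d.s ^ (-g0) / 4)).2 d.G 0 0 0
  -- labels
  have hM : 0 < d.s ^ (-Ds) := Real.rpow_pos_of_pos hs _
  have hΛ0 : 0 < d.s ^ (-g1) := Real.rpow_pos_of_pos hs _
  have hΛ1 : 1 ≤ d.s ^ (-g1) := Real.one_le_rpow_of_pos_of_le_one_of_nonpos hs hs1 (by linarith)
  have hΛ2 : d.s ^ (-g1) ≤ d.s⁻¹ := by
    rw [← Real.rpow_neg_one]
    exact fz_ai_s_anti d (by linarith)
  have hval := fz_ai_valid η d (d.P (fzS Ds)) hP ha (d.s ^ (-g0) / 4) (d.s ^ (-g1)) ka θ hOk.e_pos hOk.budget hOk.iv_in hka hreg0 hθ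
    (fun l => (fz_ai_bd_pos hM (hOk.tc_bd l)).1) (fun l => mul_pos hΛ0 (fz_ai_bd_pos hM (hOk.tc_bd l)).2)
    (fun l => fz_ai_num_unc (d.P (fzS Ds)) hP ha ha1 (B4 d hn4) (fz_ai_bd_pos hM (hOk.tc_bd l)).2 (hOk.tc_unc l))
  have hb : 0 < d.s ^ (-g) * d.bq := mul_pos (Real.rpow_pos_of_pos hs _) hOk.bq_pos
  obtain ⟨e1, e2⟩ := fz_ai_num_e (η := η) (g := g) (C := C) hs hs1 hOk.bq_pos hg0.le (by linarith) hr0 hr1 hOk.e_lo hOk.e_hi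
  have hC : (2 : ℝ) ^ (C + 10) ≤ d.s⁻¹ := by
    rw [← Real.rpow_neg_one]
    exact B5 d hn5
  have hPl := fz_ai_num_H (C := C) hs hs1 hr0 hr1 ha1 ha2 hC hOk.H_lo hOk.H_hi
  have hbase : ((fzHy (d.P (fzS Ds)) (fzA C j)).sys η).ms (tmL 0 0) 0 0
      {x | 1 < cyBaseSz (fzFr (d.s ^ (-g0) / 4)) ((2 : ℝ)⁻¹ ^ 0) ((fzHy (d.P (fzS Ds)) (fzA C j)).co (tmL 0 0) x)}
      (fzSt (d.P (fzS Ds)) (fzA C j) (d.s ^ (-g0) / 4) d.G) = 0 := by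
    rw [ht, pow_zero]
    exact fz_ai_base η _ hP ha hr0 d.G
  have htail : ((fzHy (d.P (fzS Ds)) (fzA C j)).sys η).ms (tmL 0 0) 0 0
      {x | d.s ^ (-ε1) < cyNorSz (fzFr (d.s ^ (-g0) / 4)) ((2 : ℝ)⁻¹ ^ 0) ((fzHy (d.P (fzS Ds)) (fzA C j)).co (tmL 0 0) x)}
      (fzSt (d.P (fzS Ds)) (fzA C j) (d.s ^ (-g0) / 4) d.G) ≤ d.s ^ (Ac : ℝ) * d.e := by
    rw [ht, pow_zero]
    refine le_trans (gn_ms_mono _ _ _ (hy_tg_nor_meas _ hp _ _ _ _) (hy_tg_nor_meas _ hp _ _ _ _) (fun x hx => ?_) _) (R2 d η Ds (D1 + 3) j hn2 hOk2 hfs2)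
    exact lt_of_le_of_lt (Real.one_le_rpow_of_pos_of_le_one_of_nonpos hs hs1 (by linarith)) hx
  have hreg : ∀ Q : CyT, ((fzHy (d.P (fzS Ds)) (fzA C j)).sys η).ok Q 0 → CyTr (tmL 0 0) 0 (fzFr (d.s ^ (-g0) / 4)) (d.s ^ D1) Q →
      ((fzHy (d.P (fzS Ds)) (fzA C j)).sys η).ms (tmL 0 0) 0 0 (((fzHy (d.P (fzS Ds)) (fzA C j)).sys η).cell Q (tmL 0 0) 0)
        (fzSt (d.P (fzS Ds)) (fzA C j) (d.s ^ (-g0) / 4) d.G) ≤ d.s ^ (-g) * d.bq * cyWt η Q := by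
    rw [ht]
    exact fun Q hQ hQ' => R1 d Ds j Q hn1 hOk1 hfs1 hQ hQ'
  have hlab : ∀ l : Fin d.L, CyBdd (d.s ^ (Ds + 4)) (cyNrm (tmL 0 0) 0 (fzFr (d.s ^ (-g0) / 4)) (tmL (0 + d.n) (d.iv l)) (fzEnl (d.s ^ (-g1)) (d.tc l))) := by
    intro l
    have hf := (fz_ai_bd_pos hM (hOk.tc_bd l)).2
    exact fz_g_bdd hs hs2 hDs (by linarith) hr1 (hOk.tc_bd l) (le_mul_of_one_le_left hf.le hΛ1) (mul_le_mul_of_nonneg_right hΛ2 hf.le)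
  have key := H2 (fzHy (d.P (fzS Ds)) (fzA C j)) { d.xp η (d.P (fzS Ds)) (fzA C j) (d.s ^ (-g0) / 4) (d.s ^ (-g1)) θ with ka := ka }
    (fzFr (d.s ^ (-g0) / 4)) (d.s ^ (-g) * d.bq) hp hnc hval (Nat.zero_le _)
    ⟨Nat.zero_le _, Nat.zero_le _, fun σ hσ => absurd hσ List.not_mem_nil⟩ hr0p hr0p hb e1 e2 (fun _ => hPl) hbase htail hreg hlab
  exact le_trans key (fz_ai_num_fin (fz_ai_s_rpow d) hOk.e_pos.le hOk.bq_pos.le hgγ hG)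

end Claimed.Agent.R256
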