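-- KEEP
import Claimed.Agent.R256.Rt.XaContract
import Claimed.Agent.R256.Rt.Cap
import Claimed.Agent.R256.Base.Sys

/-!
# Row 256 (LS paper), folder Fz, unit FZ-OUT, file AsmOutGen : PAPER-FREE TOOLS OF THE ASSEMBLY          (architect helper199; chief helper207; prefix `fz_ao_`, `fz_cell_`)          CONTRACT FILE

Mathlib + `Rt/XaContract` (`RtXf`, `RtAsg`) + `Rt/Cap` (`rt_cap_two`, `rt_cap_label`).      Every `sorry` is a leaf `L-256-FZ-AO-*`; prove IN PLACE, statements verbatim.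
* `fz_cell_xf`      **CELL** in INDEX FORM (owner helper188): a linear contraction `Cop : L²(Z') → L²(Z)`, cell index maps `c : Z → ι`, `c' : Z' → κ` with measurable fibres, neighbours `Nb`, degree `≤ Dg`,
                    off-diagonal bound `∫_{c⁻¹ i ∩ Z0} |Cop F|² ≤ τ ‖F‖²` for `F = 0` a.e. on the neighbours of `i`   ⟹   transfer `RtXf` from `|Cop w|²` to `|w|²` on `Z0`, `A = 2 Dg`, `ε = 2 #ι τ ‖w‖²`.
* `fz_ao_slice`     transfers in every time slice ⟹ REAL valued assignments for labels with time indices (`iv l < N`); Bochner integrals.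
* `fz_ao_sum_sq`    `∫ θ |Σ_i x_i|² ≤ #ι Σ_i ∫ θ |x_i|²`.
* `fz_ao_lab_sum`   `Σ_l ∫ θ_l |x_(iv l)|² ≤ Σ_(i<N) ‖x_i‖²` for a fractional assignment in every slice.
-/

set_option autoImplicit false

namespace Claimed.Agent.R256

open MeasureTheory
open scoped ENNReal

section

variable {Z Z' : Type} [MeasurableSpace Z] [MeasurableSpace Z']

theorem fz_ce_norm_sq {μ : Measure Z} (f : Lp ℂ 2 μ) : ENNReal.ofReal (‖f‖ ^ 2) = ∫⁻ x, ‖(f : Z → ℂ) x‖ₑ ^ 2 ∂μ := by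
  rw [Lp.norm_def, ENNReal.ofReal_pow ENNReal.toReal_nonneg, ENNReal.ofReal_toReal (Lp.eLpNorm_ne_top f),
    eLpNorm_eq_lintegral_rpow_enorm_toReal (by norm_num) (by norm_num)]
  simp only [ENNReal.toReal_ofNat, ENNReal.rpow_two]
  rw [← ENNReal.rpow_natCast, ← ENNReal.rpow_mul]
  norm_num

theorem fz_ce_aem {μ : Measure Z} (f : Lp ℂ 2 μ) : AEMeasurable (fun x => ‖(f : Z → ℂ) x‖ₑ ^ 2) μ :=
  (Lp.aestronglyMeasurable f).enorm.pow_const 2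

/-- the restriction of an `L²` function to a measurable set -/
theorem fz_ce_ind {μ : Measure Z} (f : Lp ℂ 2 μ) (A : Set Z) (hA : MeasurableSet A) :
    ∃ g : Lp ℂ 2 μ, (g : Z → ℂ) =ᵐ[μ] A.indicator (f : Z → ℂ) ∧ ENNReal.ofReal (‖g‖ ^ 2) = ∫⁻ x in A, ‖(f : Z → ℂ) x‖ₑ ^ 2 ∂μ := by
  refine ⟨((Lp.memLp f).indicator hA).toLp (A.indicator f), ((Lp.memLp f).indicator hA).coeFn_toLp, ?_⟩
  rw [fz_ce_norm_sq, ← lintegral_indicator hA]
  refine lintegral_congr_ae ?_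
  filter_upwards [((Lp.memLp f).indicator hA).coeFn_toLp] with x hx
  rw [hx]
  by_cases hxA : x ∈ A
  · simp [hxA]
  · simp [hxA]

theorem fz_ce_set_int {μ : Measure Z} (f : Lp ℂ 2 μ) (S : Set Z) :
    ENNReal.ofReal (∫ z in S, ‖(f : Z → ℂ) z‖ ^ 2 ∂μ) = ∫⁻ z in S, ‖(f : Z → ℂ) z‖ₑ ^ 2 ∂μ := by
  have hint : Integrable (fun z => ‖(f : Z → ℂ) z‖ ^ 2) μ := (Lp.memLp f).integrable_norm_pow (by norm_num)
  rw [ofReal_integral_eq_lintegral_ofReal hint.integrableOn (Filter.Eventually.of_forall fun z => by positivity)]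
  refine lintegral_congr fun z => ?_
  rw [ENNReal.ofReal_pow (norm_nonneg _), ofReal_norm]

/-- a function of an index map with measurable fibres is measurable -/
theorem fz_ce_meas {κ : Type} [Fintype κ] (c' : Z' → κ) (hc' : ∀ j, MeasurableSet (c' ⁻¹' {j})) (g : κ → ℝ≥0∞) :
    Measurable fun z' => g (c' z') := by
  intro s _
  have e : (fun z' => g (c' z')) ⁻¹' s = ⋃ j ∈ {j | g j ∈ s}, c' ⁻¹' {j} := by
    ext z'
    simp
  rw [e]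
  exact MeasurableSet.biUnion (Set.to_countable _) fun j _ => hc' j

/-- integration fibre by fibre -/
theorem fz_ce_fib {κ : Type} [Fintype κ] [DecidableEq κ] {μ : Measure Z'} (c' : Z' → κ) (hc' : ∀ j, MeasurableSet (c' ⁻¹' {j}))
    (E : Z' → ℝ≥0∞) (hE : AEMeasurable E μ) : ∫⁻ z', E z' ∂μ = ∑ j, ∫⁻ z' in c' ⁻¹' {j}, E z' ∂μ := by
  have e : ∀ z', E z' = ∑ j, (c' ⁻¹' {j}).indicator E z' := by
    intro z'
    rw [Finset.sum_eq_single (c' z')]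
    · simp
    · intro j _ hj
      refine Set.indicator_of_notMem ?_ _
      intro h
      exact hj (by simpa using h.symm)
    · intro h
      exact absurd (Finset.mem_univ _) h
  calc ∫⁻ z', E z' ∂μ = ∫⁻ z', ∑ j, (c' ⁻¹' {j}).indicator E z' ∂μ := lintegral_congr e
    _ = ∑ j, ∫⁻ z', (c' ⁻¹' {j}).indicator E z' ∂μ := lintegral_finsetSum' _ fun j _ => hE.indicator (hc' j)
    _ = _ := Finset.sum_congr rfl fun j _ => lintegral_indicator (hc' j) _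

/-- the cell inequality -/
theorem fz_ce_cell {ζ : Measure Z} {ζ' : Measure Z'} {κ : Type} [Fintype κ] [DecidableEq κ]
    (Cop : Lp ℂ 2 ζ' → Lp ℂ 2 ζ) (hlin : ∀ (F F' : Lp ℂ 2 ζ') (a : ℂ), Cop (F + a • F') = Cop F + a • Cop F') (hcon : ∀ F, ‖Cop F‖ ≤ ‖F‖)
    (c' : Z' → κ) (hc' : ∀ j, MeasurableSet (c' ⁻¹' {j})) (S : Set Z) (N : Finset κ) (τ : ℝ) (hτ : 0 ≤ τ)
    (hoff : ∀ F : Lp ℂ 2 ζ', (∀ᵐ z' ∂ζ', c' z' ∈ N → (F : Z' → ℂ) z' = 0) → ∫ z in S, ‖(Cop F : Z → ℂ) z‖ ^ 2 ∂ζ ≤ τ * ‖F‖ ^ 2)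
    (w : Lp ℂ 2 ζ') :
    ∫⁻ z in S, ‖(Cop w : Z → ℂ) z‖ₑ ^ 2 ∂ζ
      ≤ 2 * ∑ j ∈ N, ∫⁻ z' in c' ⁻¹' {j}, ‖(w : Z' → ℂ) z'‖ₑ ^ 2 ∂ζ' + ENNReal.ofReal (2 * τ * ‖w‖ ^ 2) := by
  obtain ⟨A, hAdef⟩ : ∃ A : Set Z', A = ⋃ j ∈ N, c' ⁻¹' {j} := ⟨_, rfl⟩
  have hA : MeasurableSet A := by
    rw [hAdef]
    exact Finset.measurableSet_biUnion _ fun j _ => hc' j
  have hmem : ∀ z', z' ∈ A ↔ c' z' ∈ N := by
    intro z'
    rw [hAdef]
    simp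
  obtain ⟨w1, h1a, h1n⟩ := fz_ce_ind w A hA
  obtain ⟨w2, h2a, h2n⟩ := fz_ce_ind w Aᶜ hA.compl
  have hw : w1 + (1 : ℂ) • w2 = w := by
    rw [one_smul]
    apply Lp.ext
    filter_upwards [Lp.coeFn_add w1 w2, h1a, h2a] with z' e1 e2 e3
    rw [e1, Pi.add_apply, e2, e3]
    by_cases hz : z' ∈ A
    · simp [hz]
    · simp [hz]
  have hC : Cop w = Cop w1 + Cop w2 := by
    calc Cop w = Cop (w1 + (1 : ℂ) • w2) := by rw [hw]
      _ = Cop w1 + (1 : ℂ) • Cop w2 := hlin _ _ _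
      _ = _ := by rw [one_smul]
  have hae : ∀ᵐ z ∂ζ, (Cop w : Z → ℂ) z = (Cop w1 : Z → ℂ) z + (Cop w2 : Z → ℂ) z := by
    rw [hC]
    filter_upwards [Lp.coeFn_add (Cop w1) (Cop w2)] with z hz
    rw [hz, Pi.add_apply]
  -- the near part
  have p1 : ∫⁻ z in S, ‖(Cop w1 : Z → ℂ) z‖ₑ ^ 2 ∂ζ ≤ ∑ j ∈ N, ∫⁻ z' in c' ⁻¹' {j}, ‖(w : Z' → ℂ) z'‖ₑ ^ 2 ∂ζ' := by
    calc ∫⁻ z in S, ‖(Cop w1 : Z → ℂ) z‖ₑ ^ 2 ∂ζ ≤ ∫⁻ z, ‖(Cop w1 : Z → ℂ) z‖ₑ ^ 2 ∂ζ := setLIntegral_le_lintegral _ _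
      _ = ENNReal.ofReal (‖Cop w1‖ ^ 2) := (fz_ce_norm_sq _).symm
      _ ≤ ENNReal.ofReal (‖w1‖ ^ 2) := ENNReal.ofReal_le_ofReal (pow_le_pow_left₀ (norm_nonneg _) (hcon _) 2)
      _ = ∫⁻ z' in A, ‖(w : Z' → ℂ) z'‖ₑ ^ 2 ∂ζ' := h1n
      _ = _ := by
          rw [hAdef]
          refine lintegral_biUnion_finset ?_ (fun j _ => hc' j) _
          intro j _ j' _ hjj
          refine Set.disjoint_left.2 fun z' h1 h2 => hjj ?_
          have e1 : c' z' = j := by simpa using h1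
          have e2 : c' z' = j' := by simpa using h2
          rw [← e1, e2]
  -- the far part
  have hw2 : ‖w2‖ ^ 2 ≤ ‖w‖ ^ 2 := by
    have : ENNReal.ofReal (‖w2‖ ^ 2) ≤ ENNReal.ofReal (‖w‖ ^ 2) := by
      rw [h2n, fz_ce_norm_sq]
      exact setLIntegral_le_lintegral _ _
    exact (ENNReal.ofReal_le_ofReal_iff (by positivity)).1 this
  have p2 : ∫⁻ z in S, ‖(Cop w2 : Z → ℂ) z‖ₑ ^ 2 ∂ζ ≤ ENNReal.ofReal (τ * ‖w‖ ^ 2) := by
    rw [← fz_ce_set_int]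
    refine ENNReal.ofReal_le_ofReal ((hoff w2 ?_).trans (mul_le_mul_of_nonneg_left hw2 hτ))
    filter_upwards [h2a] with z' hz hN
    rw [hz]
    exact Set.indicator_of_notMem (fun (h : z' ∈ Aᶜ) => h ((hmem z').2 hN)) _
  calc ∫⁻ z in S, ‖(Cop w : Z → ℂ) z‖ₑ ^ 2 ∂ζ
      ≤ ∫⁻ z in S, (2 * ‖(Cop w1 : Z → ℂ) z‖ₑ ^ 2 + 2 * ‖(Cop w2 : Z → ℂ) z‖ₑ ^ 2) ∂ζ := by
        refine lintegral_mono_ae (ae_restrict_of_ae ?_)
        filter_upwards [hae] with z hz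
        rw [hz]
        refine le_trans ?_ (rt_xa_ker_sq _ _)
        gcongr
        exact enorm_add_le _ _
    _ = 2 * ∫⁻ z in S, ‖(Cop w1 : Z → ℂ) z‖ₑ ^ 2 ∂ζ + 2 * ∫⁻ z in S, ‖(Cop w2 : Z → ℂ) z‖ₑ ^ 2 ∂ζ := by
        rw [lintegral_add_left' ((fz_ce_aem (Cop w1)).restrict.const_mul 2), lintegral_const_mul'' _ (fz_ce_aem (Cop w1)).restrict,
          lintegral_const_mul'' _ (fz_ce_aem (Cop w2)).restrict]
    _ ≤ 2 * ∑ j ∈ N, ∫⁻ z' in c' ⁻¹' {j}, ‖(w : Z' → ℂ) z'‖ₑ ^ 2 ∂ζ' + 2 * ENNReal.ofReal (τ * ‖w‖ ^ 2) := by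
        gcongr
    _ = _ := by
        congr 1
        rw [mul_assoc, ENNReal.ofReal_mul (by norm_num : (0 : ℝ) ≤ 2)]
        simp

/-- cell inequalities ⟹ transfer (`rt_cap_label`) -/
theorem fz_ce_abs {ζ : Measure Z} {ζ' : Measure Z'} {ι κ : Type} [Fintype ι] [Fintype κ] [DecidableEq κ]
    (D : Z → ℝ≥0∞) (D' : Z' → ℝ≥0∞) (hDm : AEMeasurable D ζ) (hDm' : AEMeasurable D' ζ') (hDf : ∫⁻ z, D z ∂ζ ≠ ∞) (hDf' : ∫⁻ z', D' z' ∂ζ' ≠ ∞)
    (c : Z → ι) (c' : Z' → κ) (hc : ∀ i, MeasurableSet (c ⁻¹' {i})) (hc' : ∀ j, MeasurableSet (c' ⁻¹' {j}))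
    (Z0 : Set Z) (hZ0 : MeasurableSet Z0) (Nb : ι → Finset κ) (Dg : ℕ) (hDg : 1 ≤ Dg)
    (hdeg : ∀ j, (Finset.univ.filter fun i => j ∈ Nb i).card ≤ Dg) (ε : ℝ) (hε : 0 ≤ ε)
    (hcell : ∀ i, ∫⁻ z in c ⁻¹' {i} ∩ Z0, D z ∂ζ ≤ 2 * ∑ j ∈ Nb i, ∫⁻ z' in c' ⁻¹' {j}, D' z' ∂ζ' + ENNReal.ofReal ε) :
    RtXf ζ D ζ' D' (fun z z' => c' z' ∈ Nb (c z)) Z0 (2 * (Dg : ℝ≥0∞)) (ENNReal.ofReal (Fintype.card ι * ε)) := by
  classical
  intro L θ hθ hcar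
  obtain ⟨X, hX⟩ : ∃ X : ι → ℝ≥0∞, X = fun i => ∫⁻ z in c ⁻¹' {i} ∩ Z0, D z ∂ζ := ⟨_, rfl⟩
  obtain ⟨Y, hY⟩ : ∃ Y : κ → ℝ≥0∞, Y = fun j => ∫⁻ z' in c' ⁻¹' {j}, D' z' ∂ζ' := ⟨_, rfl⟩
  obtain ⟨M, hM⟩ : ∃ M : Fin L → ι → ℝ≥0∞, M = fun l i => ∫⁻ z in c ⁻¹' {i} ∩ Z0, θ l z * D z ∂ζ := ⟨_, rfl⟩
  have hXf : ∀ i, X i ≠ ∞ := fun i => by
    rw [hX]
    exact ne_top_of_le_ne_top hDf (setLIntegral_le_lintegral _ _)
  have hYf : ∀ j, Y j ≠ ∞ := fun j => by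
    rw [hY]
    exact ne_top_of_le_ne_top hDf' (setLIntegral_le_lintegral _ _)
  have hMX : ∀ i, ∑ l, M l i ≤ X i := fun i => by
    rw [hM, hX]
    exact rt_xa_sum_le hθ hDm.restrict
  have hMf : ∀ l i, M l i ≠ ∞ := fun l i =>
    ne_top_of_le_ne_top (hXf i) ((Finset.single_le_sum (f := fun l => M l i) (fun _ _ => zero_le) (Finset.mem_univ l)).trans (hMX i))
  have hx : ∀ i, (X i).toReal ≤ 2 * ∑ j ∈ Nb i, (Y j).toReal + ε := fun i => by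
    have h1 : X i ≤ 2 * ∑ j ∈ Nb i, Y j + ENNReal.ofReal ε := by
      rw [hX, hY]
      exact hcell i
    have hs : ∑ j ∈ Nb i, Y j ≠ ∞ := ENNReal.sum_ne_top.2 fun j _ => hYf j
    have h2 := ENNReal.toReal_mono (ENNReal.add_ne_top.2 ⟨ENNReal.mul_ne_top (by simp) hs, ENNReal.ofReal_ne_top⟩) h1
    rw [ENNReal.toReal_add (ENNReal.mul_ne_top (by simp) hs) ENNReal.ofReal_ne_top, ENNReal.toReal_mul,
      ENNReal.toReal_sum fun j _ => hYf j, ENNReal.toReal_ofReal hε] at h2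
    simpa using h2
  have hm : ∀ i, ∑ l, (M l i).toReal ≤ (X i).toReal := fun i => by
    rw [← ENNReal.toReal_sum fun l _ => hMf l i]
    exact ENNReal.toReal_mono (hXf i) (hMX i)
  obtain ⟨a, e, ha0, hay, he0, hes, hsum, hcarr⟩ := rt_cap_label (fun i => (X i).toReal) (fun _ => ε) (fun j => (Y j).toReal) Nb 2 Dg
    (by norm_num) (by exact_mod_cast hDg) (fun j => ENNReal.toReal_nonneg) (fun _ => hε) hx (fun j => by exact_mod_cast hdeg j)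
    (fun l i => (M l i).toReal) (fun l i => ENNReal.toReal_nonneg) hm
  have haj : ∀ l j, a l j ≤ (Y j).toReal := fun l j =>
    (Finset.single_le_sum (f := fun l => a l j) (fun l _ => ha0 l j) (Finset.mem_univ l)).trans (hay j)
  -- the integral of the new weights
  have hR : ∀ l, ∫⁻ z', ENNReal.ofReal (a l (c' z') / (Y (c' z')).toReal) * D' z' ∂ζ' = ∑ j, ENNReal.ofReal (a l j) := fun l => by
    have hmm : AEMeasurable (fun z' => ENNReal.ofReal (a l (c' z') / (Y (c' z')).toReal) * D' z') ζ' :=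
      (fz_ce_meas c' hc' fun j => ENNReal.ofReal (a l j / (Y j).toReal)).aemeasurable.mul hDm'
    rw [fz_ce_fib c' hc' _ hmm]
    refine Finset.sum_congr rfl fun j _ => ?_
    have e1 : ∫⁻ z' in c' ⁻¹' {j}, ENNReal.ofReal (a l (c' z') / (Y (c' z')).toReal) * D' z' ∂ζ'
        = ∫⁻ z' in c' ⁻¹' {j}, ENNReal.ofReal (a l j / (Y j).toReal) * D' z' ∂ζ' := by
      refine setLIntegral_congr_fun (hc' j) fun z' hz' => ?_
      have : c' z' = j := by simpa using hz'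
      simp only [this]
    rw [e1, lintegral_const_mul'' _ hDm'.restrict]
    have e2 : ∫⁻ z' in c' ⁻¹' {j}, D' z' ∂ζ' = ENNReal.ofReal (Y j).toReal := by
      rw [ENNReal.ofReal_toReal (hYf j), hY]
    rw [e2, ← ENNReal.ofReal_mul (div_nonneg (ha0 l j) ENNReal.toReal_nonneg)]
    by_cases hy : (Y j).toReal = 0
    · have : a l j = 0 := le_antisymm (hy ▸ haj l j) (ha0 l j)
      rw [this, hy]
      simp
    · rw [div_mul_cancel₀ _ hy]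
  -- the integral of the old weights
  have hLs : ∀ l, ∫⁻ z, θ l z * D z ∂ζ = ∑ i, M l i := fun l => by
    have e1 : ∫⁻ z, θ l z * D z ∂ζ = ∫⁻ z in Z0, θ l z * D z ∂ζ := by
      rw [← lintegral_indicator hZ0]
      refine lintegral_congr fun z => ?_
      by_cases hz : z ∈ Z0
      · rw [Set.indicator_of_mem hz]
      · rw [Set.indicator_of_notMem hz]
        have : θ l z = 0 := by
          by_contra h0
          exact hz (hcar l z h0)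
        rw [this, zero_mul]
    rw [e1, fz_ce_fib c hc _ (rt_xa_aem hθ hDm l).restrict, hM]
    refine Finset.sum_congr rfl fun i _ => ?_
    rw [Measure.restrict_restrict (hc i)]
  refine ⟨fun l z' => ENNReal.ofReal (a l (c' z') / (Y (c' z')).toReal), fun l => ENNReal.ofReal (e l),
    ⟨fun l => fz_ce_meas c' hc' fun j => ENNReal.ofReal (a l j / (Y j).toReal), fun z' => ?_⟩, fun l z' hz' => ?_, fun l => ?_, ?_⟩
  · rw [← ENNReal.ofReal_sum_of_nonneg fun l _ => div_nonneg (ha0 l _) ENNReal.toReal_nonneg, ← Finset.sum_div]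
    exact ENNReal.ofReal_le_one.2 (div_le_one_of_le₀ (hay _) ENNReal.toReal_nonneg)
  · have h1 : a l (c' z') ≠ 0 := by
      intro h0
      apply hz'
      simp only [h0, zero_div, ENNReal.ofReal_zero]
    obtain ⟨i, hi, hN⟩ := hcarr l (c' z') h1
    have h2 : ∃ z ∈ c ⁻¹' {i} ∩ Z0, θ l z ≠ 0 := by
      by_contra hcon
      apply hi
      have h3 : M l i = 0 := by
        rw [hM]
        show ∫⁻ z in c ⁻¹' {i} ∩ Z0, θ l z * D z ∂ζ = 0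
        have : ∫⁻ z in c ⁻¹' {i} ∩ Z0, θ l z * D z ∂ζ = ∫⁻ z in c ⁻¹' {i} ∩ Z0, 0 ∂ζ := by
          refine setLIntegral_congr_fun ((hc i).inter hZ0) fun z hz => ?_
          have : θ l z = 0 := by
            by_contra h0
            exact hcon ⟨z, hz, h0⟩
          simp only [this, zero_mul]
        rw [this]
        simp
      simp only [h3, ENNReal.toReal_zero]
    obtain ⟨z, hz, hz0⟩ := h2
    have hci : c z = i := by simpa using hz.1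
    exact ⟨z, hz0, by show c' z' ∈ Nb (c z); rw [hci]; exact hN⟩
  · rw [hLs l, hR l]
    have e1 : ∑ i, M l i = ENNReal.ofReal (∑ i, (M l i).toReal) := by
      rw [ENNReal.ofReal_sum_of_nonneg fun i _ => ENNReal.toReal_nonneg]
      exact Finset.sum_congr rfl fun i _ => (ENNReal.ofReal_toReal (hMf l i)).symm
    rw [e1, hsum l, ENNReal.ofReal_add (mul_nonneg (by positivity) (Finset.sum_nonneg fun j _ => ha0 l j)) (he0 l),
      ENNReal.ofReal_mul (by positivity), ENNReal.ofReal_sum_of_nonneg fun j _ => ha0 l j, ENNReal.ofReal_mul (by norm_num)]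
    simp
  · rw [← ENNReal.ofReal_sum_of_nonneg fun l _ => he0 l]
    refine ENNReal.ofReal_le_ofReal (hes.trans (le_of_eq ?_))
    simp

/-- **CELL**, index form.      OWNER helper188 (BP-256-FZ-CELL).
PLAN.   `Cop` is a continuous linear map of norm `≤ 1` (`LinearMap.mkContinuous`).   `x i = ∫_{c⁻¹ i ∩ Z0} |Cop w|²`, `y j = ∫_{c'⁻¹ j} |w|²`;   `rt_cap_two` (`P` = restriction to `c⁻¹ i ∩ Z0`, `Q j` = restriction to `c'⁻¹ j`, `η = 0`,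
`τ' = √τ ‖w‖`: `hoff` for `F = w - Σ_{j ∈ Nb i} Q j w`, `‖F‖ ≤ ‖w‖`): `x i ≤ 2 Σ_{j ∈ Nb i} y j + 2 τ ‖w‖²`.   Given `θ`: `m l i = ∫_{c⁻¹ i ∩ Z0} θ l |Cop w|²` (finite), `rt_cap_label` (`A = 2`, `D = Dg`) gives `a l j`, `e l`;
`θ' l z' = a l (c' z') / y (c' z')` (`0` if `y = 0`): measurable (constant on the fibres), `Σ_l θ' l ≤ 1`, `∫ θ' l |w|² = Σ_j a l j`;   `a l j ≠ 0 → ∃ i, m l i ≠ 0 ∧ j ∈ Nb i`, and `m l i ≠ 0` gives a point `z ∈ c⁻¹ i` with `θ l z ≠ 0`. -/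
theorem fz_cell_xf {ζ : Measure Z} {ζ' : Measure Z'} {ι κ : Type} [Fintype ι] [Fintype κ] [DecidableEq κ]
    (Cop : Lp ℂ 2 ζ' → Lp ℂ 2 ζ) (hlin : ∀ (F F' : Lp ℂ 2 ζ') (a : ℂ), Cop (F + a • F') = Cop F + a • Cop F') (hcon : ∀ F, ‖Cop F‖ ≤ ‖F‖)
    (c : Z → ι) (c' : Z' → κ) (hc : ∀ i, MeasurableSet (c ⁻¹' {i})) (hc' : ∀ j, MeasurableSet (c' ⁻¹' {j}))
    (Z0 : Set Z) (hZ0 : MeasurableSet Z0) (Nb : ι → Finset κ) (Dg : ℕ) (hDg : 1 ≤ Dg)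
    (hdeg : ∀ j, (Finset.univ.filter fun i => j ∈ Nb i).card ≤ Dg) (τ : ℝ) (hτ : 0 ≤ τ)
    (hoff : ∀ (i : ι) (F : Lp ℂ 2 ζ'), (∀ᵐ z' ∂ζ', c' z' ∈ Nb i → (F : Z' → ℂ) z' = 0) →
      ∫ z in c ⁻¹' {i} ∩ Z0, ‖(Cop F : Z → ℂ) z‖ ^ 2 ∂ζ ≤ τ * ‖F‖ ^ 2)
    (w : Lp ℂ 2 ζ') :
    RtXf ζ (fun z => ‖(Cop w : Z → ℂ) z‖ₑ ^ 2) ζ' (fun z' => ‖(w : Z' → ℂ) z'‖ₑ ^ 2) (fun z z' => c' z' ∈ Nb (c z)) Z0 (2 * (Dg : ℝ≥0∞))
      (ENNReal.ofReal (2 * Fintype.card ι * τ * ‖w‖ ^ 2)) := by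
  have key := fz_ce_abs (fun z => ‖(Cop w : Z → ℂ) z‖ₑ ^ 2) (fun z' => ‖(w : Z' → ℂ) z'‖ₑ ^ 2) (fz_ce_aem _) (fz_ce_aem _)
    (by rw [← fz_ce_norm_sq]; exact ENNReal.ofReal_ne_top) (by rw [← fz_ce_norm_sq]; exact ENNReal.ofReal_ne_top)
    c c' hc hc' Z0 hZ0 Nb Dg hDg hdeg (2 * τ * ‖w‖ ^ 2) (by positivity)
    (fun i => fz_ce_cell Cop hlin hcon c' hc' _ (Nb i) τ hτ (hoff i) w)
  have e : (Fintype.card ι : ℝ) * (2 * τ * ‖w‖ ^ 2) = 2 * Fintype.card ι * τ * ‖w‖ ^ 2 := by ring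
  rw [e] at key
  exact key

/-- sums over one fibre of the time index -/
theorem fz_ao_sl_fib (L N : ℕ) (iv : Fin L → ℕ) (hiv : ∀ l, iv l < N) (a : ∀ i, i < N → Fin L → ℝ≥0∞) (c : ℝ≥0∞) (hc : c ≠ ⊤)
    (ha : ∀ i hi, ∑ l, a i hi l ≤ c) (i : ℕ) : ∑ l, (if iv l = i then (a (iv l) (hiv l) l).toReal else 0) ≤ c.toReal := by
  by_cases hi : i < N
  · have hfin : ∀ l, a i hi l ≠ ⊤ := fun l =>
      ne_top_of_le_ne_top hc ((Finset.single_le_sum (f := fun l => a i hi l) (fun _ _ => zero_le) (Finset.mem_univ l)).trans (ha i hi))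
    calc ∑ l, (if iv l = i then (a (iv l) (hiv l) l).toReal else 0) ≤ ∑ l, (a i hi l).toReal := by
          refine Finset.sum_le_sum fun l _ => ?_
          split_ifs with h
          · subst h
            exact le_rfl
          · exact ENNReal.toReal_nonneg
      _ = (∑ l, a i hi l).toReal := (ENNReal.toReal_sum fun l _ => hfin l).symm
      _ ≤ c.toReal := ENNReal.toReal_mono hc (ha i hi)
  · rw [Finset.sum_eq_zero fun l _ => if_neg fun h : iv l = i => hi (h ▸ hiv l)]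
    exact ENNReal.toReal_nonneg

/-- Bochner integral of a weighted energy density = `toReal` of the lower integral -/
theorem fz_ao_sl_int {ζ : Measure Z} (f : Z → ℝ) (hm : Measurable f) (h0 : ∀ z, 0 ≤ f z) (x : Lp ℂ 2 ζ) :
    ∫ z, f z * ‖(x : Z → ℂ) z‖ ^ 2 ∂ζ = (∫⁻ z, ENNReal.ofReal (f z) * ‖(x : Z → ℂ) z‖ₑ ^ 2 ∂ζ).toReal := by
  have hsm : AEStronglyMeasurable (fun z => f z * ‖(x : Z → ℂ) z‖ ^ 2) ζ :=
    hm.aestronglyMeasurable.mul ((Lp.aestronglyMeasurable x).norm.pow 2)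
  rw [integral_eq_lintegral_of_nonneg_ae (Filter.Eventually.of_forall fun z => mul_nonneg (h0 z) (by positivity)) hsm]
  congr 1
  refine lintegral_congr fun z => ?_
  rw [ENNReal.ofReal_mul (h0 z), ENNReal.ofReal_pow (norm_nonneg _), ofReal_norm]

/-- the energy of an `L²` function is finite -/
theorem fz_ao_sl_fin {ζ : Measure Z} (x : Lp ℂ 2 ζ) : ∫⁻ z, ‖(x : Z → ℂ) z‖ₑ ^ 2 ∂ζ ≠ ⊤ := by
  have h := lintegral_rpow_enorm_lt_top_of_eLpNorm_lt_top (p := 2) (by norm_num) (by norm_num) (Lp.memLp x).2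
  simp only [ENNReal.toReal_ofNat, ENNReal.rpow_ofNat] at h
  exact h.ne

/-- LEAF `L-256-FZ-AO-SLICE`.   Transfers in every time slice give real valued assignments.
PLAN.   For `i < N` apply `hX i` to `ϑ l z = if iv l = i then ENNReal.ofReal (th l z) else 0` (`RtAsg`: `hm`, `hs`, `ENNReal.ofReal_sum_of_nonneg`); get `ϑ' i`, `e i`.   `θ l = (ϑ' (iv l) l ·).toReal`, `er l = (e (iv l) l).toReal`
(`ϑ' ≤ 1`, `e ≤ ofReal ε`: finite).   Slice sums: `Σ_{l : iv l = i} θ l ≤ (Σ_l ϑ' i l).toReal ≤ 1`.   `Σ_l er l = Σ_{i<N} Σ_{l : iv l = i} ≤ N ε` (`Finset.sum_fiberwise_of_maps_to`).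
Integrals: `∫ th |u|² = (∫⁻ ofReal th * ‖u‖ₑ²).toReal` (`integral_eq_lintegral_of_nonneg_ae`, `ofReal_mul`, `ofReal_norm_eq_enorm`); all are finite (`th ≤ 1` from `hs`, `Lp.memLp`). -/
theorem fz_ao_slice {ζ : Measure Z} {ζ' : Measure Z'} (L N : ℕ) (iv : Fin L → ℕ) (hiv : ∀ l, iv l < N) (th : Fin L → Z → ℝ)
    (hm : ∀ l, Measurable (th l)) (h0 : ∀ l z, 0 ≤ th l z) (hs : ∀ i z, ∑ l, (if iv l = i then th l z else 0) ≤ 1)
    (u : ℕ → Lp ℂ 2 ζ) (w : ℕ → Lp ℂ 2 ζ') (R : ℕ → Z → Z' → Prop) (Z0 : Set Z) (hZ : ∀ l z, th l z ≠ 0 → z ∈ Z0) (A ε : ℝ) (hA : 0 ≤ A) (hε : 0 ≤ ε)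
    (hX : ∀ i < N, RtXf ζ (fun z => ‖(u i : Z → ℂ) z‖ₑ ^ 2) ζ' (fun z' => ‖(w i : Z' → ℂ) z'‖ₑ ^ 2) (R i) Z0 (ENNReal.ofReal A) (ENNReal.ofReal ε)) :
    ∃ (θ : Fin L → Z' → ℝ) (er : Fin L → ℝ), (∀ l, Measurable (θ l)) ∧ (∀ l z', 0 ≤ θ l z') ∧ (∀ i z', ∑ l, (if iv l = i then θ l z' else 0) ≤ 1) ∧
      (∀ l z', θ l z' ≠ 0 → ∃ z, th l z ≠ 0 ∧ R (iv l) z z') ∧ (∀ l, 0 ≤ er l) ∧ ∑ l, er l ≤ N * ε ∧
      ∀ l, ∫ z, th l z * ‖(u (iv l) : Z → ℂ) z‖ ^ 2 ∂ζ ≤ A * ∫ z', θ l z' * ‖(w (iv l) : Z' → ℂ) z'‖ ^ 2 ∂ζ' + er l := by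
  have asg : ∀ i : ℕ, RtAsg L (fun l z => if iv l = i then ENNReal.ofReal (th l z) else 0) := by
    intro i
    refine ⟨fun l => ?_, fun z => ?_⟩
    · by_cases h : iv l = i
      · simp only [if_pos h]
        exact (hm l).ennreal_ofReal
      · simp only [if_neg h]
        exact measurable_const
    · have e : ∀ l, (if iv l = i then ENNReal.ofReal (th l z) else 0) = ENNReal.ofReal (if iv l = i then th l z else 0) := by
        intro l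
        split_ifs
        · rfl
        · exact ENNReal.ofReal_zero.symm
      simp only [e]
      rw [← ENNReal.ofReal_sum_of_nonneg]
      · exact (ENNReal.ofReal_le_ofReal (hs i z)).trans (le_of_eq ENNReal.ofReal_one)
      · intro l _
        split_ifs
        · exact h0 l z
        · exact le_rfl
  have supp : ∀ (i : ℕ) (l : Fin L) (z : Z), (if iv l = i then ENNReal.ofReal (th l z) else 0) ≠ 0 → z ∈ Z0 := by
    intro i l z h
    refine hZ l z fun h' => h ?_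
    rw [h', ENNReal.ofReal_zero, ite_self]
  choose ϑ' e h1 h2 h3 h4 using fun (i : ℕ) (hi : i < N) => hX i hi L _ (asg i) (supp i)
  have hϑ1 : ∀ i hi l z', ϑ' i hi l z' ≤ 1 := fun i hi l z' =>
    (Finset.single_le_sum (f := fun l => ϑ' i hi l z') (fun _ _ => zero_le) (Finset.mem_univ l)).trans ((h1 i hi).sum_le z')
  have hϑt : ∀ i hi l z', ϑ' i hi l z' ≠ ⊤ := fun i hi l z' => ne_top_of_le_ne_top ENNReal.one_ne_top (hϑ1 i hi l z')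
  have het : ∀ i hi l, e i hi l ≠ ⊤ := fun i hi l =>
    ne_top_of_le_ne_top ENNReal.ofReal_ne_top ((Finset.single_le_sum (f := fun l => e i hi l) (fun _ _ => zero_le) (Finset.mem_univ l)).trans (h4 i hi))
  refine ⟨fun l z' => (ϑ' (iv l) (hiv l) l z').toReal, fun l => (e (iv l) (hiv l) l).toReal, fun l => ((h1 _ _).meas l).ennreal_toReal,
    fun l z' => ENNReal.toReal_nonneg, fun i z' => ?_, fun l z' h => ?_, fun l => ENNReal.toReal_nonneg, ?_, fun l => ?_⟩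
  · have := fz_ao_sl_fib L N iv hiv (fun i hi l => ϑ' i hi l z') 1 ENNReal.one_ne_top (fun i hi => (h1 i hi).sum_le z') i
    rwa [ENNReal.toReal_one] at this
  · have h' : ϑ' (iv l) (hiv l) l z' ≠ 0 := fun h0' => h (by
      show (ϑ' (iv l) (hiv l) l z').toReal = 0
      rw [h0', ENNReal.toReal_zero])
    obtain ⟨z, hz, hR⟩ := h2 _ _ l z' h'
    refine ⟨z, fun h0' => hz ?_, hR⟩
    rw [if_pos rfl, h0', ENNReal.ofReal_zero]
  · have e1 : ∀ l : Fin L, (e (iv l) (hiv l) l).toReal = ∑ i ∈ Finset.range N, if iv l = i then (e (iv l) (hiv l) l).toReal else 0 := by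
      intro l
      rw [Finset.sum_ite_eq, if_pos (Finset.mem_range.2 (hiv l))]
    rw [Finset.sum_congr rfl fun l _ => e1 l, Finset.sum_comm]
    calc ∑ i ∈ Finset.range N, ∑ l, (if iv l = i then (e (iv l) (hiv l) l).toReal else 0) ≤ ∑ _i ∈ Finset.range N, ε := by
          refine Finset.sum_le_sum fun i _ => ?_
          have := fz_ao_sl_fib L N iv hiv e (ENNReal.ofReal ε) ENNReal.ofReal_ne_top h4 i
          rwa [ENNReal.toReal_ofReal hε] at this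
      _ = N * ε := by rw [Finset.sum_const, Finset.card_range, nsmul_eq_mul]
  · have key := h3 (iv l) (hiv l) l
    simp only [↓reduceIte] at key
    rw [fz_ao_sl_int (th l) (hm l) (h0 l) (u (iv l)),
      fz_ao_sl_int (fun z' => (ϑ' (iv l) (hiv l) l z').toReal) ((h1 _ _).meas l).ennreal_toReal (fun _ => ENNReal.toReal_nonneg) (w (iv l))]
    simp only [ENNReal.ofReal_toReal (hϑt _ _ _ _)]
    have hI : ∫⁻ z', ϑ' (iv l) (hiv l) l z' * ‖(w (iv l) : Z' → ℂ) z'‖ₑ ^ 2 ∂ζ' ≠ ⊤ := by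
      refine ne_top_of_le_ne_top (fz_ao_sl_fin (w (iv l))) (lintegral_mono fun z' => ?_)
      exact (mul_le_mul_left (hϑ1 _ _ l z') _).trans (le_of_eq (one_mul _))
    calc (∫⁻ z, ENNReal.ofReal (th l z) * ‖(u (iv l) : Z → ℂ) z‖ₑ ^ 2 ∂ζ).toReal
        ≤ (ENNReal.ofReal A * ∫⁻ z', ϑ' (iv l) (hiv l) l z' * ‖(w (iv l) : Z' → ℂ) z'‖ₑ ^ 2 ∂ζ' + e (iv l) (hiv l) l).toReal :=
          ENNReal.toReal_mono (ENNReal.add_ne_top.2 ⟨ENNReal.mul_ne_top ENNReal.ofReal_ne_top hI, het _ _ _⟩) key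
      _ = _ := by
          rw [ENNReal.toReal_add (ENNReal.mul_ne_top ENNReal.ofReal_ne_top hI) (het _ _ _), ENNReal.toReal_mul, ENNReal.toReal_ofReal hA]

open Claimed.Agent.R256
open MeasureTheory
open scoped ENNReal

variable {Z Z' : Type} [MeasurableSpace Z] [MeasurableSpace Z']

theorem fz_ao_aux_sq_int {ζ : Measure Z} (G : Lp ℂ 2 ζ) : Integrable (fun z => ‖(G : Z → ℂ) z‖ ^ 2) ζ := by
  have h := (Lp.memLp G).integrable_norm_rpow (by norm_num) (by norm_num)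
  simpa using h

theorem fz_ao_aux_norm_sq {ζ : Measure Z} (G : Lp ℂ 2 ζ) : ‖G‖ ^ 2 = ∫ z, ‖(G : Z → ℂ) z‖ ^ 2 ∂ζ := by
  have h0 : 0 ≤ ∫ x, ‖(G : Z → ℂ) x‖ ^ (2 : ℝ) ∂ζ := integral_nonneg fun x => by positivity
  have h1 := (Lp.memLp G).eLpNorm_eq_integral_rpow_norm (by norm_num) (by norm_num)
  rw [Lp.norm_def, h1, ENNReal.toReal_ofReal (by positivity), ← Real.rpow_natCast, ← Real.rpow_mul (by simpa using h0)]
  simp

theorem fz_ao_aux_w_int {ζ : Measure Z} (θ : Z → ℝ) (hm : Measurable θ) (h0 : ∀ z, 0 ≤ θ z) (h1 : ∀ z, θ z ≤ 1) (G : Lp ℂ 2 ζ) :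
    Integrable (fun z => θ z * ‖(G : Z → ℂ) z‖ ^ 2) ζ := by
  refine Integrable.mono' (fz_ao_aux_sq_int G) ?_ (Filter.Eventually.of_forall fun z => ?_)
  · exact hm.aestronglyMeasurable.mul (fz_ao_aux_sq_int G).aestronglyMeasurable
  · rw [Real.norm_of_nonneg (mul_nonneg (h0 z) (by positivity))]
    exact mul_le_of_le_one_left (by positivity) (h1 z)

/-- LEAF `L-256-FZ-AO-SUMSQ`.   PLAN: `Lp.coeFn_finset_sum` (or induction with `Lp.coeFn_add`), pointwise `‖Σ x_i‖² ≤ #ι Σ ‖x_i‖²` (`norm_sum_le`, `sq_sum_le_card_mul_sum_sq`), `integral_mono_ae`, `integral_finset_sum`, `integral_const_mul`;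
integrability of `θ ‖x‖²`: `(Lp.memLp _).integrable_norm_pow` / `MemLp.integrable_sq`, bounded measurable factor (`Integrable.bdd_mul`). -/
theorem fz_ao_sum_sq {ζ : Measure Z} {ι : Type} [Fintype ι] (θ : Z → ℝ) (hm : Measurable θ) (h0 : ∀ z, 0 ≤ θ z) (h1 : ∀ z, θ z ≤ 1) (x : ι → Lp ℂ 2 ζ) :
    ∫ z, θ z * ‖((∑ i, x i : Lp ℂ 2 ζ) : Z → ℂ) z‖ ^ 2 ∂ζ ≤ Fintype.card ι * ∑ i, ∫ z, θ z * ‖(x i : Z → ℂ) z‖ ^ 2 ∂ζ := by
  have hi : ∀ i, Integrable (fun z => θ z * ‖(x i : Z → ℂ) z‖ ^ 2) ζ := fun i => fz_ao_aux_w_int θ hm h0 h1 (x i)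
  rw [← integral_finsetSum _ fun i _ => hi i, ← integral_const_mul]
  refine integral_mono_ae (fz_ao_aux_w_int θ hm h0 h1 _) ((integrable_finsetSum _ fun i _ => hi i).const_mul _) ?_
  filter_upwards [Lp.coeFn_finsetSum Finset.univ x] with z hz
  rw [hz, Finset.sum_apply, ← Finset.mul_sum, mul_left_comm]
  refine mul_le_mul_of_nonneg_left ?_ (h0 z)
  have a1 : ‖∑ i, (x i : Z → ℂ) z‖ ≤ ∑ i, ‖(x i : Z → ℂ) z‖ := norm_sum_le _ _
  have a2 : (∑ i, ‖(x i : Z → ℂ) z‖) ^ 2 ≤ (Finset.univ : Finset ι).card * ∑ i, ‖(x i : Z → ℂ) z‖ ^ 2 := sq_sum_le_card_mul_sum_sq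
  rw [Finset.card_univ] at a2
  exact (pow_le_pow_left₀ (norm_nonneg _) a1 2).trans a2

/-- LEAF `L-256-FZ-AO-LABSUM`.   PLAN: `Σ_l = Σ_{i<N} Σ_{l : iv l = i}` (`Finset.sum_fiberwise_of_maps_to`), in a slice `Σ_{l : iv l = i} ∫ th l |x i|² = ∫ (Σ_l if iv l = i then th l else 0) |x i|² ≤ ∫ |x i|² = ‖x i‖²`
(`integral_finset_sum`, `integral_mono`, `Lp.norm_def`/`L2.norm_sq_eq_inner`... e.g. the proof of `gn_en_one` in `Gen/BasB.lean`). -/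
theorem fz_ao_lab_sum {ζ : Measure Z} (L N : ℕ) (iv : Fin L → ℕ) (hiv : ∀ l, iv l < N) (th : Fin L → Z → ℝ)
    (hm : ∀ l, Measurable (th l)) (h0 : ∀ l z, 0 ≤ th l z) (hs : ∀ i z, ∑ l, (if iv l = i then th l z else 0) ≤ 1) (x : ℕ → Lp ℂ 2 ζ) :
    ∑ l, ∫ z, th l z * ‖(x (iv l) : Z → ℂ) z‖ ^ 2 ∂ζ ≤ ∑ i ∈ Finset.range N, ‖x i‖ ^ 2 := by
  have h1 : ∀ l z, th l z ≤ 1 := by
    intro l z
    refine le_trans ?_ (hs (iv l) z)
    have := Finset.single_le_sum (f := fun l' => if iv l' = iv l then th l' z else 0)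
      (fun l' _ => by by_cases h : iv l' = iv l <;> simp [h, h0]) (Finset.mem_univ l)
    simpa using this
  have hi : ∀ l i, Integrable (fun z => th l z * ‖(x i : Z → ℂ) z‖ ^ 2) ζ := fun l i => fz_ao_aux_w_int _ (hm l) (h0 l) (h1 l) (x i)
  have e1 : ∑ l, ∫ z, th l z * ‖(x (iv l) : Z → ℂ) z‖ ^ 2 ∂ζ
      = ∑ i ∈ Finset.range N, ∑ l, if iv l = i then ∫ z, th l z * ‖(x i : Z → ℂ) z‖ ^ 2 ∂ζ else 0 := by
    rw [Finset.sum_comm]
    refine Finset.sum_congr rfl fun l _ => ?_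
    rw [Finset.sum_ite_eq, if_pos (Finset.mem_range.2 (hiv l))]
  rw [e1]
  refine Finset.sum_le_sum fun i _ => ?_
  have e2 : ∀ l, (if iv l = i then ∫ z, th l z * ‖(x i : Z → ℂ) z‖ ^ 2 ∂ζ else 0)
      = ∫ z, (if iv l = i then th l z else 0) * ‖(x i : Z → ℂ) z‖ ^ 2 ∂ζ := by
    intro l
    by_cases h : iv l = i
    · simp only [if_pos h]
    · simp only [if_neg h, zero_mul, integral_zero]
  have hi2 : ∀ l, Integrable (fun z => (if iv l = i then th l z else 0) * ‖(x i : Z → ℂ) z‖ ^ 2) ζ := by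
    intro l
    by_cases h : iv l = i
    · simp only [if_pos h]; exact hi l i
    · simp only [if_neg h, zero_mul]; exact integrable_zero _ _ _
  rw [Finset.sum_congr rfl fun l _ => e2 l, ← integral_finsetSum _ fun l _ => hi2 l, fz_ao_aux_norm_sq]
  refine integral_mono (integrable_finsetSum _ fun l _ => hi2 l) (fz_ao_aux_sq_int _) fun z => ?_
  show ∑ l, (if iv l = i then th l z else 0) * ‖(x i : Z → ℂ) z‖ ^ 2 ≤ ‖(x i : Z → ℂ) z‖ ^ 2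
  rw [← Finset.sum_mul]
  exact mul_le_of_le_one_left (by positivity) (hs i z)

end

end Claimed.Agent.R256
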