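-- KEEP
import Claimed.Agent.R256.Fz.Seam

/-!
# Row 256 (LS paper), folder Fz, unit FZ-OUT, file AsmOutGrid : THE PRODUCT GRID IN THE FIVE CYLINDER COORDINATES          (architect helper199; chief helper207; prefix `fz_ao_`, defs `fzG*`, `fzN*`)          CONTRACT FILE

No operator.   Every `sorry` is a leaf `L-256-FZ-AO-*`; prove IN PLACE, statements verbatim.
* `fzGi M a t`      CLAMPED grid index of `t ∈ ℝ`, side `a`: `clamp (⌊t/a⌋ + M + 2) ∈ [0, 2M+4]`.      `|t| ≤ M a` ⟹ the index lies in `[2, 2M+2]`, its neighbours in `[1, 2M+3]` are NOT clamped.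
* `FzGI M`          the index set `(Fin (2M+5))⁵`;   `fzGc M l eb en z` the cell of `z : Cy5`, sides `(eb, l eb, l eb, en, l en)` = the errors of `cyNear l eb en`.
* `fzN1`, `fzNb`    neighbours (indices differ by at most one in every coordinate), degree `≤ 3⁵ = 243`.
* `fz_ao_gc_near`   `cyNear l eb en z z'` ⟹ the cells are neighbours;      `fz_ao_gc_far`   `z` in the box, cells neighbours ⟹ `cyNear l (2 eb) (2 en) z z'`.
* measurable fibres on the round rows (`fzFl fs`) and on the hybrid rows (`(fzHy P a).co T`);   `fzIn fs R` is measurable.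
-/

set_option autoImplicit false

namespace Claimed.Agent.R256

open MeasureTheory

/-- the clamped grid index -/
noncomputable def fzGi (M : ℕ) (a t : ℝ) : Fin (2 * M + 5) :=
  ⟨(max 0 (min ((2 * M + 4 : ℕ) : ℤ) (⌊t / a⌋ + ((M + 2 : ℕ) : ℤ)))).toNat, by omega⟩

/-- the index set of the grid -/
abbrev FzGI (M : ℕ) : Type := Fin (2 * M + 5) × Fin (2 * M + 5) × Fin (2 * M + 5) × Fin (2 * M + 5) × Fin (2 * M + 5)

/-- the cell of a point -/
noncomputable def fzGc (M : ℕ) (l eb en : ℝ) (z : Cy5) : FzGI M :=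
  (fzGi M eb z.X, fzGi M (l * eb) z.B, fzGi M (l * eb) z.Y, fzGi M en z.N, fzGi M (l * en) z.D)

/-- neighbours in one coordinate -/
def fzN1 (M : ℕ) (i : Fin (2 * M + 5)) : Finset (Fin (2 * M + 5)) := Finset.univ.filter fun j => (i : ℕ) ≤ j + 1 ∧ (j : ℕ) ≤ i + 1

/-- neighbours -/
def fzNb (M : ℕ) (v : FzGI M) : Finset (FzGI M) := fzN1 M v.1 ×ˢ fzN1 M v.2.1 ×ˢ fzN1 M v.2.2.1 ×ˢ fzN1 M v.2.2.2.1 ×ˢ fzN1 M v.2.2.2.2

theorem fz_ao_grid_eqns_cite : True := by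
  have := @fzGi.eq_1
  have := @fzGc.eq_1
  have := @fzN1.eq_1
  have := @fzNb.eq_1
  trivial

/-! ## one coordinate      LEAF `L-256-FZ-AO-GI` -/

/-- the value of the index -/
theorem fz_ao_gi_val (M : ℕ) (a t : ℝ) : ((fzGi M a t : ℕ) : ℤ) = max 0 (min ((2 * M + 4 : ℕ) : ℤ) (⌊t / a⌋ + ((M + 2 : ℕ) : ℤ))) := by
  unfold fzGi
  simp only
  rw [Int.toNat_of_nonneg (le_max_left _ _)]

/-- PLAN: `Int.floor` is measurable (`Int.measurable_floor`), composition with a map between discrete spaces (`measurable_from_top` / `Measurable.of_discrete`). -/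
theorem fz_ao_gi_meas (M : ℕ) (a : ℝ) : Measurable (fzGi M a) := by
  have h1 : Measurable fun t : ℝ => ⌊t / a⌋ := Int.measurable_floor.comp (measurable_id.div_const a)
  have h2 : fzGi M a = (fun n : ℤ => (⟨(max 0 (min ((2 * M + 4 : ℕ) : ℤ) (n + ((M + 2 : ℕ) : ℤ)))).toNat, by omega⟩ : Fin (2 * M + 5)))
      ∘ fun t : ℝ => ⌊t / a⌋ := by
    funext t
    rfl
  rw [h2]
  exact (Measurable.of_discrete).comp h1

theorem fz_ao_aux_gi_mem {M : ℕ} {i j : Fin (2 * M + 5)} : j ∈ fzN1 M i ↔ (i : ℕ) ≤ j + 1 ∧ (j : ℕ) ≤ i + 1 := by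
  unfold fzN1
  rw [Finset.mem_filter]
  exact ⟨fun h => h.2, fun h => ⟨Finset.mem_univ _, h⟩⟩

/-- PLAN: `|t'/a - t/a| ≤ 1` ⟹ the floors differ by at most one (`Int.floor_le`, `Int.lt_floor_add_one`, cast to `ℝ`); the clamp is monotone and `1`-Lipschitz (`fz_ao_gi_val`, `omega`). -/
theorem fz_ao_gi_near {M : ℕ} {a t t' : ℝ} (ha : 0 < a) (h : |t' - t| ≤ a) : fzGi M a t' ∈ fzN1 M (fzGi M a t) := by
  rw [fz_ao_aux_gi_mem]
  have v1 := fz_ao_gi_val M a t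
  have v2 := fz_ao_gi_val M a t'
  have hd : |t' / a - t / a| ≤ 1 := by
    rw [← sub_div, abs_div, abs_of_pos ha, div_le_one ha]
    exact h
  rw [abs_le] at hd
  have f1 := Int.floor_le (t / a)
  have f2 := Int.lt_floor_add_one (t / a)
  have f3 := Int.floor_le (t' / a)
  have f4 := Int.lt_floor_add_one (t' / a)
  have g1 : ⌊t / a⌋ ≤ ⌊t' / a⌋ + 1 := by
    have : (⌊t / a⌋ : ℝ) < (⌊t' / a⌋ : ℝ) + 1 + 1 := by linarith [hd.1]
    have : ⌊t / a⌋ < ⌊t' / a⌋ + 1 + 1 := by exact_mod_cast this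
    omega
  have g2 : ⌊t' / a⌋ ≤ ⌊t / a⌋ + 1 := by
    have : (⌊t' / a⌋ : ℝ) < (⌊t / a⌋ : ℝ) + 1 + 1 := by linarith [hd.2]
    have : ⌊t' / a⌋ < ⌊t / a⌋ + 1 + 1 := by exact_mod_cast this
    omega
  omega

/-- PLAN: `|t| ≤ M a` ⟹ `-M ≤ ⌊t/a⌋ ≤ M`, the index of `t` is `⌊t/a⌋ + M + 2 ∈ [2, 2M+2]`; the index of `t'` lies in `[1, 2M+3]`, so it is not clamped: the floors differ by at most one, `|t'/a - t/a| < 2`. -/
theorem fz_ao_gi_far {M : ℕ} {a t t' : ℝ} (ha : 0 < a) (ht : |t| ≤ M * a) (h : fzGi M a t' ∈ fzN1 M (fzGi M a t)) : |t' - t| ≤ 2 * a := by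
  rw [fz_ao_aux_gi_mem] at h
  have v1 := fz_ao_gi_val M a t
  have v2 := fz_ao_gi_val M a t'
  have hd : |t / a| ≤ M := by
    rw [abs_div, abs_of_pos ha, div_le_iff₀ ha]
    exact ht
  rw [abs_le] at hd
  have f1 := Int.floor_le (t / a)
  have f2 := Int.lt_floor_add_one (t / a)
  have f3 := Int.floor_le (t' / a)
  have f4 := Int.lt_floor_add_one (t' / a)
  have g1 : -(M : ℤ) ≤ ⌊t / a⌋ := by
    rw [Int.le_floor]
    push_cast
    exact hd.1
  have g2 : ⌊t / a⌋ ≤ (M : ℤ) := by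
    have : (⌊t / a⌋ : ℝ) ≤ (M : ℝ) := f1.trans hd.2
    exact_mod_cast this
  have g3 : ⌊t' / a⌋ ≤ ⌊t / a⌋ + 1 ∧ ⌊t / a⌋ ≤ ⌊t' / a⌋ + 1 := by
    omega
  have g3a : (⌊t' / a⌋ : ℝ) ≤ (⌊t / a⌋ : ℝ) + 1 := by exact_mod_cast g3.1
  have g3b : (⌊t / a⌋ : ℝ) ≤ (⌊t' / a⌋ : ℝ) + 1 := by exact_mod_cast g3.2
  have hq : |t' / a - t / a| ≤ 2 := by
    rw [abs_le]
    constructor <;> linarith
  rw [← sub_div, abs_div, abs_of_pos ha, div_le_iff₀ ha] at hq
  exact hq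

theorem fz_ao_n1_symm {M : ℕ} {i j : Fin (2 * M + 5)} : j ∈ fzN1 M i ↔ i ∈ fzN1 M j := by
  rw [fz_ao_aux_gi_mem, fz_ao_aux_gi_mem]
  exact And.comm

/-- PLAN: `Finset.card_le_card_of_injOn (fun j => (j : ℕ))` into `Finset.Icc (i - 1) (i + 1)`, `Nat.card_Icc`, `omega`. -/
theorem fz_ao_n1_card (M : ℕ) (i : Fin (2 * M + 5)) : (fzN1 M i).card ≤ 3 := by
  have h : (fzN1 M i).card ≤ (Finset.Icc ((i : ℕ) - 1) ((i : ℕ) + 1)).card := by
    refine Finset.card_le_card_of_injOn (fun j => (j : ℕ)) ?_ ?_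
    · intro j hj
      have hj' := fz_ao_aux_gi_mem.1 (Finset.mem_coe.1 hj)
      simp only [Finset.coe_Icc, Set.mem_Icc]
      omega
    · intro j _ j' _ hjj
      exact Fin.ext hjj
  rw [Nat.card_Icc] at h
  omega

/-! ## five coordinates      LEAF `L-256-FZ-AO-GC` -/

theorem fz_ao_nb_symm {M : ℕ} {v v' : FzGI M} : v' ∈ fzNb M v ↔ v ∈ fzNb M v' := by
  unfold fzNb
  simp only [Finset.mem_product]
  rw [fz_ao_n1_symm (i := v.1), fz_ao_n1_symm (i := v.2.1), fz_ao_n1_symm (i := v.2.2.1), fz_ao_n1_symm (i := v.2.2.2.1), fz_ao_n1_symm (i := v.2.2.2.2)]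

/-- the degree.   PLAN: the filter is `fzNb M v'` (`fz_ao_nb_symm`), `Finset.card_product`, `fz_ao_n1_card`, `3⁵ = 243`. -/
theorem fz_ao_nb_deg (M : ℕ) (v' : FzGI M) : (Finset.univ.filter fun v => v' ∈ fzNb M v).card ≤ 243 := by
  have e : (Finset.univ.filter fun v => v' ∈ fzNb M v) = fzNb M v' := by
    ext v
    rw [Finset.mem_filter, fz_ao_nb_symm]
    simp
  rw [e]
  unfold fzNb
  simp only [Finset.card_product]
  have h1 := fz_ao_n1_card M v'.1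
  have h2 := fz_ao_n1_card M v'.2.1
  have h3 := fz_ao_n1_card M v'.2.2.1
  have h4 := fz_ao_n1_card M v'.2.2.2.1
  have h5 := fz_ao_n1_card M v'.2.2.2.2
  calc (fzN1 M v'.1).card * ((fzN1 M v'.2.1).card * ((fzN1 M v'.2.2.1).card * ((fzN1 M v'.2.2.2.1).card * (fzN1 M v'.2.2.2.2).card)))
      ≤ 3 * (3 * (3 * (3 * 3))) := Nat.mul_le_mul h1 (Nat.mul_le_mul h2 (Nat.mul_le_mul h3 (Nat.mul_le_mul h4 h5)))
    _ = 243 := by norm_num

theorem fz_ao_gi_card (M : ℕ) : Fintype.card (FzGI M) = (2 * M + 5) ^ 5 := by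
  simp only [Fintype.card_prod, Fintype.card_fin]
  ring

theorem fz_ao_gc_near {M : ℕ} {l eb en : ℝ} {z z' : Cy5} (hl : 0 < l) (heb : 0 < eb) (hen : 0 < en) (h : cyNear l eb en z z') :
    fzGc M l eb en z' ∈ fzNb M (fzGc M l eb en z) := by
  obtain ⟨h1, h2, h3, h4, h5⟩ := h
  unfold fzNb fzGc
  simp only [Finset.mem_product]
  exact ⟨fz_ao_gi_near heb h1, fz_ao_gi_near (mul_pos hl heb) h2, fz_ao_gi_near (mul_pos hl heb) h3, fz_ao_gi_near hen h4, fz_ao_gi_near (mul_pos hl hen) h5⟩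

theorem fz_ao_gc_far {M : ℕ} {l eb en : ℝ} {z z' : Cy5} (hl : 0 < l) (heb : 0 < eb) (hen : 0 < en)
    (hz : |z.X| ≤ M * eb ∧ |z.B| ≤ M * (l * eb) ∧ |z.Y| ≤ M * (l * eb) ∧ |z.N| ≤ M * en ∧ |z.D| ≤ M * (l * en))
    (h : fzGc M l eb en z' ∈ fzNb M (fzGc M l eb en z)) : cyNear l (2 * eb) (2 * en) z z' := by
  obtain ⟨z1, z2, z3, z4, z5⟩ := hz
  unfold fzNb fzGc at h
  simp only [Finset.mem_product] at h
  obtain ⟨h1, h2, h3, h4, h5⟩ := h
  refine ⟨fz_ao_gi_far heb z1 h1, ?_, ?_, fz_ao_gi_far hen z4 h4, ?_⟩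
  · have := fz_ao_gi_far (mul_pos hl heb) z2 h2
    linarith
  · have := fz_ao_gi_far (mul_pos hl heb) z3 h3
    linarith
  · have := fz_ao_gi_far (mul_pos hl hen) z5 h5
    linarith

/-! ## measurability      LEAF `L-256-FZ-AO-GM` -/

/-- PLAN: the fibre is the intersection of five preimages under `fzGi M _ ∘ (a measurable coordinate)`; `fzFl`, `rtFl` unfold to `x.1.1, x.2.1.1, x.2.2, x.1.2 / fs, x.2.1.2 / fs`. -/
theorem fz_ao_gc_meas_r (M : ℕ) (l eb en fs : ℝ) (v : FzGI M) : MeasurableSet ((fun x : RdWvPar.Ph => fzGc M l eb en (fzFl fs x)) ⁻¹' {v}) := by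
  have hm : Measurable (fun x : RdWvPar.Ph => fzGc M l eb en (fzFl fs x)) := by
    unfold fzGc fzFl rtFl
    simp only
    refine Measurable.prodMk ((fz_ao_gi_meas M _).comp (by fun_prop)) (Measurable.prodMk ((fz_ao_gi_meas M _).comp (by fun_prop))
      (Measurable.prodMk ((fz_ao_gi_meas M _).comp (by fun_prop)) (Measurable.prodMk ((fz_ao_gi_meas M _).comp (by fun_prop)) ((fz_ao_gi_meas M _).comp (by fun_prop)))))
  exact hm (measurableSet_singleton v)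

/-- PLAN: the same; `(fzHy P a).co T x = ⟨x.1.1, x.1.2.2.1 + T * x.1.1, x.1.2.2.2 + T * x.1.1 ^ 2, x.2.2, x.2.1⟩`. -/
theorem fz_ao_gc_meas_h (M : ℕ) (l eb en : ℝ) (P : FzP) (a T : ℝ) (v : FzGI M) :
    MeasurableSet ((fun x : FzOm × ℝ × ℝ => fzGc M l eb en ((fzHy P a).co T x)) ⁻¹' {v}) := by
  have hm : Measurable (fun x : FzOm × ℝ × ℝ => fzGc M l eb en ((fzHy P a).co T x)) := by
    unfold fzGc ChyPar.co fzHy
    simp only
    refine Measurable.prodMk ((fz_ao_gi_meas M _).comp (by fun_prop)) (Measurable.prodMk ((fz_ao_gi_meas M _).comp (by fun_prop))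
      (Measurable.prodMk ((fz_ao_gi_meas M _).comp (by fun_prop)) (Measurable.prodMk ((fz_ao_gi_meas M _).comp (by fun_prop)) ((fz_ao_gi_meas M _).comp (by fun_prop)))))
  exact hm (measurableSet_singleton v)

theorem fz_ao_in_meas (fs R : ℝ) : MeasurableSet (fzIn fs R) := by
  unfold fzIn fzFl rtFl
  simp only
  measurability

theorem fz_ao_box_meas (R : ℝ) : MeasurableSet (fzBox R) := by
  unfold fzBox
  measurability

theorem fz_ao_band_meas (a : ℝ) : MeasurableSet (fzBand a) := by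
  unfold fzBand
  measurability

end Claimed.Agent.R256
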