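-- KEEP
import Claimed.Agent.R256.Fz.AsmOutGen
import Claimed.Agent.R256.Fz.AsmOutGrid
import Claimed.Agent.R256.Rt.Wv1
import Claimed.Agent.R256.Hyb.Inst
import Claimed.Agent.R256.Gen.BasB

/-!
# Row 256 (LS paper), folder Fz, unit FZ-OUT, file AsmOutXf : THE ARROW ROUND → HYBRID AT ONE CUT          (architect helper199; chief helper207; prefix `fz_ao_`)          CONTRACT FILE

`δ = 2^-n`, `P = fzPn H fs S n`, band `a = fzA C j`, cut `(T, k)`, `l = 2^-k`, errors `eb = δ^S1`, `en = max (δ^S1) (δ^-g1 √(Hf 2^k))` (`fzEb`, `fzEn`), region `fzIn fs (δ^(-S/4))`.   Hypotheses = those of `fz_off` (structure `FzCutH`).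
* `fz_ao_xf`    **ROUND → HYBRID** (CELL + GRID + OFF): for EVERY row function `w` of the hybrid system a transfer `RtXf` from `|C0 w|²` to `|w|²`, relation `cyNear l (2 eb) (2 en)`, constant `486`, error `δ^J ‖w‖²`.
(The arrow HYBRID → ROUND is `Fz/Dual.lean` of helper233.)      ORDER (v2): `S, S1 | Zf | g1 | C, J | n0`.
-/

set_option autoImplicit false

namespace Claimed.Agent.R256

open MeasureTheory
open scoped ENNReal InnerProductSpace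

/-- the base error -/
noncomputable def fzEb (S1 : ℝ) (n : ℕ) : ℝ := ((2 : ℝ)⁻¹ ^ n) ^ S1

/-- the normal error -/
noncomputable def fzEn (S1 g1 H fs : ℝ) (n k : ℕ) : ℝ := max (((2 : ℝ)⁻¹ ^ n) ^ S1) (((2 : ℝ)⁻¹ ^ n) ^ (-g1) * Real.sqrt (H / fs ^ 2 * 2 ^ k))

/-- the hypotheses of `fz_off` on the cut -/
structure FzCutH (C : ℕ) (Zf H fs : ℝ) (n : ℕ) (T : ℝ) (k β : ℕ) : Prop where
  k_le : k ≤ n
  b_le : β ≤ C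
  T_nn : 0 ≤ T
  T_le : T ≤ 1
  H_lo : ((2 : ℝ)⁻¹ ^ n) ^ (C : ℝ) ≤ H / fs ^ 2
  H_hi : H / fs ^ 2 ≤ (2 : ℝ)⁻¹ ^ n
  fs_le : fs ≤ ((2 : ℝ)⁻¹ ^ n) ^ Zf

theorem fz_ao_xf_eqns_cite : True := by
  have := @fzEb.eq_1
  have := @fzEn.eq_1
  trivial

/-- `fz_off` in the notation of this file -/
theorem fz_ao_off (S S1 : ℝ) (hS : 0 < S) (hS1 : 0 < S1) :
    ∃ Zf : ℝ, ∀ g1 : ℝ, 0 < g1 → ∀ C J : ℕ, ∃ n0 : ℕ, ∀ (H fs : ℝ) (n : ℕ) (h : (fzPn H fs S n).Ok) (j : Fin (2 * C + 20)) (T : ℝ) (k β : ℕ), n0 ≤ n → FzCutH C Zf H fs n T k β →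
      ∀ (Sr : Set RdWvPar.Ph) (Sc : Set (FzOm × ℝ × ℝ)), MeasurableSet Sr → MeasurableSet Sc → Sr ⊆ fzIn fs (((2 : ℝ)⁻¹ ^ n) ^ (-(S / 4))) →
        (∀ z ∈ Sr, ∀ z' ∈ Sc, ¬ cyNear ((2 : ℝ)⁻¹ ^ k) (fzEb S1 n) (fzEn S1 g1 H fs n k) (fzFl fs z) ((fzHy (fzPn H fs S n) (fzA C j)).co T z')) →
        ∀ F : Lp ℂ 2 (fzHy (fzPn H fs S n) (fzA C j)).rw, (∀ᵐ z' ∂(fzHy (fzPn H fs S n) (fzA C j)).rw, z' ∉ Sc → (F : FzOm × ℝ × ℝ → ℂ) z' = 0) →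
          ∫ z in Sr, ‖(fzC0 (fzPn H fs S n) h (fzA C j) T k β F : RdWvPar.Ph → ℂ) z‖ ^ 2 ∂(((fzPn H fs S n).rd h).rw k)
            ≤ ((2 : ℝ)⁻¹ ^ n) ^ (J : ℝ) * ‖F‖ ^ 2 := by
  obtain ⟨Zf, hZ⟩ := fz_off S S1 hS hS1
  refine ⟨Zf, fun g1 hg1 C J => ?_⟩
  obtain ⟨n0, h0⟩ := hZ g1 hg1 C J
  exact ⟨n0, fun H fs n h j T k β hn hc => h0 H fs n h j T k β hn hc.k_le hc.b_le hc.T_nn hc.T_le hc.H_lo hc.H_hi hc.fs_le⟩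

theorem fz_ao_A_pos (C : ℕ) (j : Fin (2 * C + 20)) : 0 < fzA C j := by
  unfold fzA
  positivity

/-- LEAF `L-256-FZ-AO-XFNUM`.   The number of cells.   `δ = 2^-n`, `l = 2^-k ≥ δ`, `M = ⌈δ^(-S/4) / (l δ^S1)⌉₊ ≤ δ^-(S/4+S1+1) + 1`, `2M + 5 ≤ 9 δ^-(S/4+S1+1) ≤ δ^-(S/4+S1+5)` (`n ≥ 1`), fifth power, factor `2 ≤ δ⁻¹`. -/
theorem fz_ao_xf_num (S S1 : ℝ) (hS : 0 < S) (hS1 : 0 < S1) (J n k : ℕ) (hn : 1 ≤ n) (hk : k ≤ n) :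
    2 * ((2 * ⌈((2 : ℝ)⁻¹ ^ n) ^ (-(S / 4)) / ((2 : ℝ)⁻¹ ^ k * ((2 : ℝ)⁻¹ ^ n) ^ S1)⌉₊ + 5 : ℕ) : ℝ) ^ 5
      * ((2 : ℝ)⁻¹ ^ n) ^ ((J + ⌈5 * (S / 4 + S1 + 5)⌉₊ + 1 : ℕ) : ℝ) ≤ ((2 : ℝ)⁻¹ ^ n) ^ (J : ℝ) := by
  set δ : ℝ := (2 : ℝ)⁻¹ ^ n with hδ
  have hδ0 : 0 < δ := by positivity
  have hδh : δ ≤ 2⁻¹ := by
    calc δ ≤ (2 : ℝ)⁻¹ ^ 1 := pow_le_pow_of_le_one (by norm_num) (by norm_num) hn
      _ = 2⁻¹ := by norm_num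
  have hδ1 : δ ≤ 1 := hδh.trans (by norm_num)
  have hl : δ ≤ (2 : ℝ)⁻¹ ^ k := pow_le_pow_of_le_one (by norm_num) (by norm_num) hk
  have hl0 : 0 < (2 : ℝ)⁻¹ ^ k := by positivity
  set a : ℝ := S / 4 + S1 + 1 with ha
  have ha0 : 0 < a := by positivity
  -- the quotient
  have hq : δ ^ (-(S / 4)) / ((2 : ℝ)⁻¹ ^ k * δ ^ S1) ≤ δ ^ (-a) := by
    have h1 : δ ^ (-a) = δ ^ (-(S / 4)) / (δ * δ ^ S1) := by
      rw [ha, show -(S / 4 + S1 + 1) = -(S / 4) - (1 + S1) by ring, Real.rpow_sub hδ0, Real.rpow_add hδ0, Real.rpow_one]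
    rw [h1]
    apply div_le_div_of_nonneg_left (by positivity) (by positivity)
    exact mul_le_mul_of_nonneg_right hl (by positivity)
  have hone : 1 ≤ δ ^ (-a) := Real.one_le_rpow_of_pos_of_le_one_of_nonpos hδ0 hδ1 (by linarith)
  have hM : ((⌈δ ^ (-(S / 4)) / ((2 : ℝ)⁻¹ ^ k * δ ^ S1)⌉₊ : ℕ) : ℝ) ≤ δ ^ (-a) + 1 :=
    ((Nat.ceil_lt_add_one (by positivity)).le).trans (by linarith)
  have h16 : (16 : ℝ) ≤ δ ^ (-(4 : ℝ)) := by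
    have : δ ^ (-(4 : ℝ)) = (δ⁻¹) ^ 4 := by
      rw [Real.rpow_neg hδ0.le, show (4 : ℝ) = ((4 : ℕ) : ℝ) by norm_num, Real.rpow_natCast, inv_pow]
    rw [this]
    have h2 : (2 : ℝ) ≤ δ⁻¹ := by
      rw [le_inv_comm₀ (by norm_num) hδ0]; exact hδh
    calc (16 : ℝ) = 2 ^ 4 := by norm_num
      _ ≤ _ := pow_le_pow_left₀ (by norm_num) h2 4
  have hN : (((2 * ⌈δ ^ (-(S / 4)) / ((2 : ℝ)⁻¹ ^ k * δ ^ S1)⌉₊ + 5 : ℕ) : ℕ) : ℝ) ≤ δ ^ (-(S / 4 + S1 + 5)) := by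
    push_cast
    have h3 : δ ^ (-(S / 4 + S1 + 5)) = δ ^ (-a) * δ ^ (-(4 : ℝ)) := by
      rw [← Real.rpow_add hδ0]; congr 1; rw [ha]; ring
    rw [h3]
    nlinarith
  have hN5 : (((2 * ⌈δ ^ (-(S / 4)) / ((2 : ℝ)⁻¹ ^ k * δ ^ S1)⌉₊ + 5 : ℕ) : ℕ) : ℝ) ^ 5 ≤ δ ^ (-(5 * (S / 4 + S1 + 5))) := by
    calc _ ≤ (δ ^ (-(S / 4 + S1 + 5))) ^ 5 := pow_le_pow_left₀ (by positivity) hN 5
      _ = _ := by
        rw [← Real.rpow_natCast, ← Real.rpow_mul hδ0.le]; congr 1; push_cast; ring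
  have hc : δ ^ ((⌈5 * (S / 4 + S1 + 5)⌉₊ : ℕ) : ℝ) ≤ δ ^ (5 * (S / 4 + S1 + 5)) :=
    Real.rpow_le_rpow_of_exponent_ge hδ0 hδ1 (Nat.le_ceil _)
  have hsplit : δ ^ ((J + ⌈5 * (S / 4 + S1 + 5)⌉₊ + 1 : ℕ) : ℝ) = δ ^ (J : ℝ) * δ ^ ((⌈5 * (S / 4 + S1 + 5)⌉₊ : ℕ) : ℝ) * δ := by
    push_cast
    rw [Real.rpow_add hδ0, Real.rpow_add hδ0, Real.rpow_one]
  rw [hsplit]
  have hJ : 0 < δ ^ (J : ℝ) := by positivity
  have hprod : δ ^ (-(5 * (S / 4 + S1 + 5))) * δ ^ (5 * (S / 4 + S1 + 5)) = 1 := by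
    rw [← Real.rpow_add hδ0]; simp
  set X := (((2 * ⌈δ ^ (-(S / 4)) / ((2 : ℝ)⁻¹ ^ k * δ ^ S1)⌉₊ + 5 : ℕ) : ℕ) : ℝ) ^ 5 with hX
  set Y := δ ^ ((⌈5 * (S / 4 + S1 + 5)⌉₊ : ℕ) : ℝ) with hY
  have hX0 : 0 ≤ X := by positivity
  have hY0 : 0 ≤ Y := by positivity
  have hXY : X * Y ≤ 1 := by
    calc X * Y ≤ δ ^ (-(5 * (S / 4 + S1 + 5))) * δ ^ (5 * (S / 4 + S1 + 5)) := mul_le_mul hN5 hc hY0 (by positivity)
      _ = 1 := hprod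
  calc 2 * X * (δ ^ (J : ℝ) * Y * δ) = δ ^ (J : ℝ) * ((X * Y) * (2 * δ)) := by ring
    _ ≤ δ ^ (J : ℝ) * (1 * 1) := by
        apply mul_le_mul_of_nonneg_left _ hJ.le
        apply mul_le_mul hXY (by linarith) (by positivity) (by norm_num)
    _ = δ ^ (J : ℝ) := by ring

/-- **ROUND → HYBRID at one cut**.      GLUE (helper199). -/
theorem fz_ao_xf (S S1 : ℝ) (hS : 0 < S) (hS1 : 0 < S1) :
    ∃ Zf : ℝ, ∀ g1 : ℝ, 0 < g1 → ∀ C J : ℕ, ∃ n0 : ℕ, ∀ (H fs : ℝ) (n : ℕ) (h : (fzPn H fs S n).Ok) (j : Fin (2 * C + 20)) (T : ℝ) (k β : ℕ), n0 ≤ n → FzCutH C Zf H fs n T k β →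
      ∀ w : Lp ℂ 2 (fzHy (fzPn H fs S n) (fzA C j)).rw,
        RtXf (((fzPn H fs S n).rd h).rw k) (fun z => ‖(fzC0 (fzPn H fs S n) h (fzA C j) T k β w : RdWvPar.Ph → ℂ) z‖ₑ ^ 2)
          (fzHy (fzPn H fs S n) (fzA C j)).rw (fun z' => ‖(w : FzOm × ℝ × ℝ → ℂ) z'‖ₑ ^ 2)
          (fun z z' => cyNear ((2 : ℝ)⁻¹ ^ k) (2 * fzEb S1 n) (2 * fzEn S1 g1 H fs n k) (fzFl fs z) ((fzHy (fzPn H fs S n) (fzA C j)).co T z'))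
          (fzIn fs (((2 : ℝ)⁻¹ ^ n) ^ (-(S / 4)))) (ENNReal.ofReal 486) (ENNReal.ofReal (((2 : ℝ)⁻¹ ^ n) ^ (J : ℝ) * ‖w‖ ^ 2)) := by
  obtain ⟨Zf, hZ⟩ := fz_ao_off S S1 hS hS1
  refine ⟨Zf, fun g1 hg1 C J => ?_⟩
  obtain ⟨n0, h0⟩ := hZ g1 hg1 C (J + ⌈5 * (S / 4 + S1 + 5)⌉₊ + 1)
  refine ⟨max n0 1, fun H fs n h j T k β hn hc w => ?_⟩
  have hn0 : n0 ≤ n := le_trans (le_max_left _ _) hn
  have hn1 : 1 ≤ n := le_trans (le_max_right _ _) hn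
  have ha := fz_ao_A_pos C j
  set l : ℝ := (2 : ℝ)⁻¹ ^ k with hl
  set eb := fzEb S1 n with heb
  set en := fzEn S1 g1 H fs n k with hen
  set Rz : ℝ := ((2 : ℝ)⁻¹ ^ n) ^ (-(S / 4)) with hRz
  have hl0 : 0 < l := by positivity
  have hl1 : l ≤ 1 := pow_le_one₀ (by norm_num) (by norm_num)
  have heb0 : 0 < eb := by rw [heb]; unfold fzEb; positivity
  have hebn : eb ≤ en := by rw [heb, hen]; unfold fzEb fzEn; exact le_max_left _ _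
  have hen0 : 0 < en := lt_of_lt_of_le heb0 hebn
  set M : ℕ := ⌈Rz / (l * eb)⌉₊ with hM
  have hMR : Rz ≤ M * (l * eb) := by
    have := Nat.le_ceil (Rz / (l * eb))
    rwa [div_le_iff₀ (mul_pos hl0 heb0)] at this
  have hM0 : (0 : ℝ) ≤ M := Nat.cast_nonneg _
  set τ : ℝ := ((2 : ℝ)⁻¹ ^ n) ^ ((J + ⌈5 * (S / 4 + S1 + 5)⌉₊ + 1 : ℕ) : ℝ) with hτ
  have hτ0 : 0 ≤ τ := by positivity
  have hcell := fz_cell_xf (ζ := ((fzPn H fs S n).rd h).rw k) (ζ' := (fzHy (fzPn H fs S n) (fzA C j)).rw) (ι := FzGI M) (κ := FzGI M) (fzC0 (fzPn H fs S n) h (fzA C j) T k β)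
    (fz_c0_lin (fzPn H fs S n) h (fzA C j) ha T k β) (fz_c0_contr (fzPn H fs S n) h (fzA C j) ha T k β) (fun z => fzGc M l eb en (fzFl fs z)) (fun z' => fzGc M l eb en ((fzHy (fzPn H fs S n) (fzA C j)).co T z'))
    (fz_ao_gc_meas_r M l eb en fs) (fz_ao_gc_meas_h M l eb en (fzPn H fs S n) (fzA C j) T) (fzIn fs Rz) (fz_ao_in_meas fs Rz) (fzNb M) 243 (by norm_num) (fz_ao_nb_deg M) τ hτ0
    (fun i F hF => ?_) w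
  · refine rt_xa_mono hcell (fun z hz z' hzz => ?_) subset_rfl ?_ (ENNReal.ofReal_le_ofReal ?_)
    · obtain ⟨z1, z2, z3, z4, z5⟩ := hz
      refine fz_ao_gc_far hl0 heb0 hen0 ⟨?_, ?_, ?_, ?_, ?_⟩ hzz
      · exact z1.trans (hMR.trans (mul_le_mul_of_nonneg_left (mul_le_of_le_one_left heb0.le hl1) hM0))
      · exact z2.trans hMR
      · exact z3.trans hMR
      · exact z4.trans (hMR.trans (mul_le_mul_of_nonneg_left ((mul_le_of_le_one_left heb0.le hl1).trans hebn) hM0))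
      · exact z5.trans (hMR.trans (mul_le_mul_of_nonneg_left (mul_le_mul_of_nonneg_left hebn hl0.le) hM0))
    · rw [show (486 : ℝ) = 2 * 243 by norm_num, ENNReal.ofReal_mul (by norm_num)]
      simp
    · have hnum := fz_ao_xf_num S S1 hS hS1 J n k hn1 hc.k_le
      rw [fz_ao_gi_card]
      have hw0 : 0 ≤ ‖w‖ ^ 2 := by positivity
      have h9 : 2 * ((2 * M + 5 : ℕ) : ℝ) ^ 5 * τ ≤ ((2 : ℝ)⁻¹ ^ n) ^ (J : ℝ) := hnum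
      have := mul_le_mul_of_nonneg_right h9 hw0
      push_cast at this ⊢
      exact this
  · have hSc : MeasurableSet {z' : FzOm × ℝ × ℝ | fzGc M l eb en ((fzHy (fzPn H fs S n) (fzA C j)).co T z') ∉ fzNb M i} := by
      have h1 : {z' : FzOm × ℝ × ℝ | fzGc M l eb en ((fzHy (fzPn H fs S n) (fzA C j)).co T z') ∉ fzNb M i}
          = (⋃ v ∈ fzNb M i, (fun z' : FzOm × ℝ × ℝ => fzGc M l eb en ((fzHy (fzPn H fs S n) (fzA C j)).co T z')) ⁻¹' {v})ᶜ := by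
        ext z'
        simp
      rw [h1]
      exact (Finset.measurableSet_biUnion _ fun v _ => fz_ao_gc_meas_h M l eb en (fzPn H fs S n) (fzA C j) T v).compl
    refine h0 H fs n h j T k β hn0 hc _ _ ((fz_ao_gc_meas_r M l eb en fs i).inter (fz_ao_in_meas fs Rz)) hSc Set.inter_subset_right
      (fun z hz z' hz' hnear => hz' ?_) F ?_
    · have := fz_ao_gc_near (M := M) hl0 heb0 hen0 hnear
      have hzi : fzGc M l eb en (fzFl fs z) = i := hz.1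
      rwa [hzi] at this
    · filter_upwards [hF] with z' hz' hn
      exact hz' (by simpa using hn)

end Claimed.Agent.R256
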