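-- KEEP
import Claimed.Agent.R256.Fz.AsmOutXf
import Claimed.Agent.R256.Fz.Geo
import Claimed.Agent.R256.Fz.Dual

/-!
# Row 256 (LS paper), folder Fz, unit FZ-OUT, file AsmOutDec : DECOMPOSITION INTO BANDS, BASE-OUT PART, LABEL GEOMETRY          (architect helper199; chief helper207; prefix `fz_ao_`)          CONTRACT FILE

* `fzOu P a R G = 1_{band a \ box R} W G`   the part of the band outside the base box;   `fz_ao_split`:  `1_band W G = fzSt + fzOu`.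
* `fz_ao_dec`       `An_round(T,k,β) G = Σ_j C0_j (I_j fzSt_j) + Σ_j C0_j (I_j fzOu_j)`      (`fz_id0`, `fz_id1`, `fz_c0_lin`)
* `fz_ao_ou`        `‖fzOu_j‖² ≤ δ^J e`      (= `fz_du_box` of `Fz/Dual.lean`, helper233)
* `fz_ao_P_ok`, `fz_ao_cut`, `fz_ao_tS`      the hypotheses of the seam for `P = d.P S`
* `fz_ao_lab_in`, `fz_ao_lab_up`      the rows of a label lie in the region `δ^(-S/4)`;  their `cyNear δ (2 eb) (2 en)` neighbours lie in the enlarged test `fzEnl (δ^-g1) (tc l)`.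
* `fz_ao_xp_m`      the mass of a label of `d.xp`.
-/

set_option autoImplicit false

namespace Claimed.Agent.R256

open MeasureTheory
open scoped ENNReal InnerProductSpace

/-- the part of the band outside the base box -/
noncomputable def fzOu (P : FzP) (a R : ℝ) (G : Lp ℂ 2 (volume : Measure RdWvPar.Mo)) :
    Lp ℂ 2 ((volume : Measure FzOm).prod (volume : Measure ℝ)) := fzCut (fzBand a \ fzBox R) (fzW P G)

theorem fz_ao_dec_eqns_cite : True := by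
  have := @fzOu.eq_1
  trivial

/-! ## LEAF `L-256-FZ-AO-DEC` -/

/-- PLAN: `Lp.ext`, `fz_cut_ae` three times (`fz_ao_band_meas`, `fz_ao_box_meas`), `Lp.coeFn_add`, pointwise: `Set.indicator` of `(band ∩ box) ×ˢ univ`, `(band \ box) ×ˢ univ`, case split on `x.1 ∈ band`, `x.1 ∈ box`. -/
theorem fz_ao_split (P : FzP) (a R : ℝ) (G : Lp ℂ 2 (volume : Measure RdWvPar.Mo)) :
    fzCut (fzBand a) (fzW P G) = fzSt P a R G + fzOu P a R G := by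
  have hb := fz_ao_band_meas a
  have hx := fz_ao_box_meas R
  apply Lp.ext
  have h1 := fz_cut_ae (fzBand a) hb (fzW P G)
  have h2 := fz_cut_ae (fzBand a ∩ fzBox R) (hb.inter hx) (fzW P G)
  have h3 := fz_cut_ae (fzBand a \ fzBox R) (hb.diff hx) (fzW P G)
  have h4 := Lp.coeFn_add (fzSt P a R G) (fzOu P a R G)
  filter_upwards [h1, h2, h3, h4] with x e1 e2 e3 e4
  rw [e4, Pi.add_apply, e1]
  have e2' : (fzSt P a R G : FzOm × ℝ → ℂ) x = ((fzBand a ∩ fzBox R) ×ˢ (Set.univ : Set ℝ)).indicator (fzW P G : FzOm × ℝ → ℂ) x := e2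
  have e3' : (fzOu P a R G : FzOm × ℝ → ℂ) x = ((fzBand a \ fzBox R) ×ˢ (Set.univ : Set ℝ)).indicator (fzW P G : FzOm × ℝ → ℂ) x := e3
  rw [e2', e3']
  by_cases ha : x.1 ∈ fzBand a <;> by_cases hR : x.1 ∈ fzBox R <;>
    simp [Set.indicator, ha, hR]

/-- PLAN: `congrArg ((P.rd h).an T k β) (fz_id0 ..)`, `map_sum`, `fz_id1` with `V = fzW P G`, `fz_ao_split`, `map_add`, `fz_c0_lin` with `c = 1` (`one_smul`), `Finset.sum_add_distrib`. -/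
theorem fz_ao_dec (P : FzP) (h : P.Ok) (C b : ℕ) (hb : b ≤ C) (htS : P.tS ≤ (2 : ℝ)⁻¹ ^ (C + 12)) (G : Lp ℂ 2 (volume : Measure RdWvPar.Mo))
    (hG : (P.rd h).Spec b G) (R T : ℝ) (k β : ℕ) :
    (P.rd h).an T k β G = ∑ j : Fin (2 * C + 20), fzC0 P h (fzA C j) T k β ((fzHy P (fzA C j)).an T k (fzSt P (fzA C j) R G))
      + ∑ j : Fin (2 * C + 20), fzC0 P h (fzA C j) T k β ((fzHy P (fzA C j)).an T k (fzOu P (fzA C j) R G)) := by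
  have h0 := congrArg ((P.rd h).an T k β) (fz_id0 P h C b hb htS G hG)
  rw [map_sum] at h0
  rw [h0, ← Finset.sum_add_distrib]
  refine Finset.sum_congr rfl fun j _ => ?_
  rw [fz_id1 P h (fzA C j) (fz_ao_A_pos C j) T k β (fzW P G), fz_ao_split P (fzA C j) R G]
  have e : (fzHy P (fzA C j)).an T k (fzSt P (fzA C j) R G + fzOu P (fzA C j) R G)
      = (fzHy P (fzA C j)).an T k (fzSt P (fzA C j) R G) + (fzHy P (fzA C j)).an T k (fzOu P (fzA C j) R G) :=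
    ((fzHy P (fzA C j)).an T k).map_add _ _
  have lin : ∀ F F' : Lp ℂ 2 (fzHy P (fzA C j)).rw,
      fzC0 P h (fzA C j) T k β (F + F') = fzC0 P h (fzA C j) T k β F + fzC0 P h (fzA C j) T k β F' := by
    intro F F'
    have := fz_c0_lin P h (fzA C j) (fz_ao_A_pos C j) T k β F F' 1
    rwa [one_smul, one_smul] at this
  exact (congrArg (fzC0 P h (fzA C j) T k β) e).trans (lin _ _)

/-- PLAN: `fz_cut_ae`, the norm of an indicator is at most the norm (`Lp.norm_le_norm_of_ae_le`), `fz_w_iso`. -/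
theorem fz_ao_st_norm (P : FzP) (h : P.Ok) (a R : ℝ) (G : Lp ℂ 2 (volume : Measure RdWvPar.Mo)) : ‖fzSt P a R G‖ ≤ ‖G‖ := by
  rw [← fz_w_iso P h G]
  apply Lp.norm_le_norm_of_ae_le
  have h2 := fz_cut_ae (fzBand a ∩ fzBox R) ((fz_ao_band_meas a).inter (fz_ao_box_meas R)) (fzW P G)
  filter_upwards [h2] with x e2
  have e2' : (fzSt P a R G : FzOm × ℝ → ℂ) x = ((fzBand a ∩ fzBox R) ×ˢ (Set.univ : Set ℝ)).indicator (fzW P G : FzOm × ℝ → ℂ) x := e2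
  rw [e2']
  exact norm_indicator_le_norm_self _ _

/-! ## LEAF `L-256-FZ-AO-PAR`: the parameters -/

theorem fz_ao_P_ok {η : ℝ} {C A : ℕ} {Ds Dt g0 : ℝ} (d : FzDat) (hd : d.Ok η C A Ds Dt g0) (S : ℝ) : (d.P S).Ok := by
  have hδ : 0 < d.s := by
    rw [FzDat.s]; positivity
  have hH : 0 < d.p.H := d.p.H_pos
  have hf := hd.fs_pos
  have hp : 0 < d.s ^ S := Real.rpow_pos_of_pos hδ _
  refine ⟨hH, hf, ?_, ?_⟩
  · exact mul_pos (Real.sqrt_pos.2 hH) hp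
  · exact mul_pos (div_pos hH (pow_pos hf 2)) hp

/-- `tmL n i = i / 2^n ∈ [0, 1]` -/
theorem fz_ao_cut {η : ℝ} {C A : ℕ} {Ds Dt g0 Zf : ℝ} (d : FzDat) (hd : d.Ok η C A Ds Dt g0) (hZ : d.fs ≤ d.s ^ Zf) (i : ℕ) (hi : i < 2 ^ d.n) :
    FzCutH C Zf d.p.H d.fs d.n (tmL d.n i) d.n d.bT := by
  refine ⟨le_rfl, hd.gen.2, ?_, ?_, hd.H_lo, hd.H_hi, hZ⟩
  · unfold tmL; positivity
  · unfold tmL
    rw [div_le_one (by positivity)]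
    exact_mod_cast hi.le

theorem fz_ao_cut0 {η : ℝ} {C A : ℕ} {Ds Dt g0 Zf : ℝ} (d : FzDat) (hd : d.Ok η C A Ds Dt g0) (hZ : d.fs ≤ d.s ^ Zf) :
    FzCutH C Zf d.p.H d.fs d.n 0 0 d.b0 :=
  ⟨Nat.zero_le _, hd.gen.1, le_rfl, zero_le_one, hd.H_lo, hd.H_hi, hZ⟩

/-- `tS = Hf δ^S ≤ δ ≤ 2^-(C+12)` -/
theorem fz_ao_tS {η : ℝ} {C A : ℕ} {Ds Dt g0 S : ℝ} (d : FzDat) (hd : d.Ok η C A Ds Dt g0) (hS : 0 ≤ S) (hn : C + 12 ≤ d.n) :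
    (d.P S).tS ≤ (2 : ℝ)⁻¹ ^ (C + 12) := by
  have hδ : 0 < d.s := by
    rw [FzDat.s]; positivity
  have hδ1 : d.s ≤ 1 := by
    rw [FzDat.s]; exact pow_le_one₀ (by norm_num) (by norm_num)
  have h1 : d.s ^ S ≤ 1 := Real.rpow_le_one hδ.le hδ1 hS
  have h2 : d.s ≤ (2 : ℝ)⁻¹ ^ (C + 12) := by
    rw [FzDat.s]; exact pow_le_pow_of_le_one (by norm_num) (by norm_num) hn
  have h3 : 0 ≤ d.p.H / d.fs ^ 2 := div_nonneg d.p.H_pos.le (by positivity)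
  calc (d.P S).tS = d.p.H / d.fs ^ 2 * d.s ^ S := rfl
    _ ≤ d.p.H / d.fs ^ 2 * 1 := mul_le_mul_of_nonneg_left h1 h3
    _ ≤ d.s := by rw [mul_one]; exact hd.H_hi
    _ ≤ _ := h2

/-- `simp [Xp.m, Xp.kf, Xp.fin, Xp.run, FzDat.xp]` -/
theorem fz_ao_xp_m (d : FzDat) (η : ℝ) (P : FzP) (a R Λ : ℝ) (θ : Fin d.L → FzOm × ℝ × ℝ → ℝ) (l : Fin d.L) :
    (d.xp η P a R Λ θ).m l = ∫ x, θ l x * ‖((fzHy P a).an (tmL d.n (d.iv l)) d.n (fzSt P a R d.G) : FzOm × ℝ × ℝ → ℂ) x‖ ^ 2 ∂(fzHy P a).rw := by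
  have e : (d.xp η P a R Λ θ).kf = d.n := by
    simp [Xp.kf, FzDat.xp]
  have key : ∀ k : ℕ, k = d.n → ((fzHy P a).sys η).en (tmL k (d.iv l)) k 0 (θ l) (fzSt P a R d.G)
      = ∫ x, θ l x * ‖((fzHy P a).an (tmL d.n (d.iv l)) d.n (fzSt P a R d.G) : FzOm × ℝ × ℝ → ℂ) x‖ ^ 2 ∂(fzHy P a).rw := by
    rintro k rfl
    rfl
  exact key _ e

/-! ## LEAF `L-256-FZ-AO-LAB`: the geometry of the labels -/

/-- PLAN: `fz_g_cell_bd` with `M = δ^-Ds ≥ 1`, `l = δ`: all five flat coordinates are `≤ 20 M³ = 20 δ^(-3 Ds) ≤ δ^(-(4 Ds + 4)) = δ^(-(fzS Ds / 4))` for `n ≥ 2` (`20 ≤ 2^(4n)`). -/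
theorem fz_ao_lab_in {η : ℝ} {C A : ℕ} {Ds Dt g0 : ℝ} (hDs : 0 < Ds) (d : FzDat) (hd : d.Ok η C A Ds Dt g0) (hn : 2 ≤ d.n) (l : Fin d.L) (x : RdWvPar.Ph)
    (hx : d.th l x ≠ 0) : x ∈ fzIn d.fs (((2 : ℝ)⁻¹ ^ d.n) ^ (-(fzS Ds / 4))) := by
  show x ∈ fzIn d.fs (d.s ^ (-(fzS Ds / 4)))
  have hs0 : 0 < d.s := by unfold FzDat.s; positivity
  have hs4 : d.s ≤ 1 / 4 := by
    unfold FzDat.s
    calc (2 : ℝ)⁻¹ ^ d.n ≤ (2 : ℝ)⁻¹ ^ 2 := pow_le_pow_of_le_one (by norm_num) (by norm_num) hn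
      _ = 1 / 4 := by norm_num
  have hs1 : d.s < 1 := by linarith
  obtain ⟨M, hM⟩ : ∃ M, M = d.s ^ (-Ds) := ⟨_, rfl⟩
  have hM1 : 1 ≤ M := by rw [hM]; exact Real.one_le_rpow_of_pos_of_le_one_of_nonpos hs0 hs1.le (by linarith)
  obtain ⟨a1, a2, a3, a4, a5⟩ := fz_g_cell_bd hM1 hs0.le hs1.le (hM ▸ hd.tc_bd l) (hd.th_supp l x hx)
  have key : 20 * M ^ 3 ≤ d.s ^ (-(fzS Ds / 4)) := by
    have e : d.s ^ (-(fzS Ds / 4)) = d.s ^ (-(4 : ℝ)) * d.s ^ (-(4 * Ds)) := by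
      rw [← Real.rpow_add hs0]; congr 1; unfold fzS; ring
    have e3 : M ^ 3 = d.s ^ (-(3 * Ds)) := by
      rw [hM, ← Real.rpow_natCast, ← Real.rpow_mul hs0.le]; congr 1; push_cast; ring
    have h20 : (20 : ℝ) ≤ d.s ^ (-(4 : ℝ)) := by
      rw [Real.rpow_neg hs0.le, show (4 : ℝ) = ((4 : ℕ) : ℝ) by norm_num, Real.rpow_natCast, le_inv_comm₀ (by norm_num) (by positivity)]
      calc d.s ^ 4 ≤ (1 / 4 : ℝ) ^ 4 := pow_le_pow_left₀ hs0.le hs4 4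
        _ ≤ 20⁻¹ := by norm_num
    have h34 : d.s ^ (-(3 * Ds)) ≤ d.s ^ (-(4 * Ds)) := Real.rpow_le_rpow_of_exponent_ge hs0 hs1.le (by linarith)
    rw [e, e3]
    exact mul_le_mul h20 h34 (Real.rpow_pos_of_pos hs0 _).le (by linarith)
  have hM2 : M ≤ M ^ 2 := by nlinarith
  have hM3 : M ^ 2 ≤ M ^ 3 := by nlinarith [sq_nonneg M]
  exact ⟨by linarith, by linarith, by linarith, by linarith, by linarith⟩

/-- PLAN: `fz_g_lab` with `s = l = δ`, `eb = 2 δ^(4 Ds + 9) ≤ δ^(4 Ds + 8)`, `en = 2 fzEn ..`, `f' = δ^-g1 Q.f` (`fzUp Q (Λ * Q.f) = fzEnl Λ Q` by `rfl`).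
`√(H/fs² 2^n) = rdD H n / fs ≤ Q.f` (`tc_unc`, `rdD`, `rdLen`, `Real.sqrt_div`..), `δ^(4Ds+9) ≤ δ^Ds = (δ^-Ds)⁻¹ ≤ Q.f` (`tc_bd`): `fzEn ≤ δ^(-g1/2) Q.f`;   `2 + 2 δ^(-g1/2) ≤ 4 δ^(-g1/2) ≤ δ^-g1` as soon as `4 ≤ 2^(n g1 / 2)`. -/
theorem fz_ao_lab_up {η : ℝ} {C A : ℕ} {Ds Dt g0 g1 : ℝ} (hDs : 0 < Ds) (hg1 : 0 < g1) (d : FzDat) (hd : d.Ok η C A Ds Dt g0) (hn : 1 ≤ d.n) (hn' : 4 ≤ g1 * d.n)
    (l : Fin d.L) (x : RdWvPar.Ph) (z' : Cy5) (hx : d.th l x ≠ 0)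
    (hz : cyNear ((2 : ℝ)⁻¹ ^ d.n) (2 * fzEb (4 * Ds + 9) d.n) (2 * fzEn (4 * Ds + 9) (g1 / 2) d.p.H d.fs d.n d.n) (fzFl d.fs x) z') :
    cyIn (fzEnl (d.s ^ (-g1)) (d.tc l)) d.s z' := by
  have hs0 : 0 < d.s := by unfold FzDat.s; positivity
  have hs2 : d.s ≤ 1 / 2 := by
    unfold FzDat.s
    calc (2 : ℝ)⁻¹ ^ d.n ≤ (2 : ℝ)⁻¹ ^ 1 := pow_le_pow_of_le_one (by norm_num) (by norm_num) hn
      _ = 1 / 2 := by norm_num
  have hs1 : d.s < 1 := by linarith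
  have hbd := hd.tc_bd l
  obtain ⟨-, -, -, -, -, qf, -, -⟩ := hbd
  have hfs := hd.fs_pos
  have hQf0 : 0 < (d.tc l).f := lt_of_lt_of_le (inv_pos.2 (Real.rpow_pos_of_pos hs0 _)) qf
  -- the two errors
  have eEb : fzEb (4 * Ds + 9) d.n = d.s ^ (4 * Ds + 9) := rfl
  have eEn : fzEn (4 * Ds + 9) (g1 / 2) d.p.H d.fs d.n d.n
      = max (d.s ^ (4 * Ds + 9)) (d.s ^ (-(g1 / 2)) * Real.sqrt (d.p.H / d.fs ^ 2 * 2 ^ d.n)) := rfl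
  have hp9 : 0 < d.s ^ (4 * Ds + 9) := Real.rpow_pos_of_pos hs0 _
  have heb1 : 2 * fzEb (4 * Ds + 9) d.n ≤ d.s ^ (4 * Ds + 8) := by
    have e : d.s ^ (4 * Ds + 9) = d.s ^ (4 * Ds + 8) * d.s := by
      rw [← Real.rpow_add_one hs0.ne']; congr 1; ring
    rw [eEb, e]
    have hp8 : 0 < d.s ^ (4 * Ds + 8) := Real.rpow_pos_of_pos hs0 _
    nlinarith
  have hsq : Real.sqrt (d.p.H / d.fs ^ 2 * 2 ^ d.n) ≤ (d.tc l).f := by
    have hu := (Real.sqrt_le_iff.1 (hd.tc_unc l)).2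
    rw [Real.sqrt_le_iff]
    refine ⟨hQf0.le, ?_⟩
    have e : d.p.H / d.fs ^ 2 * 2 ^ d.n = d.p.H / rdLen d.n / d.fs ^ 2 := by
      unfold rdLen
      rw [inv_pow]
      field_simp
    rw [e, div_le_iff₀ (by positivity)]
    calc d.p.H / rdLen d.n ≤ (d.fs * (d.tc l).f) ^ 2 := hu
      _ = (d.tc l).f ^ 2 * d.fs ^ 2 := by ring
  obtain ⟨Z, hZ⟩ : ∃ Z, Z = d.s ^ (-(g1 / 2)) := ⟨_, rfl⟩
  have hZ4 : 4 ≤ Z := by
    have hδ : d.s = (2 : ℝ) ^ (-(d.n : ℝ)) := by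
      unfold FzDat.s
      rw [Real.rpow_neg (by norm_num), Real.rpow_natCast, inv_pow]
    rw [hZ, hδ, ← Real.rpow_mul (by norm_num)]
    calc (4 : ℝ) = 2 ^ (2 : ℝ) := by
          rw [show (2 : ℝ) = ((2 : ℕ) : ℝ) by norm_num, Real.rpow_natCast]; norm_num
      _ ≤ 2 ^ (-(d.n : ℝ) * -(g1 / 2)) := Real.rpow_le_rpow_of_exponent_le (by norm_num) (by nlinarith)
  have hZZ : d.s ^ (-g1) = Z * Z := by
    rw [hZ, ← Real.rpow_add hs0]; congr 1; ring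
  have h9f : d.s ^ (4 * Ds + 9) ≤ (d.tc l).f := by
    refine le_trans ?_ qf
    rw [← Real.rpow_neg hs0.le, neg_neg]
    exact Real.rpow_le_rpow_of_exponent_ge hs0 hs1.le (by linarith)
  have hEn : fzEn (4 * Ds + 9) (g1 / 2) d.p.H d.fs d.n d.n ≤ Z * (d.tc l).f := by
    rw [eEn, ← hZ]
    refine max_le ?_ (mul_le_mul_of_nonneg_left hsq (by linarith))
    nlinarith
  have hEn0 : 0 ≤ fzEn (4 * Ds + 9) (g1 / 2) d.p.H d.fs d.n d.n := by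
    rw [eEn]; exact le_max_of_le_left hp9.le
  have key := fz_g_lab (s := d.s) (Ds := Ds) (l := d.s) (eb := 2 * fzEb (4 * Ds + 9) d.n)
    (en := 2 * fzEn (4 * Ds + 9) (g1 / 2) d.p.H d.fs d.n d.n) (f' := d.s ^ (-g1) * (d.tc l).f) (Q := d.tc l) (z := fzFl d.fs x) (z' := z')
    hs0 hs2 hDs hs0.le hs1.le (hd.tc_bd l) (by rw [eEb]; positivity) heb1 (by positivity) ?_ (hd.th_supp l x hx) hz
  · exact key
  · rw [hZZ]
    nlinarith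

/-! ## the base-out part -/

/-- **the base-out part is tiny** = `fz_du_box` (helper233) -/
theorem fz_ao_ou (Ds : ℝ) (hDs : 0 < Ds) : ∃ Zf : ℝ, ∀ g0 : ℝ, 0 < g0 → g0 ≤ 1 → ∀ C J : ℕ, ∃ A n0 : ℕ, ∀ (d : FzDat) (η Dt : ℝ) (j : Fin (2 * C + 20)),
    n0 ≤ d.n → d.Ok η C A Ds Dt g0 → d.fs ≤ d.s ^ Zf → ‖fzOu (d.P (fzS Ds)) (fzA C j) (d.s ^ (-g0) / 4) d.G‖ ^ 2 ≤ d.s ^ (J : ℝ) * d.e := by
  obtain ⟨Zf, hZ⟩ := fz_du_box (fzS Ds) (by unfold fzS; linarith)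
  refine ⟨Zf, fun g0 hg0 hg0' C J => ?_⟩
  obtain ⟨A, n0, h⟩ := hZ g0 hg0 hg0' C J
  exact ⟨A, n0, fun d η Dt j hn hd hf => h d η Ds Dt j hn hd hf⟩

end Claimed.Agent.R256
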