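-- KEEP
import Claimed.Agent.R256.Fz.MDefs

/-!
# Row 256 (LS paper), folder Fz, file Top : FLAT-RATE from IN + OUT, as an IMPLICATION          (leaf `L-256-FZ-TOP`, helper28; prefix `fz_top_`)          0 sorry

`Fz/Main.lean` as typed at 5f53d3f6d6 cannot be glued: `FzFlatRate` chooses `Zf` BEFORE `g0`, but `fz_out` takes `g0, g1` before its `∃ Zf` and `fz_in` produces `g1` after `g0`.
Repaired order (proposal of helper89, owner of IN; msg 35656):   the label enlargement `g1 ∈ (0,1]` is FREE in IN;   OUT: `Ds, g1 | Zf | g0 | C, J | A, n0`.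
* `FzInB η Γc`    the statement of IN in this order (conclusion verbatim `fz_in`).
* `FzOutB η`      the statement of OUT in this order (conclusion verbatim `fz_out`).
* `fz_top`        `FzInB η Γc → FzOutB η → FzFlatRate η Γc`.      No import of the proofs of IN / OUT is needed (`Seam` imports `Main`): the last file of the folder links the three.
* `fz_top_one`    the inequality for ONE flat wave from the conclusions of OUT and IN (independent of every order of quantifiers).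
-/

set_option autoImplicit false

namespace Claimed.Agent.R256

open MeasureTheory
open scoped ENNReal

/-- **IN**, `g1` free -/
def FzInB (η Γc : ℝ) : Prop :=
  ∀ γ Ds : ℝ, 0 < γ → 0 < Ds →
    ∃ Dt Zf : ℝ, 0 < Dt ∧ ∀ g0 g1 : ℝ, 0 < g0 → g0 ≤ 1 → 0 < g1 → g1 ≤ 1 → ∀ C : ℕ, ∃ A n0 : ℕ,
      ∀ d : FzDat, n0 ≤ d.n → d.Ok η C A Ds Dt g0 → d.fs ≤ d.s ^ Zf →
        ∀ (j : Fin (2 * C + 20)) (θ : Fin d.L → FzOm × ℝ × ℝ → ℝ), d.Asg (d.P (fzS Ds)) (fzA C j) (d.s ^ (-g1)) θ →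
          (d.xp η (d.P (fzS Ds)) (fzA C j) (d.s ^ (-g0) / 4) (d.s ^ (-g1)) θ).rd ≤ 2 ^ (-((1 / 2 - Γc - γ) * d.n)) * d.e * Real.sqrt d.bq

/-- **OUT**, `Zf` before `g0` -/
def FzOutB (η : ℝ) : Prop :=
  ∀ Ds g1 : ℝ, 0 < Ds → 0 < g1 →
    ∃ Zf : ℝ, ∀ g0 : ℝ, 0 < g0 → g0 ≤ 1 → ∀ C J : ℕ, ∃ A n0 : ℕ, ∀ (d : FzDat) (Dt : ℝ), n0 ≤ d.n → d.Ok η C A Ds Dt g0 → d.fs ≤ d.s ^ Zf →
      ∃ (θ : (j : Fin (2 * C + 20)) → Fin d.L → FzOm × ℝ × ℝ → ℝ) (er : Fin d.L → ℝ),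
        (∀ j, d.Asg (d.P (fzS Ds)) (fzA C j) (d.s ^ (-g1)) (θ j)) ∧ (∀ l, 0 ≤ er l) ∧ ∑ l, er l ≤ d.s ^ (J : ℝ) * d.e ∧
        ∀ l, d.m l ≤ 2 ^ 13 * (C + 10) * ∑ j, (d.xp η (d.P (fzS Ds)) (fzA C j) (d.s ^ (-g0) / 4) (d.s ^ (-g1)) (θ j)).m l + er l

theorem fz_top_eqns_cite : True := by
  have := @FzInB.eq_1
  have := @FzOutB.eq_1
  trivial

/-- power mean for `K Σ x + e` -/
theorem fz_top_pm {nb : ℕ} (x : Fin nb → ℝ) (e K : ℝ) (hx : ∀ j, 0 ≤ x j) (he : 0 ≤ e) (hK : 0 ≤ K) :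
    (K * ∑ j, x j + e) ^ (3 / 2 : ℝ)
      ≤ ((nb : ℝ) + 1) ^ (1 / 2 : ℝ) * (K ^ (3 / 2 : ℝ) * ∑ j, x j ^ (3 / 2 : ℝ) + e ^ (3 / 2 : ℝ)) := by
  have h := Real.rpow_sum_le_const_mul_sum_rpow_of_nonneg (Finset.univ : Finset (Option (Fin nb)))
    (f := fun o : Option (Fin nb) => o.elim e (fun j => K * x j)) (p := 3 / 2) (by norm_num) (by
      intro o _
      cases o with
      | none => exact he
      | some j => exact mul_nonneg hK (hx j))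
  simp only [Fintype.sum_option, Option.elim, Finset.card_univ, Fintype.card_option, Fintype.card_fin] at h
  have e1 : ∑ j, K * x j = K * ∑ j, x j := by rw [Finset.mul_sum]
  have e2 : ∑ j, (K * x j) ^ (3 / 2 : ℝ) = K ^ (3 / 2 : ℝ) * ∑ j, x j ^ (3 / 2 : ℝ) := by
    rw [Finset.mul_sum]
    exact Finset.sum_congr rfl fun j _ => Real.mul_rpow hK (hx j)
  rw [e1, e2] at h
  have e3 : ((3 : ℝ) / 2 - 1) = 1 / 2 := by norm_num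
  rw [e3] at h
  push_cast at h
  calc (K * ∑ j, x j + e) ^ (3 / 2 : ℝ) = (e + K * ∑ j, x j) ^ (3 / 2 : ℝ) := by rw [add_comm]
    _ ≤ _ := h
    _ = _ := by rw [add_comm (e ^ (3 / 2 : ℝ))]

/-- the error sum -/
theorem fz_top_err {L : ℕ} (er w : Fin L → ℝ) (T w0 : ℝ) (her : ∀ l, 0 ≤ er l) (hT : ∑ l, er l ≤ T) (hw0 : 0 < w0)
    (hw : ∀ l, w0 ≤ w l) : ∑ l, er l ^ (3 / 2 : ℝ) / Real.sqrt (w l) ≤ T ^ (3 / 2 : ℝ) / Real.sqrt w0 := by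
  have hT0 : 0 ≤ T := le_trans (Finset.sum_nonneg fun l _ => her l) hT
  have hs0 : 0 < Real.sqrt w0 := Real.sqrt_pos.2 hw0
  have h1 : ∀ l, er l ^ (3 / 2 : ℝ) / Real.sqrt (w l) ≤ er l * (T ^ (1 / 2 : ℝ) / Real.sqrt w0) := by
    intro l
    have hl : er l ≤ T := le_trans (Finset.single_le_sum (fun i _ => her i) (Finset.mem_univ l)) hT
    have e1 : er l ^ (3 / 2 : ℝ) = er l * er l ^ (1 / 2 : ℝ) := by
      rcases (her l).eq_or_lt with h | h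
      · rw [← h]; simp
      · rw [show (3 / 2 : ℝ) = 1 + 1 / 2 by norm_num, Real.rpow_add h, Real.rpow_one]
    rw [e1, mul_div_assoc]
    apply mul_le_mul_of_nonneg_left _ (her l)
    apply div_le_div₀ (Real.rpow_nonneg hT0 _) (Real.rpow_le_rpow (her l) hl (by norm_num)) hs0
      (Real.sqrt_le_sqrt (hw l))
  calc ∑ l, er l ^ (3 / 2 : ℝ) / Real.sqrt (w l) ≤ ∑ l, er l * (T ^ (1 / 2 : ℝ) / Real.sqrt w0) :=
        Finset.sum_le_sum fun l _ => h1 l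
    _ = (∑ l, er l) * (T ^ (1 / 2 : ℝ) / Real.sqrt w0) := by rw [Finset.sum_mul]
    _ ≤ T * (T ^ (1 / 2 : ℝ) / Real.sqrt w0) :=
        mul_le_mul_of_nonneg_right hT (div_nonneg (Real.rpow_nonneg hT0 _) hs0.le)
    _ = T ^ (3 / 2 : ℝ) / Real.sqrt w0 := by
        rcases hT0.eq_or_lt with h | h
        · rw [← h]; simp
        · rw [show (3 / 2 : ℝ) = 1 + 1 / 2 by norm_num, Real.rpow_add h, Real.rpow_one, mul_div_assoc]

/-- the cube sums -/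
theorem fz_top_sum {L nb : ℕ} (m er w : Fin L → ℝ) (x : Fin nb → Fin L → ℝ) (K : ℝ) (hm0 : ∀ l, 0 ≤ m l)
    (hx : ∀ j l, 0 ≤ x j l) (her : ∀ l, 0 ≤ er l) (hK : 0 ≤ K) (hm : ∀ l, m l ≤ K * ∑ j, x j l + er l) :
    ∑ l, m l ^ (3 / 2 : ℝ) / Real.sqrt (w l)
      ≤ ((nb : ℝ) + 1) ^ (1 / 2 : ℝ) * (K ^ (3 / 2 : ℝ) * ∑ j, ∑ l, x j l ^ (3 / 2 : ℝ) / Real.sqrt (w l)
          + ∑ l, er l ^ (3 / 2 : ℝ) / Real.sqrt (w l)) := by
  have h1 : ∀ l, m l ^ (3 / 2 : ℝ) / Real.sqrt (w l)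
      ≤ ((nb : ℝ) + 1) ^ (1 / 2 : ℝ) * (K ^ (3 / 2 : ℝ) * ∑ j, x j l ^ (3 / 2 : ℝ) / Real.sqrt (w l)
          + er l ^ (3 / 2 : ℝ) / Real.sqrt (w l)) := by
    intro l
    have h2 := le_trans (Real.rpow_le_rpow (hm0 l) (hm l) (by norm_num : (0 : ℝ) ≤ 3 / 2))
      (fz_top_pm (fun j => x j l) (er l) K (fun j => hx j l) (her l) hK)
    have h3 := div_le_div_of_nonneg_right h2 (Real.sqrt_nonneg (w l))
    refine le_trans h3 (le_of_eq ?_)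
    rw [← Finset.sum_div]
    ring
  refine le_trans (Finset.sum_le_sum fun l _ => h1 l) (le_of_eq ?_)
  rw [← Finset.mul_sum, Finset.sum_add_distrib, ← Finset.mul_sum, Finset.sum_comm]

/-- largeness -/
theorem fz_top_big (M c : ℝ) (hc : 0 < c) : ∃ n0 : ℕ, ∀ n : ℕ, n0 ≤ n → M ≤ 2 ^ (c * (n : ℝ)) := by
  rcases le_or_gt M 0 with hM | hM
  · exact ⟨0, fun n _ => le_trans hM (Real.rpow_nonneg (by norm_num) _)⟩
  · refine ⟨⌈Real.logb 2 M / c⌉₊, fun n hn => ?_⟩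
    rw [← Real.logb_le_iff_le_rpow (by norm_num) hM]
    have h1 : Real.logb 2 M / c ≤ n := le_trans (Nat.le_ceil _) (by exact_mod_cast hn)
    rw [div_le_iff₀ hc] at h1
    linarith

/-- absorbing a constant -/
theorem fz_top_num (M a c t B : ℝ) (hB : 0 ≤ B) (hM : 2 * M ≤ 2 ^ t) (h : t + a ≤ c) :
    M * 2 ^ a * B ≤ 2 ^ c * B / 2 := by
  have h2 : (0 : ℝ) < 2 ^ a := Real.rpow_pos_of_pos (by norm_num) _
  have h3 : (2 : ℝ) ^ t * 2 ^ a ≤ 2 ^ c := by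
    rw [← Real.rpow_add (by norm_num)]
    exact Real.rpow_le_rpow_of_exponent_le (by norm_num) h
  have h4 : 2 * M * 2 ^ a ≤ 2 ^ c := le_trans (mul_le_mul_of_nonneg_right hM h2.le) h3
  have h5 := mul_le_mul_of_nonneg_right h4 hB
  linarith

/-- the scale as a power of two -/
theorem fz_top_s (d : FzDat) (a : ℝ) : d.s ^ a = 2 ^ (-((d.n : ℝ) * a)) := by
  have h : d.s = 2 ^ (-(d.n : ℝ)) := by
    rw [FzDat.s, Real.rpow_neg (by norm_num), Real.rpow_natCast, inv_pow]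
  rw [h, ← Real.rpow_mul (by norm_num)]
  congr 1
  ring

/-- the weight of the enlarged test -/
theorem fz_top_wt (η Λ : ℝ) (Q : CyT) (hΛ : 0 ≤ Λ) (hr : 0 ≤ Q.r) (hf : 0 ≤ Q.f) :
    cyWt η (fzEnl Λ Q) = 2 ^ (3 + η) * Λ ^ (1 - η) * cyWt η Q := by
  simp only [cyWt, fzEnl]
  rw [Real.mul_rpow (by norm_num) hr, Real.mul_rpow hΛ hf]
  ring

/-- lower bound of the weight of a label test -/
theorem fz_top_wlo (η δ Ds : ℝ) (Q : CyT) (h0 : 0 < η) (h1 : η < 1) (hδ : 0 < δ) (hQ : fzBd (δ ^ (-Ds)) Q) :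
    0 < Q.r ∧ 0 < Q.f ∧ δ ^ (4 * Ds) ≤ cyWt η Q := by
  obtain ⟨-, -, -, hr, -, hf, -, -⟩ := hQ
  rw [Real.rpow_neg hδ.le, inv_inv] at hr hf
  have hp : 0 < δ ^ Ds := Real.rpow_pos_of_pos hδ _
  refine ⟨lt_of_lt_of_le hp hr, lt_of_lt_of_le hp hf, ?_⟩
  have e1 : δ ^ (4 * Ds) = (δ ^ Ds) ^ (3 + η) * (δ ^ Ds) ^ (1 - η) := by
    rw [← Real.rpow_add hp, ← Real.rpow_mul hδ.le]
    congr 1
    ring
  rw [e1, cyWt]
  exact mul_le_mul (Real.rpow_le_rpow hp.le hr (by linarith)) (Real.rpow_le_rpow hp.le hf (by linarith))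
    (Real.rpow_nonneg hp.le _) (Real.rpow_nonneg (le_trans hp.le hr) _)

/-- FLAT-RATE for one flat wave, from the conclusions of OUT and IN -/
theorem fz_top_one (η Γc γ γ' g0 g1 Ds Dt : ℝ) (C A J : ℕ) (d : FzDat) (h0 : 0 < η) (h1 : η < 1) (hc0 : 0 ≤ Γc)
    (hγ : 0 < γ) (hγ' : γ' ≤ γ / 4) (hg1 : 0 < g1) (hg1' : g1 ≤ γ / 4) (hDs : 0 < Ds) (hJ : (C : ℝ) + 4 * Ds + 4 ≤ J)
    (hd : d.Ok η C A Ds Dt g0) (P : FzP) (R : ℝ)
    (θ : (j : Fin (2 * C + 20)) → Fin d.L → FzOm × ℝ × ℝ → ℝ) (er : Fin d.L → ℝ)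
    (hθ : ∀ j l x, 0 ≤ θ j l x) (her : ∀ l, 0 ≤ er l) (hsum : ∑ l, er l ≤ d.s ^ (J : ℝ) * d.e)
    (hm : ∀ l, d.m l ≤ 2 ^ 13 * (C + 10) * ∑ j, (d.xp η P (fzA C j) R (d.s ^ (-g1)) (θ j)).m l + er l)
    (hin : ∀ j, (d.xp η P (fzA C j) R (d.s ^ (-g1)) (θ j)).rd ≤ 2 ^ (-((1 / 2 - Γc - γ') * d.n)) * d.e * Real.sqrt d.bq)
    (hn1 : 2 * ((((2 * C + 20 : ℕ) : ℝ) + 1) ^ (1 / 2 : ℝ) * (2 ^ 13 * ((C : ℝ) + 10)) ^ (3 / 2 : ℝ) * ((2 * C + 20 : ℕ) : ℝ)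
        * Real.sqrt (2 ^ (3 + η))) ≤ 2 ^ (γ / 2 * (d.n : ℝ)))
    (hn2 : 2 * (((2 * C + 20 : ℕ) : ℝ) + 1) ^ (1 / 2 : ℝ) ≤ 2 ^ (1 * (d.n : ℝ))) :
    d.rd η ≤ 2 ^ (-((1 / 2 - Γc - γ) * d.n)) * d.e * Real.sqrt d.bq := by
  have hδ : 0 < d.s := by
    rw [FzDat.s]; positivity
  have hn : (0 : ℝ) ≤ d.n := Nat.cast_nonneg _
  set Λ : ℝ := d.s ^ (-g1) with hΛdef
  have hΛ : 0 < Λ := Real.rpow_pos_of_pos hδ _
  set B : ℝ := d.e * Real.sqrt d.bq with hB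
  have hB0 : 0 ≤ B := mul_nonneg hd.e_pos.le (Real.sqrt_nonneg _)
  set K : ℝ := 2 ^ 13 * ((C : ℝ) + 10) with hK
  have hK0 : 0 ≤ K := by positivity
  have hw := fun l => fz_top_wlo η d.s Ds (d.tc l) h0 h1 hδ (hd.tc_bd l)
  -- nonnegativity of the masses
  have hm0 : ∀ l, 0 ≤ d.m l := fun l =>
    integral_nonneg fun x => mul_nonneg (hd.th_nn l x) (by positivity)
  have hx0 : ∀ j l, 0 ≤ (d.xp η P (fzA C j) R Λ (θ j)).m l := fun j l =>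
    integral_nonneg fun x => mul_nonneg (hθ j l x) (by positivity)
  -- cube sums
  have s1 := fz_top_sum (fun l => d.m l) er (fun l => cyWt η (d.tc l))
    (fun j l => (d.xp η P (fzA C j) R Λ (θ j)).m l) K hm0 hx0 her hK0 hm
  -- the weights
  set c : ℝ := Real.sqrt (2 ^ (3 + η) * Λ ^ (1 - η)) with hc
  have hc0' : 0 < c := Real.sqrt_pos.2 (by positivity)
  have s2 : ∀ j, ∑ l, (d.xp η P (fzA C j) R Λ (θ j)).m l ^ (3 / 2 : ℝ) / Real.sqrt (cyWt η (d.tc l))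
      = c * (d.xp η P (fzA C j) R Λ (θ j)).rd := by
    intro j
    have e : (d.xp η P (fzA C j) R Λ (θ j)).rd
        = ∑ l : Fin d.L, (d.xp η P (fzA C j) R Λ (θ j)).m l ^ (3 / 2 : ℝ) / Real.sqrt (cyWt η (fzEnl Λ (d.tc l))) := rfl
    rw [e, Finset.mul_sum]
    refine Finset.sum_congr rfl fun l _ => ?_
    rw [fz_top_wt η Λ (d.tc l) hΛ.le (hw l).1.le (hw l).2.1.le, Real.sqrt_mul (by positivity), ← hc]
    have : 0 < Real.sqrt (cyWt η (d.tc l)) :=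
      Real.sqrt_pos.2 (lt_of_lt_of_le (Real.rpow_pos_of_pos hδ _) (hw l).2.2)
    field_simp
  -- main term
  have s3 : ∑ j : Fin (2 * C + 20), ∑ l, (d.xp η P (fzA C j) R Λ (θ j)).m l ^ (3 / 2 : ℝ) / Real.sqrt (cyWt η (d.tc l))
      ≤ ((2 * C + 20 : ℕ) : ℝ) * (c * (2 ^ (-((1 / 2 - Γc - γ') * d.n)) * B)) := by
    calc _ = ∑ j : Fin (2 * C + 20), c * (d.xp η P (fzA C j) R Λ (θ j)).rd := Finset.sum_congr rfl fun j _ => s2 j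
      _ ≤ ∑ _j : Fin (2 * C + 20), c * (2 ^ (-((1 / 2 - Γc - γ') * d.n)) * B) := by
          refine Finset.sum_le_sum fun j _ => mul_le_mul_of_nonneg_left ?_ hc0'.le
          have := hin j
          rw [hB, ← mul_assoc]
          exact this
      _ = _ := by rw [Finset.sum_const, Finset.card_univ, Fintype.card_fin, nsmul_eq_mul]
  have ec : c = Real.sqrt (2 ^ (3 + η)) * 2 ^ ((d.n : ℝ) * g1 * (1 - η) / 2) := by
    have eΛ : Real.sqrt (Λ ^ (1 - η)) = 2 ^ ((d.n : ℝ) * g1 * (1 - η) / 2) := by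
      rw [hΛdef, fz_top_s, ← Real.rpow_mul (by norm_num), Real.sqrt_eq_rpow, ← Real.rpow_mul (by norm_num)]
      congr 1
      ring
    rw [hc, Real.sqrt_mul (by positivity), eΛ]
  -- error term
  have s4 := fz_top_err er (fun l => cyWt η (d.tc l)) (d.s ^ (J : ℝ) * d.e) (d.s ^ (4 * Ds)) her hsum
    (Real.rpow_pos_of_pos hδ _) (fun l => (hw l).2.2)
  have s5 : (d.s ^ (J : ℝ) * d.e) ^ (3 / 2 : ℝ) / Real.sqrt (d.s ^ (4 * Ds))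
      ≤ 2 ^ (-((d.n : ℝ) * (3 * J / 2 - C / 2 - 2 * Ds))) * B := by
    have e1 : (d.s ^ (J : ℝ) * d.e) ^ (3 / 2 : ℝ) = d.s ^ (3 * (J : ℝ) / 2) * (d.e * Real.sqrt d.e) := by
      rw [Real.mul_rpow (Real.rpow_nonneg hδ.le _) hd.e_pos.le, ← Real.rpow_mul hδ.le,
        show (3 / 2 : ℝ) = 1 + 1 / 2 by norm_num, Real.rpow_add hd.e_pos, Real.rpow_one, ← Real.sqrt_eq_rpow]
      congr 2
      ring
    have e2 : Real.sqrt (d.s ^ (4 * Ds)) = d.s ^ (2 * Ds) := by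
      rw [Real.sqrt_eq_rpow, ← Real.rpow_mul hδ.le]
      congr 1
      ring
    have e3 : Real.sqrt d.e ≤ d.s ^ (-((C : ℝ) / 2)) * Real.sqrt d.bq := by
      have := Real.sqrt_le_sqrt hd.e_hi
      rw [Real.sqrt_mul (Real.rpow_nonneg hδ.le _), Real.sqrt_eq_rpow (d.s ^ _), ← Real.rpow_mul hδ.le] at this
      convert this using 3
      ring
    have e4 : (2 : ℝ) ^ (-((d.n : ℝ) * (3 * J / 2 - C / 2 - 2 * Ds)))
        = d.s ^ (3 * (J : ℝ) / 2) * d.s ^ (-((C : ℝ) / 2)) / d.s ^ (2 * Ds) := by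
      rw [← Real.rpow_add hδ, ← Real.rpow_sub hδ, fz_top_s]
      congr 1
    rw [e1, e2, e4, hB]
    have hp1 : 0 < d.s ^ (2 * Ds) := Real.rpow_pos_of_pos hδ _
    have hp2 : 0 < d.s ^ (3 * (J : ℝ) / 2) := Real.rpow_pos_of_pos hδ _
    rw [div_le_iff₀ hp1]
    calc d.s ^ (3 * (J : ℝ) / 2) * (d.e * Real.sqrt d.e)
        ≤ d.s ^ (3 * (J : ℝ) / 2) * (d.e * (d.s ^ (-((C : ℝ) / 2)) * Real.sqrt d.bq)) :=
          mul_le_mul_of_nonneg_left (mul_le_mul_of_nonneg_left e3 hd.e_pos.le) hp2.le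
      _ = _ := by field_simp
  -- numerics
  have n1 := fz_top_num ((((2 * C + 20 : ℕ) : ℝ) + 1) ^ (1 / 2 : ℝ) * K ^ (3 / 2 : ℝ) * ((2 * C + 20 : ℕ) : ℝ) * Real.sqrt (2 ^ (3 + η)))
    ((d.n : ℝ) * g1 * (1 - η) / 2 + -((1 / 2 - Γc - γ') * d.n)) (-((1 / 2 - Γc - γ) * d.n)) (γ / 2 * (d.n : ℝ)) B hB0 hn1 (by
      have a1 : g1 * (1 - η) ≤ γ / 4 := by nlinarith
      have a2 : (d.n : ℝ) * (g1 * (1 - η)) ≤ d.n * (γ / 4) := mul_le_mul_of_nonneg_left a1 hn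
      have a3 : (d.n : ℝ) * γ' ≤ d.n * (γ / 4) := mul_le_mul_of_nonneg_left hγ' hn
      have a4 : 0 ≤ (d.n : ℝ) * γ := mul_nonneg hn hγ.le
      nlinarith)
  have n2 := fz_top_num ((((2 * C + 20 : ℕ) : ℝ) + 1) ^ (1 / 2 : ℝ)) (-((d.n : ℝ) * (3 * J / 2 - C / 2 - 2 * Ds)))
    (-((1 / 2 - Γc - γ) * d.n)) (1 * (d.n : ℝ)) B hB0 hn2 (by
      have a1 : (6 : ℝ) ≤ 3 * J / 2 - C / 2 - 2 * Ds := by
        have : (0 : ℝ) ≤ C := Nat.cast_nonneg _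
        linarith
      have a2 : (d.n : ℝ) * 6 ≤ d.n * (3 * J / 2 - C / 2 - 2 * Ds) := mul_le_mul_of_nonneg_left a1 hn
      have a3 : 0 ≤ (d.n : ℝ) * γ := mul_nonneg hn hγ.le
      have a4 : 0 ≤ (d.n : ℝ) * Γc := mul_nonneg hn hc0
      nlinarith)
  have hq : (0 : ℝ) ≤ (((2 * C + 20 : ℕ) : ℝ) + 1) ^ (1 / 2 : ℝ) := by positivity
  have hK3 : (0 : ℝ) ≤ K ^ (3 / 2 : ℝ) := Real.rpow_nonneg hK0 _
  calc d.rd η ≤ _ := s1
    _ ≤ (((2 * C + 20 : ℕ) : ℝ) + 1) ^ (1 / 2 : ℝ) * (K ^ (3 / 2 : ℝ) * (((2 * C + 20 : ℕ) : ℝ) * (c * (2 ^ (-((1 / 2 - Γc - γ') * d.n)) * B)))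
          + 2 ^ (-((d.n : ℝ) * (3 * J / 2 - C / 2 - 2 * Ds))) * B) :=
        mul_le_mul_of_nonneg_left (add_le_add (mul_le_mul_of_nonneg_left s3 hK3) (le_trans s4 s5)) hq
    _ = (((2 * C + 20 : ℕ) : ℝ) + 1) ^ (1 / 2 : ℝ) * K ^ (3 / 2 : ℝ) * ((2 * C + 20 : ℕ) : ℝ) * Real.sqrt (2 ^ (3 + η))
            * 2 ^ ((d.n : ℝ) * g1 * (1 - η) / 2 + -((1 / 2 - Γc - γ') * d.n)) * B
          + (((2 * C + 20 : ℕ) : ℝ) + 1) ^ (1 / 2 : ℝ) * 2 ^ (-((d.n : ℝ) * (3 * J / 2 - C / 2 - 2 * Ds))) * B := by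
        rw [ec, Real.rpow_add (by norm_num : (0 : ℝ) < 2) ((d.n : ℝ) * g1 * (1 - η) / 2) (-((1 / 2 - Γc - γ') * d.n))]
        generalize (((2 * C + 20 : ℕ) : ℝ) + 1) ^ (1 / 2 : ℝ) = q1
        generalize K ^ (3 / 2 : ℝ) = q2
        generalize Real.sqrt (2 ^ (3 + η)) = q3
        generalize (2 : ℝ) ^ ((d.n : ℝ) * g1 * (1 - η) / 2) = q4
        generalize (2 : ℝ) ^ (-((1 / 2 - Γc - γ') * (d.n : ℝ))) = q5
        generalize (2 : ℝ) ^ (-((d.n : ℝ) * (3 * J / 2 - C / 2 - 2 * Ds))) = q6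
        ring
    _ ≤ 2 ^ (-((1 / 2 - Γc - γ) * d.n)) * B / 2 + 2 ^ (-((1 / 2 - Γc - γ) * d.n)) * B / 2 := add_le_add n1 n2
    _ = _ := by rw [hB]; ring

/-- the tail order may be lowered -/
theorem fz_top_okA {d : FzDat} {η : ℝ} {C A A' : ℕ} {Ds Dt g0 : ℝ} (h : d.Ok η C A Ds Dt g0) (hA : A' ≤ A) :
    d.Ok η C A' Ds Dt g0 := by
  have hδ : 0 < d.s := by
    rw [FzDat.s]; positivity
  have hδ1 : d.s ≤ 1 := by
    rw [FzDat.s]; exact pow_le_one₀ (by norm_num) (by norm_num)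
  exact { h with
    root := le_trans h.root (mul_le_mul_of_nonneg_right
      (Real.rpow_le_rpow_of_exponent_ge hδ hδ1 (by exact_mod_cast hA)) h.e_pos.le) }

/-- the flatness exponent may be lowered -/
theorem fz_top_Zf {d : FzDat} {Z Z' : ℝ} (h : d.fs ≤ d.s ^ Z) (hZ : Z' ≤ Z) : d.fs ≤ d.s ^ Z' := by
  have hδ : 0 < d.s := by
    rw [FzDat.s]; positivity
  have hδ1 : d.s ≤ 1 := by
    rw [FzDat.s]; exact pow_le_one₀ (by norm_num) (by norm_num)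
  exact le_trans h (Real.rpow_le_rpow_of_exponent_ge hδ hδ1 hZ)

/-- **FLAT-RATE from IN + OUT** -/
theorem fz_top (η Γc : ℝ) (h0 : 0 < η) (h1 : η < 1) (hc0 : 0 ≤ Γc) (hI : FzInB η Γc) (hO : FzOutB η) : FzFlatRate η Γc := by
  intro γ Ds hγ hDs
  have hg1 : 0 < min (γ / 4) 1 := lt_min (by positivity) one_pos
  obtain ⟨Dt, Zf1, hDt, hin⟩ := hI (γ / 4) Ds (by positivity) hDs
  obtain ⟨Zf2, hout⟩ := hO Ds (min (γ / 4) 1) hDs hg1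
  refine ⟨Dt, max Zf1 Zf2, hDt, fun g0 hg0 hg0' C => ?_⟩
  obtain ⟨A1, n1, hin⟩ := hin g0 (min (γ / 4) 1) hg0 hg0' hg1 (min_le_right _ _) C
  obtain ⟨A2, n2, hout⟩ := hout g0 hg0 hg0' C (C + ⌈4 * Ds⌉₊ + 4)
  obtain ⟨n3, hn3⟩ := fz_top_big (2 * ((((2 * C + 20 : ℕ) : ℝ) + 1) ^ (1 / 2 : ℝ) * (2 ^ 13 * ((C : ℝ) + 10)) ^ (3 / 2 : ℝ)
    * ((2 * C + 20 : ℕ) : ℝ) * Real.sqrt (2 ^ (3 + η)))) (γ / 2) (by positivity)
  obtain ⟨n4, hn4⟩ := fz_top_big (2 * (((2 * C + 20 : ℕ) : ℝ) + 1) ^ (1 / 2 : ℝ)) 1 one_pos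
  refine ⟨max A1 A2, max (max n1 n2) (max n3 n4), fun d hn hd hfs => ?_⟩
  have hn1 : n1 ≤ d.n := le_trans (le_trans (le_max_left _ _) (le_max_left _ _)) hn
  have hn2 : n2 ≤ d.n := le_trans (le_trans (le_max_right _ _) (le_max_left _ _)) hn
  have hn3' : n3 ≤ d.n := le_trans (le_trans (le_max_left _ _) (le_max_right _ _)) hn
  have hn4' : n4 ≤ d.n := le_trans (le_trans (le_max_right _ _) (le_max_right _ _)) hn
  obtain ⟨θ, er, hθ, her, hsum, hm⟩ := hout d Dt hn2 (fz_top_okA hd (le_max_right _ _)) (fz_top_Zf hfs (le_max_right _ _))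
  refine fz_top_one η Γc γ (γ / 4) g0 (min (γ / 4) 1) Ds Dt C _ (C + ⌈4 * Ds⌉₊ + 4) d h0 h1 hc0 hγ le_rfl hg1 (min_le_left _ _) hDs
    ?_ hd _ _ θ er (fun j => (hθ j).nn) her hsum hm
    (fun j => hin d hn1 (fz_top_okA hd (le_max_left _ _)) (fz_top_Zf hfs (le_max_left _ _)) j (θ j) (hθ j)) (hn3 _ hn3') (hn4 _ hn4')
  push_cast
  have := Nat.le_ceil (4 * Ds)
  linarith

end Claimed.Agent.R256
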