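-- KEEP
import Claimed.Agent.R256.Fz.AsmOutDec
import Claimed.Agent.R256.Fz.Top

/-!
# Row 256 (LS paper), folder Fz, unit FZ-OUT, file AsmOut : **OUT**          (architect helper199; chief helper207; prefix `fz_ao_`)          GLUE

`fz_ao_outB : FzOutB η` = `fz_out` of `Fz/Main.lean`.      Per band `j` and time slice `i < 2^n`:   `u j i = C0 (w j i)`, `w j i = I_j(T_i, n) fzSt_j`, `o j i = C0 (I_j fzOu_j)`;   `An_round(T_i, n, bT) G = Σ_j u j i + Σ_j o j i` (`fz_ao_dec`).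
`m l ≤ M (Σ_j ∫ θ_l |u j|² + Σ_j ∫ θ_l |o j|²)`, `M = 2 (2C+20)` (`fz_ao_sum_sq`);   `∫ θ_l |u j|² ≤ 486 m'_j l + er_j l` (`fz_ao_xf`, `fz_ao_slice`);   `Σ_l ∫ θ_l |o j|² ≤ 2^n ‖fzOu_j‖²` (`fz_ao_lab_sum`, `fz_ao_ou`).
-/

set_option autoImplicit false

namespace Claimed.Agent.R256

open MeasureTheory
open scoped ENNReal InnerProductSpace

/-- a weight of a fractional assignment is at most one -/
theorem fz_ao_th_le {X : Type} {L : ℕ} (iv : Fin L → ℕ) (th : Fin L → X → ℝ) (h0 : ∀ l x, 0 ≤ th l x)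
    (hs : ∀ i x, ∑ l, (if iv l = i then th l x else 0) ≤ 1) (l : Fin L) (x : X) : th l x ≤ 1 := by
  refine le_trans ?_ (hs (iv l) x)
  have h := Finset.single_le_sum (f := fun l' => if iv l' = iv l then th l' x else 0) (fun l' _ => by
    show 0 ≤ if iv l' = iv l then th l' x else 0
    split_ifs
    · exact h0 l' x
    · exact le_rfl) (Finset.mem_univ l)
  simpa using h

/-- the numbers of the final error -/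
theorem fz_ao_out_num (C J n : ℕ) (hn : 4 * (2 * C + 20) ^ 2 ≤ 2 ^ n) (e : ℝ) (he : 0 ≤ e) :
    (2 * (2 * (C : ℝ) + 20)) * ((2 * (C : ℝ) + 20) * ((2 ^ n : ℕ) * (((2 : ℝ)⁻¹ ^ n) ^ ((J + 2 : ℕ) : ℝ) * e))
      + (2 * (C : ℝ) + 20) * ((2 ^ n : ℕ) * (((2 : ℝ)⁻¹ ^ n) ^ ((J + 2 : ℕ) : ℝ) * e))) ≤ ((2 : ℝ)⁻¹ ^ n) ^ (J : ℝ) * e := by
  rw [Real.rpow_natCast, Real.rpow_natCast, pow_add]
  set δ : ℝ := (2 : ℝ)⁻¹ ^ n with hδ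
  have hδ0 : 0 < δ := by positivity
  have h2 : ((2 ^ n : ℕ) : ℝ) * δ = 1 := by
    rw [hδ]; push_cast
    rw [← mul_pow]; norm_num
  have hn' : 4 * (2 * (C : ℝ) + 20) ^ 2 ≤ ((2 ^ n : ℕ) : ℝ) := by exact_mod_cast hn
  have h3 : 4 * (2 * (C : ℝ) + 20) ^ 2 * δ ≤ 1 := by
    rw [← h2]; exact mul_le_mul_of_nonneg_right hn' hδ0.le
  have h4 : 0 ≤ δ ^ J * e := by positivity
  calc (2 * (2 * (C : ℝ) + 20)) * ((2 * (C : ℝ) + 20) * ((2 ^ n : ℕ) * (δ ^ J * δ ^ 2 * e)) + (2 * (C : ℝ) + 20) * ((2 ^ n : ℕ) * (δ ^ J * δ ^ 2 * e)))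
      = (4 * (2 * (C : ℝ) + 20) ^ 2 * δ) * (((2 ^ n : ℕ) : ℝ) * δ) * (δ ^ J * e) := by ring
    _ ≤ 1 * 1 * (δ ^ J * e) := by rw [h2]; exact mul_le_mul_of_nonneg_right (by linarith) h4
    _ = δ ^ J * e := by ring

/-- **OUT for one flat wave**, all constants fixed -/
theorem fz_ao_one (η Ds g0 g1 Dt Zf : ℝ) (hDs : 0 < Ds) (hg1 : 0 < g1) (C J A : ℕ) (d : FzDat) (hd : d.Ok η C A Ds Dt g0) (hZ : d.fs ≤ d.s ^ Zf)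
    (hn1 : C + 12 ≤ d.n) (hn2 : 4 ≤ g1 * d.n) (hn3 : 4 * (2 * C + 20) ^ 2 ≤ 2 ^ d.n)
    (hX : ∀ (h : (fzPn d.p.H d.fs (fzS Ds) d.n).Ok) (j : Fin (2 * C + 20)) (T : ℝ) (k β : ℕ), FzCutH C Zf d.p.H d.fs d.n T k β →
      ∀ w : Lp ℂ 2 (fzHy (fzPn d.p.H d.fs (fzS Ds) d.n) (fzA C j)).rw,
        RtXf (((fzPn d.p.H d.fs (fzS Ds) d.n).rd h).rw k) (fun z => ‖(fzC0 (fzPn d.p.H d.fs (fzS Ds) d.n) h (fzA C j) T k β w : RdWvPar.Ph → ℂ) z‖ₑ ^ 2)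
          (fzHy (fzPn d.p.H d.fs (fzS Ds) d.n) (fzA C j)).rw (fun z' => ‖(w : FzOm × ℝ × ℝ → ℂ) z'‖ₑ ^ 2)
          (fun z z' => cyNear ((2 : ℝ)⁻¹ ^ k) (2 * fzEb (4 * Ds + 9) d.n) (2 * fzEn (4 * Ds + 9) (g1 / 2) d.p.H d.fs d.n k) (fzFl d.fs z)
            ((fzHy (fzPn d.p.H d.fs (fzS Ds) d.n) (fzA C j)).co T z'))
          (fzIn d.fs (((2 : ℝ)⁻¹ ^ d.n) ^ (-(fzS Ds / 4)))) (ENNReal.ofReal 486) (ENNReal.ofReal (((2 : ℝ)⁻¹ ^ d.n) ^ ((J + 2 : ℕ) : ℝ) * ‖w‖ ^ 2)))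
    (hO : ∀ j : Fin (2 * C + 20), ‖fzOu (d.P (fzS Ds)) (fzA C j) (d.s ^ (-g0) / 4) d.G‖ ^ 2 ≤ d.s ^ ((J + 2 : ℕ) : ℝ) * d.e) :
    ∃ (θ : (j : Fin (2 * C + 20)) → Fin d.L → FzOm × ℝ × ℝ → ℝ) (er : Fin d.L → ℝ),
      (∀ j, d.Asg (d.P (fzS Ds)) (fzA C j) (d.s ^ (-g1)) (θ j)) ∧ (∀ l, 0 ≤ er l) ∧ ∑ l, er l ≤ d.s ^ (J : ℝ) * d.e ∧
      ∀ l, d.m l ≤ 2 ^ 13 * (C + 10) * ∑ j, (d.xp η (d.P (fzS Ds)) (fzA C j) (d.s ^ (-g0) / 4) (d.s ^ (-g1)) (θ j)).m l + er l := by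
  have hP : (d.P (fzS Ds)).Ok := fz_ao_P_ok d hd _
  have hS0 : 0 ≤ fzS Ds := by unfold fzS; linarith
  have hn' : 2 ≤ d.n := by omega
  have he : 0 ≤ d.e := hd.e_pos.le
  set P := d.P (fzS Ds) with hPdef
  set R := d.s ^ (-g0) / 4 with hR
  -- the row functions
  let w : (j : Fin (2 * C + 20)) → ℕ → Lp ℂ 2 (fzHy P (fzA C j)).rw := fun j i => (fzHy P (fzA C j)).an (tmL d.n i) d.n (fzSt P (fzA C j) R d.G)
  let u : Fin (2 * C + 20) → ℕ → Lp ℂ 2 ((P.rd hP).rw d.n) := fun j i => fzC0 P hP (fzA C j) (tmL d.n i) d.n d.bT (w j i)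
  let o : Fin (2 * C + 20) → ℕ → Lp ℂ 2 ((P.rd hP).rw d.n) := fun j i =>
    fzC0 P hP (fzA C j) (tmL d.n i) d.n d.bT ((fzHy P (fzA C j)).an (tmL d.n i) d.n (fzOu P (fzA C j) R d.G))
  have hw : ∀ j i, ‖w j i‖ ^ 2 ≤ d.e := fun j i => by
    have h1 : ‖w j i‖ = ‖fzSt P (fzA C j) R d.G‖ := hy_an_norm _ (fz_hy_ok P hP _ (fz_ao_A_pos C j)) _ _ _
    have h2 := fz_ao_st_norm P hP (fzA C j) R d.G
    calc ‖w j i‖ ^ 2 ≤ ‖d.G‖ ^ 2 := by rw [h1]; exact pow_le_pow_left₀ (norm_nonneg _) h2 2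
      _ ≤ d.e := hd.budget
  have ho : ∀ j i, ‖o j i‖ ^ 2 ≤ d.s ^ ((J + 2 : ℕ) : ℝ) * d.e := fun j i => by
    have h1 : ‖(fzHy P (fzA C j)).an (tmL d.n i) d.n (fzOu P (fzA C j) R d.G)‖ = ‖fzOu P (fzA C j) R d.G‖ :=
      hy_an_norm _ (fz_hy_ok P hP _ (fz_ao_A_pos C j)) _ _ _
    have h2 := fz_c0_contr P hP (fzA C j) (fz_ao_A_pos C j) (tmL d.n i) d.n d.bT ((fzHy P (fzA C j)).an (tmL d.n i) d.n (fzOu P (fzA C j) R d.G))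
    calc ‖o j i‖ ^ 2 ≤ ‖fzOu P (fzA C j) R d.G‖ ^ 2 := pow_le_pow_left₀ (norm_nonneg _) (h1 ▸ h2) 2
      _ ≤ _ := hO j
  have hδ0 : (0 : ℝ) ≤ ((2 : ℝ)⁻¹ ^ d.n) ^ ((J + 2 : ℕ) : ℝ) := by positivity
  -- the transfers
  have hsl : ∀ j : Fin (2 * C + 20), ∃ (θ : Fin d.L → FzOm × ℝ × ℝ → ℝ) (er : Fin d.L → ℝ), (∀ l, Measurable (θ l)) ∧ (∀ l z', 0 ≤ θ l z') ∧
      (∀ i z', ∑ l, (if d.iv l = i then θ l z' else 0) ≤ 1) ∧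
      (∀ l z', θ l z' ≠ 0 → ∃ z, d.th l z ≠ 0 ∧ cyNear ((2 : ℝ)⁻¹ ^ d.n) (2 * fzEb (4 * Ds + 9) d.n) (2 * fzEn (4 * Ds + 9) (g1 / 2) d.p.H d.fs d.n d.n)
        (fzFl d.fs z) ((fzHy P (fzA C j)).co (tmL d.n (d.iv l)) z')) ∧ (∀ l, 0 ≤ er l) ∧
      ∑ l, er l ≤ (2 ^ d.n : ℕ) * (((2 : ℝ)⁻¹ ^ d.n) ^ ((J + 2 : ℕ) : ℝ) * d.e) ∧
      ∀ l, ∫ z, d.th l z * ‖(u j (d.iv l) : RdWvPar.Ph → ℂ) z‖ ^ 2 ∂((P.rd hP).rw d.n)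
        ≤ 486 * ∫ z', θ l z' * ‖(w j (d.iv l) : FzOm × ℝ × ℝ → ℂ) z'‖ ^ 2 ∂(fzHy P (fzA C j)).rw + er l := fun j => by
    refine fz_ao_slice d.L (2 ^ d.n) d.iv hd.iv_in d.th hd.th_meas hd.th_nn hd.th_sum (u j) (w j)
      (fun i z z' => cyNear ((2 : ℝ)⁻¹ ^ d.n) (2 * fzEb (4 * Ds + 9) d.n) (2 * fzEn (4 * Ds + 9) (g1 / 2) d.p.H d.fs d.n d.n)
        (fzFl d.fs z) ((fzHy P (fzA C j)).co (tmL d.n i) z'))
      (fzIn d.fs (((2 : ℝ)⁻¹ ^ d.n) ^ (-(fzS Ds / 4)))) (fun l z hz => fz_ao_lab_in hDs d hd hn' l z hz) 486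
      (((2 : ℝ)⁻¹ ^ d.n) ^ ((J + 2 : ℕ) : ℝ) * d.e) (by norm_num) (mul_nonneg hδ0 he) (fun i hi => ?_)
    exact rt_xa_mono (hX hP j (tmL d.n i) d.n d.bT (fz_ao_cut d hd hZ i hi) (w j i)) (fun _ _ _ h => h) subset_rfl le_rfl
      (ENNReal.ofReal_le_ofReal (mul_le_mul_of_nonneg_left (hw j i) hδ0))
  choose θ er hθm hθ0 hθs hθc her0 hers hmain using hsl
  have hth1 : ∀ l x, d.th l x ≤ 1 := fz_ao_th_le d.iv d.th hd.th_nn hd.th_sum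
  have hoi0 : ∀ j l, 0 ≤ ∫ z, d.th l z * ‖(o j (d.iv l) : RdWvPar.Ph → ℂ) z‖ ^ 2 ∂((P.rd hP).rw d.n) := fun j l =>
    integral_nonneg fun z => mul_nonneg (hd.th_nn l z) (by positivity)
  have hM0 : (0 : ℝ) ≤ 2 * (2 * (C : ℝ) + 20) := by positivity
  refine ⟨θ, fun l => (2 * (2 * (C : ℝ) + 20)) * (∑ j, er j l + ∑ j, ∫ z, d.th l z * ‖(o j (d.iv l) : RdWvPar.Ph → ℂ) z‖ ^ 2 ∂((P.rd hP).rw d.n)),
    fun j => ⟨hθm j, hθ0 j, hθs j, fun l x hx => ?_⟩, fun l => ?_, ?_, fun l => ?_⟩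
  · obtain ⟨z, hz, hnear⟩ := hθc j l x hx
    exact fz_ao_lab_up hDs hg1 d hd (by omega) hn2 l z _ hz hnear
  · exact mul_nonneg hM0 (add_nonneg (Finset.sum_nonneg fun j _ => her0 j l) (Finset.sum_nonneg fun j _ => hoi0 j l))
  · rw [← Finset.mul_sum, Finset.sum_add_distrib, Finset.sum_comm, Finset.sum_comm (s := Finset.univ (α := Fin d.L))]
    have hob : ∀ j : Fin (2 * C + 20), ∑ l, ∫ z, d.th l z * ‖(o j (d.iv l) : RdWvPar.Ph → ℂ) z‖ ^ 2 ∂((P.rd hP).rw d.n)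
        ≤ (2 ^ d.n : ℕ) * (((2 : ℝ)⁻¹ ^ d.n) ^ ((J + 2 : ℕ) : ℝ) * d.e) := fun j => by
      refine (fz_ao_lab_sum d.L (2 ^ d.n) d.iv hd.iv_in d.th hd.th_meas hd.th_nn hd.th_sum (o j)).trans ?_
      refine (Finset.sum_le_sum fun i _ => ho j i).trans ?_
      rw [Finset.sum_const, Finset.card_range, nsmul_eq_mul]
      exact le_rfl
    refine le_trans (mul_le_mul_of_nonneg_left (add_le_add (Finset.sum_le_sum fun j _ => hers j) (Finset.sum_le_sum fun j _ => hob j)) hM0) ?_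
    rw [Finset.sum_const, Finset.card_univ, Fintype.card_fin, nsmul_eq_mul]
    have := fz_ao_out_num C J d.n hn3 d.e he
    push_cast at this ⊢
    exact this
  · have hdec := fz_ao_dec P hP C d.b0 hd.gen.1 (fz_ao_tS d hd hS0 hn1) d.G hd.spec R (tmL d.n (d.iv l)) d.n d.bT
    have hm : d.m l = ∫ z, d.th l z * ‖((P.rd hP).an (tmL d.n (d.iv l)) d.n d.bT d.G : RdWvPar.Ph → ℂ) z‖ ^ 2 ∂((P.rd hP).rw d.n) := rfl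
    have hsq := fz_ao_sum_sq (ζ := (P.rd hP).rw d.n) (d.th l) (hd.th_meas l) (hd.th_nn l) (hth1 l)
      (Sum.elim (fun j : Fin (2 * C + 20) => u j (d.iv l)) (fun j : Fin (2 * C + 20) => o j (d.iv l)))
    rw [Fintype.sum_sum_type, Fintype.sum_sum_type, Fintype.card_sum, Fintype.card_fin] at hsq
    simp only [Sum.elim_inl, Sum.elim_inr] at hsq
    rw [hm, hdec]
    refine hsq.trans ?_
    have hxm : ∀ j, (d.xp η P (fzA C j) R (d.s ^ (-g1)) (θ j)).m l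
        = ∫ z', θ j l z' * ‖(w j (d.iv l) : FzOm × ℝ × ℝ → ℂ) z'‖ ^ 2 ∂(fzHy P (fzA C j)).rw := fun j => fz_ao_xp_m d η P (fzA C j) R _ (θ j) l
    have hx0 : ∀ j, 0 ≤ (d.xp η P (fzA C j) R (d.s ^ (-g1)) (θ j)).m l := fun j => by
      rw [hxm j]
      exact integral_nonneg fun z => mul_nonneg (hθ0 j l z) (by positivity)
    have hsum : ∑ j, ∫ z, d.th l z * ‖(u j (d.iv l) : RdWvPar.Ph → ℂ) z‖ ^ 2 ∂((P.rd hP).rw d.n)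
        ≤ 486 * ∑ j, (d.xp η P (fzA C j) R (d.s ^ (-g1)) (θ j)).m l + ∑ j, er j l := by
      rw [Finset.mul_sum, ← Finset.sum_add_distrib]
      exact Finset.sum_le_sum fun j _ => by rw [hxm j]; exact hmain j l
    have hX0 : 0 ≤ ∑ j, (d.xp η P (fzA C j) R (d.s ^ (-g1)) (θ j)).m l := Finset.sum_nonneg fun j _ => hx0 j
    have hcast : (((2 * C + 20 + (2 * C + 20) : ℕ)) : ℝ) = 2 * (2 * (C : ℝ) + 20) := by push_cast; ring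
    rw [hcast]
    have h3 := mul_le_mul_of_nonneg_left (add_le_add_left hsum (∑ j, ∫ z, d.th l z * ‖(o j (d.iv l) : RdWvPar.Ph → ℂ) z‖ ^ 2 ∂((P.rd hP).rw d.n))) hM0
    refine h3.trans ?_
    have hC0 : (0 : ℝ) ≤ C := Nat.cast_nonneg C
    have h4 : 2 * (2 * (C : ℝ) + 20) * 486 ≤ 2 ^ 13 * (C + 10) := by nlinarith
    have h5 := mul_le_mul_of_nonneg_right h4 hX0
    nlinarith [h5]

/-- **OUT**, order `Ds | Zf | g0, g1 | C, J | A, n0` -/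
theorem fz_ao_out (η : ℝ) (Ds : ℝ) (hDs : 0 < Ds) :
    ∃ Zf : ℝ, ∀ g0 g1 : ℝ, 0 < g0 → g0 ≤ 1 → 0 < g1 → ∀ C J : ℕ, ∃ A n0 : ℕ, ∀ (d : FzDat) (Dt : ℝ), n0 ≤ d.n → d.Ok η C A Ds Dt g0 → d.fs ≤ d.s ^ Zf →
      ∃ (θ : (j : Fin (2 * C + 20)) → Fin d.L → FzOm × ℝ × ℝ → ℝ) (er : Fin d.L → ℝ),
        (∀ j, d.Asg (d.P (fzS Ds)) (fzA C j) (d.s ^ (-g1)) (θ j)) ∧ (∀ l, 0 ≤ er l) ∧ ∑ l, er l ≤ d.s ^ (J : ℝ) * d.e ∧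
        ∀ l, d.m l ≤ 2 ^ 13 * (C + 10) * ∑ j, (d.xp η (d.P (fzS Ds)) (fzA C j) (d.s ^ (-g0) / 4) (d.s ^ (-g1)) (θ j)).m l + er l := by
  obtain ⟨Z1, hX⟩ := fz_ao_xf (fzS Ds) (4 * Ds + 9) (by unfold fzS; linarith) (by linarith)
  obtain ⟨Z2, hO⟩ := fz_ao_ou Ds hDs
  refine ⟨max Z1 Z2, fun g0 g1 hg0 hg0' hg1 C J => ?_⟩
  obtain ⟨n1, hX1⟩ := hX (g1 / 2) (half_pos hg1) C (J + 2)
  obtain ⟨A, n2, hO1⟩ := hO g0 hg0 hg0' C (J + 2)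
  refine ⟨A, max (max n1 n2) (max (C + 12) (max ⌈4 / g1⌉₊ (4 * (2 * C + 20) ^ 2))), fun d Dt hn hd hZ => ?_⟩
  have hs0 : 0 < d.s := by unfold FzDat.s; positivity
  have hs1 : d.s ≤ 1 := by unfold FzDat.s; exact pow_le_one₀ (by norm_num) (by norm_num)
  have hZ1 : d.fs ≤ d.s ^ Z1 := hZ.trans (Real.rpow_le_rpow_of_exponent_ge hs0 hs1 (le_max_left _ _))
  have hZ2 : d.fs ≤ d.s ^ Z2 := hZ.trans (Real.rpow_le_rpow_of_exponent_ge hs0 hs1 (le_max_right _ _))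
  have hna : n1 ≤ d.n := le_trans (le_trans (le_max_left _ _) (le_max_left _ _)) hn
  have hnb : n2 ≤ d.n := le_trans (le_trans (le_max_right _ _) (le_max_left _ _)) hn
  have hnc : C + 12 ≤ d.n := le_trans (le_trans (le_max_left _ _) (le_max_right _ _)) hn
  have hnd : ⌈4 / g1⌉₊ ≤ d.n := le_trans (le_trans (le_trans (le_max_left _ _) (le_max_right _ _)) (le_max_right _ _)) hn
  have hne : 4 * (2 * C + 20) ^ 2 ≤ d.n := le_trans (le_trans (le_trans (le_max_right _ _) (le_max_right _ _)) (le_max_right _ _)) hn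
  have hn2 : 4 ≤ g1 * d.n := by
    have h3 : 4 / g1 ≤ d.n := (Nat.le_ceil _).trans (by exact_mod_cast hnd)
    rw [div_le_iff₀ hg1] at h3
    linarith
  exact fz_ao_one η Ds g0 g1 Dt Z1 hDs hg1 C J A d hd hZ1 hnc hn2 (hne.trans Nat.lt_two_pow_self.le)
    (fun h j T k β hc w => hX1 d.p.H d.fs d.n h j T k β hna hc w) (fun j => hO1 d η Dt j hnb hd hZ2)

/-- **OUT** = `fz_out` of `Fz/Main.lean` -/
theorem fz_ao_outB (η : ℝ) : FzOutB η := by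
  intro Ds g1 hDs hg1
  obtain ⟨Zf, h⟩ := fz_ao_out η Ds hDs
  exact ⟨Zf, fun g0 hg0 hg0' C J => h g0 g1 hg0 hg0' hg1 C J⟩

end Claimed.Agent.R256
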