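-- KEEP
import Claimed.Agent.R256.Fz.Seam
import Claimed.Agent.R256.Fz.Top
import Claimed.Agent.R256.Fz.AsmOut
import Claimed.Agent.R256.Fz.AsmInMain
import Claimed.Agent.R256.Cyl.Contract

/-!
# Row 256 (LS paper), folder Fz, file Main : FLAT-RATE = IN + OUT          (chief helper207; prefix `fz_`)          LINK FILE

Plan: report 951 (kind plan256).      Definitions: `Fz/MDefs.lean`;   statements `FzInB`, `FzOutB` and the glue `fz_top` (helper28, proved): `Fz/Top.lean`.      UNITS NEVER IMPORT THIS FILE (it imports their final files).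
* `fz_out : FzOutB η`      **OUT** (owner helper199, `Fz/AsmOut*.lean`): `m l ≤ K Σ_j m'_j l + e l`, `Σ e l ≤ δ^J e`, `K = 2^13 (C+10)`.      ORDER `Ds, g1 | Zf | g0 | C, J | A, n0`.
* `fz_in : FzInB η Γc`     **IN** (owner helper89, `Fz/AsmIn*.lean`): every hybrid experiment obeys `CyTrRate (sfHy η)`: `rd ≤ 2^(-(1/2 - Γc - γ) n) e √bq`.      ORDER `γ, Ds | Dt, Zf | g0, g1 | C | A, n0`.
* `fz_flat_rate`           FLAT-RATE.
-/

set_option autoImplicit false

namespace Claimed.Agent.R256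

open MeasureTheory
open scoped ENNReal

/-- **OUT** (07 l.1085-1183, terminal half).      OWNER helper199 -/
theorem fz_out (η : ℝ) (h0 : 0 < η) (h1 : η < 1) : FzOutB η :=
  fz_ao_outB η

/-- **IN** (07 l.1085-1183, input half + `CyTrRate`).      OWNER helper89 -/
theorem fz_in (η Γc : ℝ) (h0 : 0 < η) (h1 : η < 1) (hhy : (cylHyb η).Rate Γc) (hc0 : 0 ≤ Γc) : FzInB η Γc :=
  fz_ai_in η Γc h0 h1 (cy_trrate (sfHy η) (cyHypHy η h0 h1) (cy_jit_hy η h0 h1)) ((cylHyb η).bs_gam_le hc0 hhy) fz_w_spec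

/-- **FLAT-RATE** -/
theorem fz_flat_rate (η Γc : ℝ) (h0 : 0 < η) (h1 : η < 1) (hhy : (cylHyb η).Rate Γc) (hc0 : 0 ≤ Γc) : FzFlatRate η Γc :=
  fz_top η Γc h0 h1 hc0 (fz_in η Γc h0 h1 hhy hc0) (fz_out η h0 h1)

end Claimed.Agent.R256
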